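import Mathlib.LinearAlgebra.QuadraticForm.Basis
import Vale.Agent.P011.H182.QWa
import Vale.Agent.P011.H698.DensFF
import Vale.Agent.P011.Hey.Fin0

/-!
Function fields: zeros of a quadratic form near given local zeros and outside a hypersurface
(every characteristic).
-/

namespace Vale.Agent.P011.H167.RhoF

open Vale.Agent.P011.H738 Vale.Agent.P011.H271 Topology QuadraticMap Module

section places

variable {k : Type} [Field k]

/-- The balls of the absolute value are neighbourhoods. -/
theorem ball_mem (v : Place k) (α : v.comp) {γ : ℝ} (hγ : 0 < γ) :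
    {y : v.comp | ‖y - α‖ < γ} ∈ 𝓝 α := by
  have h1 : {y : v.comp | ‖y - α‖ < γ} = Metric.ball α γ := by
    ext y
    rw [Set.mem_ofPred_eq, Metric.mem_ball, dist_eq_norm]
  rw [h1]
  exact Metric.ball_mem_nhds α hγ

variable [GFF k]

/-- There are infinitely many places. -/
theorem exists_notMem (T : Finset (Place k)) : ∃ v : Place k, v ∉ T := by
  classical
  by_contra hcon
  push Not at hcon
  have hinf : Infinite k := Vale.Agent.P011.Hey.gff_infinite k
  have hE := place_finite_le (k := k) (fun _ => 1) (by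
    have : {v : Place k | (1 : ℝ) < 1} = ∅ := by
      ext v
      simp
    rw [this]
    exact Set.finite_empty)
  -- a place
  obtain ⟨q⟩ : Nonempty (Place k) := by
    by_contra h
    rw [not_nonempty_iff] at h
    exact Set.infinite_univ (α := k) (hE.subset fun x _ v => (h.false v).elim)
  obtain ⟨t, ht⟩ := q.normalized.2.1
  have ht' : q.abv t = qq q := ht
  have hq1 : (1 : ℝ) < qq q := one_lt_qq' q
  have hπ : q.abv t⁻¹ < 1 := by
    rw [map_inv₀, ht']
    exact inv_lt_one_of_one_lt₀ hq1
  have hπ0 : 0 < q.abv t⁻¹ := by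
    rw [map_inv₀, ht']
    exact inv_pos.mpr (zero_lt_one.trans hq1)
  obtain ⟨x, hx⟩ := Vale.Agent.P011.H698.place_weak T
    (fun v => if h : (v : Place k) = q then algebraMap k _ t⁻¹ else 0) hπ0
  have hxq : q.abv x = q.abv t⁻¹ := by
    have h1 := hx ⟨q, hcon q⟩
    simp only [dite_true] at h1
    rw [← map_sub, norm_alg] at h1
    have h2 := q.nonarch (x - t⁻¹) t⁻¹
    rw [sub_add_cancel, max_eq_right h1.le] at h2
    refine le_antisymm h2 (not_lt.mp fun h3 => ?_)
    have h4 := q.nonarch (-(x - t⁻¹)) x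
    have h5 : -(x - t⁻¹) + x = t⁻¹ := by ring
    rw [h5, q.abv.map_neg] at h4
    exact absurd (h4.trans_lt (max_lt h1 h3)) (lt_irrefl _)
  have hx1 : ∀ v : Place k, v.abv x ≤ 1 := by
    intro v
    by_cases hv : v = q
    · rw [hv, hxq]
      exact hπ.le
    · have h1 := hx ⟨v, hcon v⟩
      simp only [hv, dite_false, sub_zero] at h1
      rw [norm_alg] at h1
      exact (h1.trans hπ).le
  have hinj : Function.Injective fun n : ℕ => x ^ n := by
    intro a b h
    have h1 : q.abv x ^ a = q.abv x ^ b := by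
      rw [← map_pow, ← map_pow]
      exact congrArg q.abv h
    rw [hxq] at h1
    exact pow_right_injective₀ hπ0 hπ.ne h1
  refine Set.infinite_range_of_injective hinj (hE.subset ?_)
  rintro _ ⟨n, rfl⟩ v
  change v.abv (x ^ n) ≤ 1
  rw [map_pow]
  exact pow_le_one₀ (v.abv.nonneg _) (hx1 v)

omit [GFF k] in
/-- The field is dense in a finite product of completions. -/
theorem dense_prod (T : Finset (Place k)) :
    DenseRange fun (s : k) (v : T) => algebraMap k (v : Place k).comp s := by
  rw [Metric.denseRange_iff]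
  intro x ε hε
  obtain ⟨a, ha⟩ := Vale.Agent.P011.H698.place_weak T x hε
  refine ⟨a, ?_⟩
  rw [dist_comm, dist_pi_lt_iff hε]
  intro v
  rw [dist_eq_norm]
  exact ha v

omit [GFF k] in
/-- The same for tuples. -/
theorem dense_tuple (T : Finset (Place k)) (ι : Type*) [Finite ι] :
    DenseRange fun (s : ι → k) (v : T) (i : ι) => algebraMap k (v : Place k).comp (s i) := by
  have h1 : DenseRange (Pi.map (fun (_ : ι) (s : k) (v : T) =>
      algebraMap k (v : Place k).comp s)) := DenseRange.piMap fun _ => dense_prod T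
  have h2 : Continuous fun (x : ι → (v : T) → (v : Place k).comp) (v : T) (i : ι) => x i v := by
    fun_prop
  have h3 : DenseRange fun (x : ι → (v : T) → (v : Place k).comp) (v : T) (i : ι) => x i v :=
    Function.Surjective.denseRange fun y => ⟨fun i v => y v i, rfl⟩
  exact h3.comp h1 h2

end places

section form

variable {k : Type} [Field k]
variable {V : Type*} [AddCommGroup V] [Module k V] {ι : Type*} [Fintype ι]

/-- Coefficients of a quadratic form in coordinates. -/
theorem exists_cf (Q : QuadraticForm k V) (B : Basis ι k V) : ∃ c : ι → ι → k,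
    ∀ z : V, Q z = ∑ i, ∑ j, c i j * (B.repr z i * B.repr z j) := by
  classical
  have : Module.Free k V := Module.Free.of_basis B
  obtain ⟨β, hβ⟩ := LinearMap.BilinMap.toQuadraticMap_surjective (R := k) (M := V) (N := k) Q
  refine ⟨fun i j => β (B i) (B j), fun z => ?_⟩
  rw [← hβ, LinearMap.BilinMap.toQuadraticMap_apply]
  have h1 : ∀ (g : V →ₗ[k] k), g z = ∑ j, B.repr z j * g (B j) := by
    intro g
    conv_lhs => rw [← B.sum_repr z]
    rw [map_sum]
    exact Finset.sum_congr rfl fun j _ => by rw [map_smul, smul_eq_mul]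
  have h2 : β z z = ∑ i, B.repr z i * β (B i) z := h1 (β.flip z)
  rw [h2]
  refine Finset.sum_congr rfl fun i _ => ?_
  rw [h1 (β (B i)), Finset.mul_sum]
  exact Finset.sum_congr rfl fun j _ => by ring

/-- The coefficients. -/
noncomputable def cf (Q : QuadraticForm k V) (B : Basis ι k V) : ι → ι → k :=
  (exists_cf Q B).choose

theorem Q_eq_sum (Q : QuadraticForm k V) (B : Basis ι k V) (z : V) :
    Q z = ∑ i, ∑ j, cf Q B i j * (B.repr z i * B.repr z j) := (exists_cf Q B).choose_spec z

/-- The quadratic form over the completion, in coordinates. -/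
noncomputable def QC (Q : QuadraticForm k V) (B : Basis ι k V) (v : Place k) :
    QuadraticForm v.comp (ι → v.comp) :=
  ∑ i, ∑ j, (algebraMap k v.comp (cf Q B i j)) •
    QuadraticMap.linMulLin (LinearMap.proj i) (LinearMap.proj j)

theorem QC_apply (Q : QuadraticForm k V) (B : Basis ι k V) (v : Place k)
    (x : ι → v.comp) : QC Q B v x =
      ∑ i, ∑ j, algebraMap k v.comp (cf Q B i j) * (x i * x j) := by
  simp [QC, Algebra.smul_def]

/-- The coordinates as a semilinear map. -/
noncomputable def jC (B : Basis ι k V) (v : Place k) :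
    V →ₛₗ[algebraMap k v.comp] (ι → v.comp) where
  toFun z i := algebraMap k v.comp (B.repr z i)
  map_add' x y := by
    ext i
    simp
  map_smul' c x := by
    ext i
    simp

omit [Fintype ι] in
theorem jC_apply (B : Basis ι k V) (v : Place k) (z : V) (i : ι) :
    jC B v z i = algebraMap k v.comp (B.repr z i) := rfl

theorem QC_jC (Q : QuadraticForm k V) (B : Basis ι k V) (v : Place k) (z : V) :
    QC Q B v (jC B v z) = algebraMap k v.comp (Q z) := by
  rw [QC_apply, Q_eq_sum Q B z, map_sum]
  refine Finset.sum_congr rfl fun i _ => ?_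
  rw [map_sum]
  refine Finset.sum_congr rfl fun j _ => ?_
  rw [jC_apply, jC_apply, ← map_mul, ← map_mul]

theorem QC_cont (Q : QuadraticForm k V) (B : Basis ι k V) (v : Place k) :
    Continuous (QC Q B v) := by
  have : (QC Q B v : (ι → v.comp) → v.comp) = fun x =>
      ∑ i, ∑ j, algebraMap k v.comp (cf Q B i j) * (x i * x j) :=
    funext fun x => QC_apply Q B v x
  rw [this]
  fun_prop

theorem polar_QC (Q : QuadraticForm k V) (B : Basis ι k V) (v : Place k)
    (x y : V) : polar (QC Q B v) (jC B v x) (jC B v y) = algebraMap k v.comp (polar Q x y) :=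
  Vale.Agent.P011.H182.QW.polar_map Q (QC Q B v) (jC B v) (QC_jC Q B v) x y

theorem eval_jC (B : Basis ι k V) (v : Place k) (f : MvPolynomial ι k) (z : V) :
    MvPolynomial.eval₂ (algebraMap k v.comp) (jC B v z) f =
      algebraMap k v.comp (MvPolynomial.eval (B.repr z) f) := by
  rw [MvPolynomial.eval₂_eq', MvPolynomial.eval_eq', map_sum]
  refine Finset.sum_congr rfl fun m _ => ?_
  rw [map_mul, map_prod]
  congr 1
  refine Finset.prod_congr rfl fun i _ => ?_
  rw [map_pow, jC_apply]

variable [GFF k]

/-- **Zeros of a quadratic form near local zeros.** -/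
theorem exists_zero_near_completion (Q : QuadraticForm k V) (B : Basis ι k V) {p : V}
    (hp : Q p = 0) (hp1 : ∃ y, polar Q p y ≠ 0) (hp2 : ∃ y, polar Q p y = 0 ∧ Q y ≠ 0)
    (T : Finset (Place k)) (x : ∀ v : Place k, ι → v.comp)
    (hx : ∀ v ∈ T, QC Q B v (x v) = 0) (hs : ∀ v ∈ T, ∃ y, polar (QC Q B v) (x v) y ≠ 0)
    (γ : Place k → ℝ) (hγ : ∀ v ∈ T, 0 < γ v)
    (f : MvPolynomial ι k) {q : V} (hq : Q q = 0) (hq1 : ∃ y, polar Q q y ≠ 0)
    (hf : MvPolynomial.eval (B.repr q) f ≠ 0) :
    ∃ ρ : V, Q ρ = 0 ∧ (∀ v ∈ T, ∀ i, ‖algebraMap k v.comp (B.repr ρ i) - x v i‖ < γ v) ∧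
      MvPolynomial.eval (B.repr ρ) f ≠ 0 := by
  classical
  -- an auxiliary place
  obtain ⟨v₀, hv₀⟩ := exists_notMem T
  set T' : Finset (Place k) := insert v₀ T with hT'
  let X : ∀ v : T', ι → (v : Place k).comp := fun v =>
    if v.1 = v₀ then jC B v.1 q else x v.1
  have hXQ : ∀ v : T', QC Q B v.1 (X v) = 0 := by
    intro v
    by_cases h : v.1 = v₀
    · simp only [X, if_pos h, QC_jC, hq, map_zero]
    · simp only [X, if_neg h]
      exact hx v.1 ((Finset.mem_insert.mp v.2).resolve_left h)
  have hXs : ∀ v : T', ∃ y, polar (QC Q B v.1) (X v) y ≠ 0 := by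
    intro v
    by_cases h : v.1 = v₀
    · obtain ⟨y, hy⟩ := hq1
      refine ⟨jC B v.1 y, ?_⟩
      simp only [X, if_pos h]
      rw [polar_QC]
      exact (map_ne_zero _).2 hy
    · simp only [X, if_neg h]
      exact hs v.1 ((Finset.mem_insert.mp v.2).resolve_left h)
  let W : ∀ v : T', Set (ι → (v : Place k).comp) := fun v =>
    if v.1 = v₀ then {y | MvPolynomial.eval₂ (algebraMap k (v : Place k).comp) y f ≠ 0}
    else {y | ∀ i, ‖y i - x v.1 i‖ < γ v.1}
  have hW : ∀ v : T', W v ∈ 𝓝 (X v) := by
    intro v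
    by_cases h : v.1 = v₀
    · simp only [X, W, if_pos h]
      have hc : Continuous fun y : ι → (v : Place k).comp =>
          MvPolynomial.eval₂ (algebraMap k (v : Place k).comp) y f := by
        have e : (fun y : ι → (v : Place k).comp =>
            MvPolynomial.eval₂ (algebraMap k (v : Place k).comp) y f) = fun y =>
            MvPolynomial.eval y (MvPolynomial.map (algebraMap k (v : Place k).comp) f) := by
          ext y
          rw [MvPolynomial.eval_map]
        rw [e]
        exact MvPolynomial.continuous_eval _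
      refine hc.continuousAt.eventually_ne ?_
      rw [eval_jC]
      exact (map_ne_zero _).2 hf
    · simp only [X, W, if_neg h]
      have hvT : v.1 ∈ T := (Finset.mem_insert.mp v.2).resolve_left h
      have e : {y : ι → (v : Place k).comp | ∀ i, ‖y i - x v.1 i‖ < γ v.1} =
          Set.pi Set.univ fun i => {y | ‖y - x v.1 i‖ < γ v.1} := by
        ext y
        simp
      rw [e]
      refine set_pi_mem_nhds Set.finite_univ fun i _ => ?_
      exact ball_mem v.1 (x v.1 i) (hγ v.1 hvT)
  have hdV : DenseRange fun (z : V) (v : T') => jC B v.1 z := by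
    have h1 := dense_tuple T' ι
    have h2 : (fun (z : V) (v : T') => jC B v.1 z) =
        (fun (s : ι → k) (v : T') (i : ι) => algebraMap k (v : Place k).comp (s i)) ∘
          (fun z : V => (B.equivFun z : ι → k)) := by
      ext z v i
      rfl
    rw [h2]
    have h3 : Function.Surjective (fun z : V => (B.equivFun z : ι → k)) := B.equivFun.surjective
    intro y
    have h4 := h1 y
    rwa [Set.range_comp, h3.range_eq, Set.image_univ]
  obtain ⟨ρ, hρ, hρ2⟩ := Vale.Agent.P011.H182.QW.wa_field Q
    (fun v : T' => algebraMap k (v : Place k).comp) (fun v => jC B v.1)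
    (fun v => QC Q B v.1) (fun v => QC_jC Q B v.1) (fun v => QC_cont Q B v.1)
    (dense_prod T') hdV hp hp1 hp2 X hXQ hXs hW
  refine ⟨ρ, hρ, fun v hv i => ?_, ?_⟩
  · have h1 := hρ2 ⟨v, Finset.mem_insert_of_mem hv⟩
    have h2 : v ≠ v₀ := fun h => hv₀ (h ▸ hv)
    simp only [W, if_neg h2] at h1
    exact h1 i
  · have h1 := hρ2 ⟨v₀, Finset.mem_insert_self _ _⟩
    simp only [W, if_true] at h1
    intro h
    apply h1
    rw [eval_jC, h, map_zero]

end form

end Vale.Agent.P011.H167.RhoF
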