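import Vale.Agent.P011.H167.AbBasic
import Mathlib.RingTheory.PowerSeries.Expand
import Mathlib.Algebra.Order.Antidiag.Finsupp
import Mathlib.SetTheory.Cardinal.Finite
import Mathlib.Data.Real.Basic

/-! # The Euler product of the zeta function of a division algebra (helper167) -/

namespace Vale.Agent.P011.H167.Ab

open Finset

/-- the generating series of a type with a weight -/
noncomputable def gs (X : Type) (w : X → ℕ) : PowerSeries ℝ :=
  PowerSeries.mk fun k => (Nat.card {x : X // w x = k} : ℝ)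

/-- the generating series of a finite product -/
theorem coeff_gs_pi {T : Type} [Fintype T] (X : T → Type) (w : ∀ v, X v → ℕ)
    (hf : ∀ v k, Finite {x : X v // w v x = k}) (d : ℕ) :
    Finite {g : ∀ v, X v // ∑ v, w v (g v) = d} ∧
    (Nat.card {g : ∀ v, X v // ∑ v, w v (g v) = d} : ℝ) =
      PowerSeries.coeff d (∏ v, gs (X v) (w v)) := by
  classical
  let A := {l : T →₀ ℕ // l ∈ finsuppAntidiag (univ : Finset T) d}
  let f : {g : ∀ v, X v // ∑ v, w v (g v) = d} → A := fun g =>
    ⟨Finsupp.equivFunOnFinite.symm fun v => w v (g.1 v), by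
      rw [mem_finsuppAntidiag]
      exact ⟨g.2, subset_univ _⟩⟩
  have e1 : ∀ l : A, {g : {g : ∀ v, X v // ∑ v, w v (g v) = d} // f g = l} ≃
      ∀ v, {x : X v // w v x = l.1 v} := fun l =>
    { toFun := fun g v => ⟨g.1.1 v, DFunLike.congr_fun (congrArg Subtype.val g.2) v⟩
      invFun := fun y => ⟨⟨fun v => (y v).1, by
        have h1 := (mem_finsuppAntidiag.1 l.2).1
        exact (sum_congr rfl fun v _ => (y v).2).trans h1⟩,
        Subtype.ext (Finsupp.ext fun v => (y v).2)⟩
      left_inv := fun g => rfl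
      right_inv := fun y => rfl }
  have e2 : {g : ∀ v, X v // ∑ v, w v (g v) = d} ≃ Σ l : A, ∀ v, {x : X v // w v x = l.1 v} :=
    (Equiv.sigmaFiberEquiv f).symm.trans (Equiv.sigmaCongrRight e1)
  have hfin : Finite (Σ l : A, ∀ v, {x : X v // w v x = l.1 v}) := inferInstance
  refine ⟨Finite.of_equiv _ e2.symm, ?_⟩
  rw [Nat.card_congr e2, Nat.card_sigma, PowerSeries.coeff_prod]
  push_cast
  have h1 : ∀ l : A, (Nat.card (∀ v, {x : X v // w v x = l.1 v}) : ℝ) =
      ∏ v, PowerSeries.coeff (l.1 v) (gs (X v) (w v)) := by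
    intro l
    rw [Nat.card_pi]
    push_cast
    refine prod_congr rfl fun v _ => ?_
    rw [gs, PowerSeries.coeff_mk]
  rw [sum_congr rfl fun l _ => h1 l]
  exact Finset.sum_coe_sort (finsuppAntidiag (univ : Finset T) d)
    (fun l => ∏ v, PowerSeries.coeff (l v) (gs (X v) (w v)))

namespace LSys

variable {D : Type} [DivisionRing D] {ι : Type} {L : ι → Type} [∀ v, SemilatticeSup (L v)]
  {n p : ℕ} {S : LSys D ι L n p}

variable (S) in
/-- the effective local lattices -/
abbrev EffL (v : ι) : Type := {N : L v // S.std v ≤ N}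

variable (S) in
/-- the weight of an effective local lattice -/
def wt (v : ι) (N : S.EffL v) : ℕ := (S.e v * S.ind v N.1).toNat

theorem wt_cast (v : ι) (N : S.EffL v) : ((S.wt v N : ℕ) : ℤ) = S.e v * S.ind v N.1 := by
  rw [wt, Int.toNat_of_nonneg]
  have h1 := S.ind_mono v _ _ N.2
  rw [S.ind_std] at h1
  positivity

variable (S) in
/-- the number of effective local lattices of a given index -/
noncomputable def lc (v : ι) (m : ℕ) : ℕ := Nat.card {N : L v // S.std v ≤ N ∧ S.ind v N = m}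

/-- the effective lattices of weight `k` -/
def wtEquiv (v : ι) (m : ℕ) : {N : S.EffL v // S.wt v N = S.e v * m} ≃
    {N : L v // S.std v ≤ N ∧ S.ind v N = m} where
  toFun N := ⟨N.1.1, N.1.2, by
    have h1 := S.wt_cast v N.1
    rw [N.2] at h1
    push_cast at h1
    have h2 : (S.e v : ℤ) ≠ 0 := by have := S.e_pos v; omega
    exact (mul_left_cancel₀ h2 h1).symm⟩
  invFun N := ⟨⟨N.1, N.2.1⟩, by
    have h1 := S.wt_cast v ⟨N.1, N.2.1⟩
    have h2 : S.ind v N.1 = m := N.2.2
    have h3 : ((S.wt v ⟨N.1, N.2.1⟩ : ℕ) : ℤ) = S.e v * m := h1.trans (congrArg _ h2)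
    exact_mod_cast h3⟩
  left_inv N := rfl
  right_inv N := rfl

theorem wt_empty (v : ι) {k : ℕ} (hk : ¬ S.e v ∣ k) : IsEmpty {N : S.EffL v // S.wt v N = k} := by
  refine ⟨fun N => hk ?_⟩
  have h1 := S.wt_cast v N.1
  rw [N.2] at h1
  exact Int.natCast_dvd_natCast.1 ⟨_, h1⟩

theorem wt_finite (hlf : ∀ v m, Finite {N : L v // S.std v ≤ N ∧ S.ind v N = (m : ℕ)}) (v : ι)
    (k : ℕ) : Finite {N : S.EffL v // S.wt v N = k} := by
  by_cases hk : S.e v ∣ k
  · obtain ⟨m, rfl⟩ := hk
    have := hlf v m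
    exact Finite.of_equiv _ (wtEquiv v m).symm
  · have := S.wt_empty v hk
    infer_instance

theorem gs_wt (v : ι) : gs (S.EffL v) (S.wt v) =
    PowerSeries.expand (S.e v) (S.e_pos v).ne' (PowerSeries.mk fun m => (S.lc v m : ℝ)) := by
  ext k
  rw [gs, PowerSeries.coeff_mk, PowerSeries.coeff_expand]
  split_ifs with hk
  · obtain ⟨m, rfl⟩ := hk
    rw [Nat.mul_div_cancel_left _ (S.e_pos v), PowerSeries.coeff_mk, lc,
      Nat.card_congr (wtEquiv v m)]
  · have := S.wt_empty v hk
    rw [Nat.card_of_isEmpty, Nat.cast_zero]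

namespace Fam

theorem eff_std_of_lt {N : Fam S} (hN : fstd S ≤ N) {d : ℕ} (hd : N.deg = d) {v : ι}
    (hv : d < S.e v) : N v = S.std v := by
  classical
  by_contra hne
  have h0 : ∀ w, 0 ≤ S.ind w (N w) := by
    intro w
    have := S.ind_mono w _ _ (hN w)
    rwa [show (fstd S) w = S.std w from rfl, S.ind_std] at this
  have h1 : S.ind v (N v) ≠ 0 := by
    intro h
    apply hne
    exact (S.ind_eq v _ _ (hN v) (by rw [h]; exact S.ind_std v)).symm
  obtain ⟨T, hT⟩ := (N.fin.union (Set.finite_singleton v)).exists_finset_coe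
  have h2 : ∀ w, w ∉ T → N w = S.std w := by
    intro w hw
    rw [← Finset.mem_coe, hT] at hw
    simp only [Set.mem_union, Set.mem_ofPred_eq, Set.mem_singleton_iff, not_or, not_not] at hw
    exact hw.1
  have hvT : v ∈ T := by
    rw [← Finset.mem_coe, hT]
    exact Or.inr rfl
  have h3 := deg_eq_sum N h2
  have h4 : (S.e v : ℤ) * S.ind v (N v) ≤ N.deg := by
    rw [h3]
    exact Finset.single_le_sum (f := fun w => (S.e w : ℤ) * S.ind w (N w))
      (fun w _ => mul_nonneg (by positivity) (h0 w)) hvT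
  have h5 : (S.e v : ℤ) ≤ S.e v * S.ind v (N v) := by
    have := h0 v
    exact le_mul_of_one_le_right (by positivity) (by omega)
  omega

/-- effective families of small degree are supported on a finite set -/
noncomputable def effEquiv {T : Finset ι} {d : ℕ} (hT : ∀ v, v ∉ T → d < S.e v) :
    {N : Fam S // fstd S ≤ N ∧ N.deg = d} ≃
      {g : ∀ v : T, S.EffL v.1 // ∑ v : T, S.wt v.1 (g v) = d} := by
  classical
  exact
  { toFun := fun N => ⟨fun v => ⟨N.1 v, N.2.1 v⟩, by
      have h1 := deg_eq_sum N.1 (T := T) fun v hv => eff_std_of_lt N.2.1 N.2.2 (hT v hv)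
      rw [← Finset.sum_coe_sort T fun v => (S.e v : ℤ) * S.ind v (N.1 v)] at h1
      have h2 : ((∑ v : T, S.wt v.1 ⟨N.1 v.1, N.2.1 v.1⟩ : ℕ) : ℤ) = d := by
        push_cast
        have h3 : ∑ v : T, ((S.wt v.1 ⟨N.1 v.1, N.2.1 v.1⟩ : ℕ) : ℤ) =
            ∑ v : T, (S.e v.1 : ℤ) * S.ind v.1 (N.1 v.1) :=
          Finset.sum_congr rfl fun v _ => S.wt_cast v.1 ⟨N.1 v.1, N.2.1 v.1⟩
        exact h3.trans (h1.symm.trans N.2.2)
      exact_mod_cast h2⟩
    invFun := fun g => ⟨⟨fun v => if h : v ∈ T then (g.1 ⟨v, h⟩).1 else S.std v, by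
        refine T.finite_toSet.subset fun v hv => ?_
        by_contra h
        have h' : v ∉ T := h
        exact hv (dif_neg h')⟩, fun v => by
        by_cases h : v ∈ T
        · change S.std v ≤ if h : v ∈ T then (g.1 ⟨v, h⟩).1 else S.std v
          rw [dif_pos h]
          exact (g.1 ⟨v, h⟩).2
        · change S.std v ≤ if h : v ∈ T then (g.1 ⟨v, h⟩).1 else S.std v
          rw [dif_neg h], by
        rw [deg_eq_sum _ (T := T) fun v hv => dif_neg hv]
        change ∑ v ∈ T, (S.e v : ℤ) *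
            S.ind v (if h : v ∈ T then (g.1 ⟨v, h⟩).1 else S.std v) = d
        rw [← Finset.sum_coe_sort T fun v => (S.e v : ℤ) *
            S.ind v (if h : v ∈ T then (g.1 ⟨v, h⟩).1 else S.std v)]
        have h2 : ((∑ v : T, S.wt v.1 (g.1 v) : ℕ) : ℤ) = d := congrArg _ g.2
        rw [← h2]
        push_cast
        refine Finset.sum_congr rfl fun v _ => ?_
        rw [S.wt_cast v.1 (g.1 v), dif_pos v.2]⟩
    left_inv := fun N => by
      apply Subtype.ext
      ext v
      change (if h : v ∈ T then N.1 v else S.std v) = N.1 v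
      split_ifs with h
      · rfl
      · exact (eff_std_of_lt N.2.1 N.2.2 (hT v h)).symm
    right_inv := fun g => by
      apply Subtype.ext
      funext v
      apply Subtype.ext
      change (if h : v.1 ∈ T then (g.1 ⟨v.1, h⟩).1 else S.std v.1) = (g.1 v).1
      rw [dif_pos v.2] }

end Fam

theorem eff_finite (hpl : ∀ B : ℕ, {v : ι | S.e v ≤ B}.Finite)
    (hlf : ∀ v m, Finite {N : L v // S.std v ≤ N ∧ S.ind v N = (m : ℕ)}) (d : ℕ) : Finite {N : Fam S // fstd S ≤ N ∧ N.deg = d} := by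
  have hT : ∀ v, v ∉ (hpl d).toFinset → d < S.e v := by
    intro v hv
    rw [Set.Finite.mem_toFinset] at hv
    exact not_le.1 hv
  have := (coeff_gs_pi (T := (hpl d).toFinset) (fun v => S.EffL v.1) (fun v => S.wt v.1)
    (fun v k => wt_finite hlf v.1 k) d).1
  exact Finite.of_equiv _ (Fam.effEquiv hT).symm

theorem cnt_eq_coeff (hlf : ∀ v m, Finite {N : L v // S.std v ≤ N ∧ S.ind v N = (m : ℕ)})
    {T : Finset ι} {d : ℕ} (hT : ∀ v, v ∉ T → d < S.e v) :
    (S.cnt d : ℝ) = PowerSeries.coeff d (∏ v ∈ T, PowerSeries.expand (S.e v) (S.e_pos v).ne'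
      (PowerSeries.mk fun m => (S.lc v m : ℝ))) := by
  have h1 := (coeff_gs_pi (T := T) (fun v => S.EffL v.1) (fun v => S.wt v.1)
    (fun v k => wt_finite hlf v.1 k) d).2
  rw [cnt, Nat.card_congr (Fam.effEquiv hT), h1,
    ← Finset.prod_coe_sort T fun v => PowerSeries.expand (S.e v) (S.e_pos v).ne'
      (PowerSeries.mk fun m => (S.lc v m : ℝ))]
  simp_rw [gs_wt]

/-- equality of power series up to the degree `d` -/
def Agree (d : ℕ) (a b : PowerSeries ℝ) : Prop :=
  ∀ m, m ≤ d → PowerSeries.coeff m a = PowerSeries.coeff m b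

theorem Agree.mul {d : ℕ} {a b a' b' : PowerSeries ℝ} (h : Agree d a b) (h' : Agree d a' b') :
    Agree d (a * a') (b * b') := by
  intro m hm
  rw [PowerSeries.coeff_mul, PowerSeries.coeff_mul]
  refine sum_congr rfl fun x hx => ?_
  have := mem_antidiagonal.1 hx
  rw [h x.1 (by omega), h' x.2 (by omega)]

theorem Agree.prod {d : ℕ} (s : Finset ℕ) {a b : ℕ → PowerSeries ℝ} (h : ∀ i, Agree d (a i) (b i)) :
    Agree d (∏ i ∈ s, a i) (∏ i ∈ s, b i) := by
  classical
  induction s using Finset.induction_on with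
  | empty => intro m _; rw [prod_empty, prod_empty]
  | insert i s hi ih =>
    rw [prod_insert hi, prod_insert hi]
    exact (h i).mul ih

theorem Agree.rescale {d : ℕ} {a b : PowerSeries ℝ} (h : Agree d a b) (r : ℝ) :
    Agree d (PowerSeries.rescale r a) (PowerSeries.rescale r b) := by
  intro m hm
  rw [PowerSeries.coeff_rescale, PowerSeries.coeff_rescale, h m hm]

theorem rescale_expand (r : ℝ) (e : ℕ) (he : e ≠ 0) (q : ℝ) :
    PowerSeries.rescale r (1 - PowerSeries.C q * PowerSeries.X ^ e) =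
      1 - PowerSeries.C (q * r ^ e) * PowerSeries.X ^ e := by
  ext m
  rw [PowerSeries.coeff_rescale, map_sub, map_sub, PowerSeries.coeff_C_mul,
    PowerSeries.coeff_C_mul, PowerSeries.coeff_X_pow, PowerSeries.coeff_one]
  by_cases h0 : m = 0
  · subst h0
    simp [he.symm]
  · by_cases h1 : m = e
    · subst h1
      simp [h0]
      ring
    · simp [h0, h1]

theorem eq_of_mul_one {a b c : PowerSeries ℝ} (h : a * c = 1) (h' : b * c = 1) :
    a = b := by
  calc a = a * (b * c) := by rw [h', mul_one]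
    _ = b * (a * c) := by ring
    _ = b := by rw [h, mul_one]

/-- **the Euler product**: the zeta function of the division algebra in terms of that of the
centre -/
theorem cnt_mk {D1 : Type} [DivisionRing D1] {L1 : ι → Type} [∀ v, SemilatticeSup (L1 v)]
    {S1 : LSys D1 ι L1 1 p} (he : ∀ v, S.e v = S1.e v)
    (hpl : ∀ B : ℕ, {v : ι | S.e v ≤ B}.Finite)
    (hlf : ∀ v m, Finite {N : L v // S.std v ≤ N ∧ S.ind v N = (m : ℕ)})
    (hloc : ∀ v, PowerSeries.mk (fun m => (S.lc v m : ℝ)) * ∏ i ∈ range n,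
      (1 - PowerSeries.C ((((p : ℝ) ^ S.e v)) ^ i) * PowerSeries.X) = 1)
    (hlf1 : ∀ v m, Finite {N : L1 v // S1.std v ≤ N ∧ S1.ind v N = (m : ℕ)})
    (hloc1 : ∀ v, PowerSeries.mk (fun m => (S1.lc v m : ℝ)) * ∏ i ∈ range 1,
      (1 - PowerSeries.C ((((p : ℝ) ^ S1.e v)) ^ i) * PowerSeries.X) = 1) :
    PowerSeries.mk (fun d => (S.cnt d : ℝ)) = ∏ i ∈ range n,
      PowerSeries.rescale ((p : ℝ) ^ i) (PowerSeries.mk fun d => (S1.cnt d : ℝ)) := by
  classical
  -- the local identity
  have hv : ∀ v, PowerSeries.expand (S.e v) (S.e_pos v).ne'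
      (PowerSeries.mk fun m => (S.lc v m : ℝ)) = ∏ i ∈ range n, PowerSeries.rescale ((p : ℝ) ^ i)
        (PowerSeries.expand (S1.e v) (S1.e_pos v).ne'
          (PowerSeries.mk fun m => (S1.lc v m : ℝ))) := by
    intro v
    have h1 := congrArg (PowerSeries.expand (S.e v) (S.e_pos v).ne') (hloc v)
    have h2 := congrArg (PowerSeries.expand (S1.e v) (S1.e_pos v).ne') (hloc1 v)
    rw [prod_range_one, pow_zero, map_one, one_mul] at h2
    simp only [map_mul, map_prod, map_sub, map_one, PowerSeries.expand_C,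
      PowerSeries.expand_X] at h1 h2
    have h3 : ∀ i : ℕ, PowerSeries.rescale ((p : ℝ) ^ i)
        (PowerSeries.expand (S1.e v) (S1.e_pos v).ne'
          (PowerSeries.mk fun m => (S1.lc v m : ℝ))) *
        (1 - PowerSeries.C ((((p : ℝ) ^ S.e v)) ^ i) * PowerSeries.X ^ S.e v) = 1 := by
      intro i
      have h4 := congrArg (PowerSeries.rescale ((p : ℝ) ^ i)) h2
      rw [map_mul, map_one] at h4
      have h5 := rescale_expand ((p : ℝ) ^ i) (S1.e v) (S1.e_pos v).ne' 1
      rw [map_one, one_mul, one_mul] at h5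
      rw [h5] at h4
      rw [he v, ← pow_mul, mul_comm (S1.e v) i, pow_mul]
      exact h4
    have h6 : (∏ i ∈ range n, PowerSeries.rescale ((p : ℝ) ^ i)
        (PowerSeries.expand (S1.e v) (S1.e_pos v).ne'
          (PowerSeries.mk fun m => (S1.lc v m : ℝ)))) *
        ∏ i ∈ range n, (1 - PowerSeries.C ((((p : ℝ) ^ S.e v)) ^ i) *
          PowerSeries.X ^ S.e v) = 1 := by
      rw [← prod_mul_distrib]
      exact prod_eq_one fun i _ => h3 i
    exact (eq_of_mul_one h1 h6)
  ext d
  have hT : ∀ m, m ≤ d → ∀ v, v ∉ (hpl d).toFinset → m < S.e v := by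
    intro m hm v hv
    rw [Set.Finite.mem_toFinset] at hv
    exact lt_of_le_of_lt hm (not_le.1 hv)
  have h1 : Agree d (PowerSeries.mk fun d => (S1.cnt d : ℝ))
      (∏ v ∈ (hpl d).toFinset, PowerSeries.expand (S1.e v) (S1.e_pos v).ne'
      (PowerSeries.mk fun m => (S1.lc v m : ℝ))) := by
    intro m hm
    rw [PowerSeries.coeff_mk]
    exact cnt_eq_coeff hlf1 fun v hv => by
      rw [← he v]
      exact hT m hm v hv
  have h2 := Agree.prod (range n) (fun i => h1.rescale ((p : ℝ) ^ i)) d le_rfl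
  rw [PowerSeries.coeff_mk, h2, cnt_eq_coeff hlf (hT d le_rfl)]
  congr 1
  simp_rw [map_prod]
  rw [prod_comm]
  exact prod_congr rfl fun v _ => hv v

end LSys

end Vale.Agent.P011.H167.Ab
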