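import Vale.Agent.P011.H167.AbMain
import Vale.Agent.P011.H167.AbCnt

/-! # The abstract theorem with local hypotheses (helper167) -/

namespace Vale.Agent.P011.H167.Ab

namespace LSys

variable {D : Type} [DivisionRing D] {ι : Type} {L : ι → Type} [∀ v, SemilatticeSup (L v)]
  {n p : ℕ} {S : LSys D ι L n p}

/-- **the abstract theorem**: a division algebra of degree at least two is not locally split
everywhere -/
theorem false_of_loc {D1 : Type} [DivisionRing D1] {L1 : ι → Type} [∀ v, SemilatticeSup (L1 v)]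
    {S1 : LSys D1 ι L1 1 p} (v0 : ι) (he : ∀ v, S.e v = S1.e v)
    (hpl : ∀ B : ℕ, {v : ι | S.e v ≤ B}.Finite)
    (hfin : ∀ N : Fam S, (N.H0 : Set D).Finite)
    (hgood : ∃ m : ℕ, ((fstd S).tw v0 ((S.pi v0)⁻¹ ^ m)).Good)
    (hlf : ∀ v m, Finite {N : L v // S.std v ≤ N ∧ S.ind v N = (m : ℕ)})
    (hloc : ∀ v, PowerSeries.mk (fun m => (S.lc v m : ℝ)) * ∏ i ∈ Finset.range n,
      (1 - PowerSeries.C ((((p : ℝ) ^ S.e v)) ^ i) * PowerSeries.X) = 1)
    (hfin1 : ∀ N : Fam S1, (N.H0 : Set D1).Finite)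
    (hgood1 : ∃ m : ℕ, ((fstd S1).tw v0 ((S1.pi v0)⁻¹ ^ m)).Good)
    (hlf1 : ∀ v m, Finite {N : L1 v // S1.std v ≤ N ∧ S1.ind v N = (m : ℕ)})
    (hloc1 : ∀ v, PowerSeries.mk (fun m => (S1.lc v m : ℝ)) * ∏ i ∈ Finset.range 1,
      (1 - PowerSeries.C ((((p : ℝ) ^ S1.e v)) ^ i) * PowerSeries.X) = 1)
    (hn : 2 ≤ n) : False :=
  false_of (he v0) hfin hgood hfin1 hgood1
    (fun d => eff_finite (fun B => by simpa only [← he] using hpl B) hlf1 d)
    (cnt_mk he hpl hlf hloc hlf1 hloc1) hn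

end LSys

end Vale.Agent.P011.H167.Ab
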