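import Vale.Agent.P011.H167.AbDefs

/-! # Local lemmas in the abstract letters (helper167) -/

namespace Vale.Agent.P011.H167.Ab

open Set

namespace LSys

variable {D : Type} [DivisionRing D] {ι : Type} {L : ι → Type} [∀ v, SemilatticeSup (L v)]
  {n p : ℕ} (S : LSys D ι L n p)

theorem act_inv (v : ι) (N : L v) (x : Dˣ) : S.act v (S.act v N x) x⁻¹ = N := by
  rw [← S.act_mul, mul_inv_cancel, S.act_one]

theorem act_inv' (v : ι) (N : L v) (x : Dˣ) : S.act v (S.act v N x⁻¹) x = N := by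
  rw [← S.act_mul, inv_mul_cancel, S.act_one]

theorem act_le_iff (v : ι) (N N' : L v) (x : Dˣ) :
    S.act v N x ≤ N' ↔ N ≤ S.act v N' x⁻¹ := by
  constructor
  · intro h
    have := S.act_mono v x⁻¹ _ _ h
    rwa [S.act_inv] at this
  · intro h
    have := S.act_mono v x _ _ h
    rwa [S.act_inv'] at this

theorem act_comm_pi (v w : ι) (N : L v) (x : Dˣ) :
    S.act v (S.act v N (S.pi w)) x = S.act v (S.act v N x) (S.pi w) := by
  rw [← S.act_mul, ← S.act_mul, S.pi_comm]

theorem act_comm_pi_inv (v w : ι) (N : L v) (x : Dˣ) :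
    S.act v (S.act v N (S.pi w)⁻¹) x = S.act v (S.act v N x) (S.pi w)⁻¹ := by
  rw [← S.act_mul, ← S.act_mul]
  congr 1
  rw [inv_mul_eq_iff_eq_mul, ← mul_assoc, S.pi_comm, mul_assoc, mul_inv_cancel, mul_one]

theorem M_mono {v : ι} {N N' : L v} (h : N ≤ N') : S.M v N ≤ S.M v N' := by
  intro x hx
  by_cases h0 : x = 0
  · rw [h0]; exact (S.M v N').zero_mem
  · exact (S.mem_iff v N' (Units.mk0 x h0)).2 (((S.mem_iff v N (Units.mk0 x h0)).1 hx).trans h)

theorem mem_M_act (v : ι) (N : L v) (x : Dˣ) (y : D) :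
    y ∈ S.M v (S.act v N x) ↔ y * ((x⁻¹ : Dˣ) : D) ∈ S.M v N := by
  by_cases h0 : y = 0
  · rw [h0, zero_mul]
    exact ⟨fun _ => (S.M v N).zero_mem, fun _ => (S.M v _).zero_mem⟩
  · have h1 := S.mem_iff v (S.act v N x) (Units.mk0 y h0)
    have h2 := S.mem_iff v N (Units.mk0 y h0 * x⁻¹)
    rw [Units.val_mk0] at h1
    rw [Units.val_mul, Units.val_mk0] at h2
    rw [h1, h2, S.act_mul, S.act_le_iff v (S.act v (S.std v) (Units.mk0 y h0)), inv_inv]

theorem one_mem_std (v : ι) : (1 : D) ∈ S.M v (S.std v) := by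
  have := S.mem_iff v (S.std v) 1
  rw [Units.val_one, S.act_one] at this
  exact this.2 le_rfl

/-- right multiplication by `x` as an automorphism of the additive group -/
def mulr (x : Dˣ) : D ≃+ D where
  toFun y := y * x
  invFun y := y * ((x⁻¹ : Dˣ) : D)
  left_inv y := by
    change y * x * ((x⁻¹ : Dˣ) : D) = y
    rw [mul_assoc, Units.mul_inv, mul_one]
  right_inv y := by
    change y * ((x⁻¹ : Dˣ) : D) * x = y
    rw [mul_assoc, Units.inv_mul, mul_one]
  map_add' y z := add_mul y z x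

theorem map_M (v : ι) (N : L v) (x : Dˣ) :
    (S.M v N).map (mulr x : D ≃+ D).toAddMonoidHom = S.M v (S.act v N x) := by
  ext y
  rw [S.mem_M_act]
  constructor
  · rintro ⟨z, hz, rfl⟩
    change z * x * ((x⁻¹ : Dˣ) : D) ∈ S.M v N
    rw [mul_assoc, Units.mul_inv, mul_one]
    exact hz
  · intro hy
    refine ⟨_, hy, ?_⟩
    change y * ((x⁻¹ : Dˣ) : D) * x = y
    rw [mul_assoc, Units.inv_mul, mul_one]

theorem relIndex_act (v : ι) (N N' : L v) (x : Dˣ) :
    (S.M v (S.act v N x)).relIndex (S.M v (S.act v N' x)) =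
      (S.M v N).relIndex (S.M v N') := by
  rw [← S.map_M, ← S.map_M]
  exact AddSubgroup.relIndex_map_map_of_injective _ _ (mulr x : D ≃+ D).injective

theorem ind_act_of_le (v : ι) {N N' : L v} (h : N ≤ N') (x : Dˣ) :
    S.ind v (S.act v N' x) - S.ind v (S.act v N x) = S.ind v N' - S.ind v N := by
  have h1 := S.relIndex_act v N N' x
  have h2 := S.act_mono v x _ _ h
  rw [S.index v _ _ h, S.index v _ _ h2] at h1
  have h3 := Nat.pow_right_injective S.one_lt h1
  have h4 := S.ind_mono v _ _ h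
  have h5 := S.ind_mono v _ _ h2
  have h6 := Nat.eq_of_mul_eq_mul_left S.n_pos h3
  have h7 := Nat.eq_of_mul_eq_mul_left (S.e_pos v) h6
  omega

theorem ind_act (v : ι) (N : L v) (x : Dˣ) :
    S.ind v (S.act v N x) = S.ind v N + S.ind v (S.act v (S.std v) x) := by
  have h1 := S.ind_act_of_le v (le_sup_left : N ≤ N ⊔ S.std v) x
  have h2 := S.ind_act_of_le v (le_sup_right : S.std v ≤ N ⊔ S.std v) x
  have h3 := S.ind_std v
  omega

theorem ind_pi_inv (v : ι) (N : L v) : S.ind v (S.act v N (S.pi v)⁻¹) = S.ind v N + n := by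
  have h := S.ind_pi v (S.act v N (S.pi v)⁻¹)
  rw [S.act_inv'] at h
  omega

theorem ind_pi_pow (v : ι) (N : L v) (m : ℕ) :
    S.ind v (S.act v N (S.pi v ^ m)) = S.ind v N - m * n := by
  induction m with
  | zero => rw [pow_zero, S.act_one]; simp
  | succ m ih =>
    rw [pow_succ, S.act_mul, S.ind_pi, ih]
    push_cast
    ring

variable {S}

namespace Fam

theorem le_def {N N' : Fam S} : N ≤ N' ↔ ∀ v, N v ≤ N' v := Iff.rfl

theorem le_refl (N : Fam S) : N ≤ N := fun _ => _root_.le_refl _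

theorem le_trans {N N' N'' : Fam S} (h : N ≤ N') (h' : N' ≤ N'') : N ≤ N'' :=
  fun v => (h v).trans (h' v)

/-- the supremum of two families -/
def sup (N N' : Fam S) : Fam S where
  at' v := N v ⊔ N' v
  fin := by
    refine (N.fin.union N'.fin).subset fun v hv => ?_
    by_contra h
    simp only [mem_union, mem_ofPred_eq, not_or, not_not] at h
    exact hv (by rw [h.1, h.2, sup_idem])

theorem le_sup (N N' : Fam S) : N ≤ N.sup N' := fun _ => le_sup_left

theorem le_sup' (N N' : Fam S) : N' ≤ N.sup N' := fun _ => le_sup_right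

theorem mem_H0 {N : Fam S} {x : D} : x ∈ N.H0 ↔ ∀ v, x ∈ S.M v (N v) := by
  rw [H0, AddSubgroup.mem_iInf]

theorem H0_mono {N N' : Fam S} (h : N ≤ N') : N.H0 ≤ N'.H0 := by
  intro x hx
  rw [mem_H0] at hx ⊢
  exact fun v => S.M_mono (h v) (hx v)

/-- finite support of the degree -/
theorem supp_fin (N : Fam S) :
    (Function.support fun v => (S.e v : ℤ) * S.ind v (N v)).Finite := by
  refine N.fin.subset fun v hv => ?_
  intro h
  apply hv
  change (S.e v : ℤ) * S.ind v (N.at' v) = 0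
  rw [h, S.ind_std, mul_zero]

theorem deg_eq_sum (N : Fam S) {T : Finset ι} (hT : ∀ v, v ∉ T → N v = S.std v) :
    N.deg = ∑ v ∈ T, (S.e v : ℤ) * S.ind v (N v) := by
  rw [deg]
  refine finsum_eq_sum_of_support_subset _ fun v hv => ?_
  by_contra h
  apply hv
  change (S.e v : ℤ) * S.ind v (N.at' v) = 0
  rw [hT v h, S.ind_std, mul_zero]

theorem deg_fstd : (fstd S).deg = 0 := by
  rw [deg_eq_sum (fstd S) (T := ∅) (fun v _ => rfl), Finset.sum_empty]

theorem deg_mono {N N' : Fam S} (h : N ≤ N') : N.deg ≤ N'.deg := by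
  classical
  obtain ⟨T, hT⟩ := (N.fin.union N'.fin).exists_finset_coe
  have h1 : ∀ v, v ∉ T → N v = S.std v ∧ N' v = S.std v := by
    intro v hv
    rw [← Finset.mem_coe, hT] at hv
    simpa only [mem_union, mem_ofPred_eq, not_or, not_not] using hv
  rw [deg_eq_sum N (fun v hv => (h1 v hv).1), deg_eq_sum N' (fun v hv => (h1 v hv).2)]
  refine Finset.sum_le_sum fun v _ => ?_
  exact mul_le_mul_of_nonneg_left (S.ind_mono v _ _ (h v)) (by positivity)

end Fam

end LSys

end Vale.Agent.P011.H167.Ab
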