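import Mathlib.GroupTheory.Index
import Mathlib.Algebra.BigOperators.Finprod
import Mathlib.Algebra.Group.Subgroup.Finite
import Mathlib.Algebra.Field.Defs
import Mathlib.Algebra.Ring.Int.Defs
import Mathlib.Order.Lattice
import Mathlib.Data.Set.Finite.Basic
import Mathlib.Tactic

/-! # Abstract letters for the zeta function of a division algebra (helper167)

`D` is a division ring, `ι` the set of places, `L v` the local lattices at `v` (rows), `std v` the
standard lattice, `M v N` the elements of `D` whose rows are in `N`, `act v N x = N x`, `ind v N`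
the exponent of the index of the standard lattice in `N`, `p ^ e v` the order of the residue field,
`pi v` a uniformizer in the centre of `D`. -/

namespace Vale.Agent.P011.H167.Ab

open Set

/-- a division ring with local lattices at all places -/
structure LSys (D : Type) [DivisionRing D] (ι : Type) (L : ι → Type) [∀ v, SemilatticeSup (L v)]
    (n p : ℕ) where
  /-- the degree of a place -/
  e : ι → ℕ
  /-- the standard lattice -/
  std : ∀ v, L v
  /-- the elements of `D` whose rows are in the lattice -/
  M : ∀ v, L v → AddSubgroup D
  /-- right multiplication -/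
  act : ∀ v, L v → Dˣ → L v
  /-- the exponent of the index of the standard lattice -/
  ind : ∀ v, L v → ℤ
  /-- a uniformizer -/
  pi : ι → Dˣ
  e_pos : ∀ v, 0 < e v
  one_lt : 1 < p
  n_pos : 0 < n
  act_one : ∀ v N, act v N 1 = N
  act_mul : ∀ v N x y, act v N (x * y) = act v (act v N x) y
  act_mono : ∀ v x N N', N ≤ N' → act v N x ≤ act v N' x
  mem_iff : ∀ v N (x : Dˣ), (x : D) ∈ M v N ↔ act v (std v) x ≤ N
  ind_std : ∀ v, ind v (std v) = 0
  ind_mono : ∀ v N N', N ≤ N' → ind v N ≤ ind v N'
  ind_eq : ∀ v N N', N ≤ N' → ind v N = ind v N' → N = N'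
  index : ∀ v N N', N ≤ N' →
    (M v N).relIndex (M v N') = p ^ (n * (e v * (ind v N' - ind v N).toNat))
  act_std : ∀ x : Dˣ, {v | act v (std v) x ≠ std v}.Finite
  pi_comm : ∀ v x, pi v * x = x * pi v
  ind_pi : ∀ v N, ind v (act v N (pi v)) = ind v N - n

namespace LSys

variable {D : Type} [DivisionRing D] {ι : Type} {L : ι → Type} [∀ v, SemilatticeSup (L v)]
  {n p : ℕ} (S : LSys D ι L n p)

/-- a family of local lattices, almost all standard -/
@[ext] structure Fam where
  /-- the lattice at a place -/
  at' : ∀ v, L v
  fin : {v | at' v ≠ S.std v}.Finite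

variable {S}

instance : CoeFun (Fam S) (fun _ => ∀ v, L v) := ⟨Fam.at'⟩

/-- the degree -/
noncomputable def Fam.deg (N : Fam S) : ℤ := ∑ᶠ v, (S.e v : ℤ) * S.ind v (N v)

/-- the global sections -/
def Fam.H0 (N : Fam S) : AddSubgroup D := ⨅ v, S.M v (N v)

/-- the family is good: every repartition is the sum of a global element and an element of the
family -/
def Fam.Good (N : Fam S) : Prop :=
  ∀ x : ι → D, {v | x v ∉ S.M v (S.std v)}.Finite → ∃ y : D, ∀ v, x v - y ∈ S.M v (N v)

/-- pointwise order -/
instance : LE (Fam S) := ⟨fun N N' => ∀ v, N v ≤ N' v⟩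

variable (S) in
/-- the standard family -/
def fstd : Fam S := ⟨S.std, by simp⟩

/-- right multiplication of a family by a global element -/
def Fam.mul (N : Fam S) (x : Dˣ) : Fam S where
  at' v := S.act v (N v) x
  fin := by
    refine (N.fin.union (S.act_std x)).subset fun v hv => ?_
    by_contra h
    simp only [mem_union, mem_ofPred_eq, not_or, not_not] at h
    exact hv (by rw [h.1, h.2])

variable (S) in
/-- the number of effective families of degree `d` -/
noncomputable def cnt (d : ℕ) : ℕ := Nat.card {N : Fam S // fstd S ≤ N ∧ N.deg = d}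

open Classical in
/-- right multiplication by the local element `z` at the place `v0` only -/
noncomputable def Fam.tw (N : Fam S) (v0 : ι) (z : Dˣ) : Fam S where
  at' v := if v = v0 then S.act v (N v) z else N v
  fin := by
    refine (N.fin.union (finite_singleton v0)).subset fun v hv => ?_
    by_contra h
    simp only [mem_union, mem_ofPred_eq, mem_singleton_iff, not_or, not_not] at h
    exact hv (by rw [if_neg h.2]; exact h.1)

end LSys

end Vale.Agent.P011.H167.Ab
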