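import Vale.Agent.P011.H167.AbShape

/-! # A division algebra of degree at least two does not split everywhere, abstractly (helper167) -/

namespace Vale.Agent.P011.H167.Ab

open Set

namespace LSys

variable {D : Type} [DivisionRing D] {ι : Type} {L : ι → Type} [∀ v, SemilatticeSup (L v)]
  {n p : ℕ} {S : LSys D ι L n p}

/-- there are effective families of large degree -/
theorem exists_eff (hfin : ∀ N : Fam S, (N.H0 : Set D).Finite) {v0 : ι} {m : ℕ}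
    (hgood : ((fstd S).tw v0 ((S.pi v0)⁻¹ ^ m)).Good) :
    ∃ j0 : ℕ, ∀ j, j0 ≤ j → ∃ N : Fam S, fstd S ≤ N ∧ N.deg = (j * (n * S.e v0) : ℕ) := by
  have hp : (1 : ℝ) < p := by exact_mod_cast S.one_lt
  have hpn : (1 : ℝ) < (p : ℝ) ^ n := one_lt_pow₀ hp S.n_pos.ne'
  set N0 := (fstd S).tw v0 ((S.pi v0)⁻¹ ^ m) with hN0
  refine ⟨(N0.deg + 1).toNat, fun j hj => ?_⟩
  set N := (fstd S).tw v0 ((S.pi v0 ^ j)⁻¹) with hN
  have hc : ∀ x : Dˣ, (S.pi v0 ^ j)⁻¹ * x = x * (S.pi v0 ^ j)⁻¹ := by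
    intro x
    have h1 : Commute (S.pi v0) x := S.pi_comm v0 x
    exact (h1.pow_left j).inv_left
  have hdeg : N.deg = (j * (n * S.e v0) : ℕ) := by
    have h1 := Fam.deg_tw N v0 (S.pi v0 ^ j)
    rw [hN, Fam.tw_inv', S.ind_pi_pow, Fam.deg_fstd] at h1
    rw [hN]
    push_cast
    linarith
  have h1 := Fam.card_ge hfin hgood N
  have hpos : 1 ≤ n * S.e v0 := Nat.mul_pos S.n_pos (S.e_pos v0)
  have h2 : 1 < (Nat.card N.H0 : ℝ) := by
    refine lt_of_lt_of_le ?_ h1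
    have h4 : (1 : ℝ) ≤ Nat.card N0.H0 := by exact_mod_cast Fam.card_pos hfin N0
    have h6 : (j : ℤ) ≤ (j * (n * S.e v0) : ℕ) := by exact_mod_cast Nat.le_mul_of_pos_right j hpos
    have h5 : (1 : ℝ) < ((p : ℝ) ^ n) ^ (N.deg - N0.deg) :=
      one_lt_zpow₀ hpn (by rw [hdeg]; omega)
    calc (1 : ℝ) < ((p : ℝ) ^ n) ^ (N.deg - N0.deg) := h5
      _ = 1 * ((p : ℝ) ^ n) ^ (N.deg - N0.deg) := (one_mul _).symm
      _ ≤ _ := mul_le_mul_of_nonneg_right h4 (by linarith)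
  obtain ⟨x, hx⟩ := Fam.exists_ne_zero hfin h2
  rw [Fam.mem_H0_iff, Fam.mul_le_iff] at hx
  exact ⟨N.mul x⁻¹, hx, by rw [Fam.deg_mul hfin hgood, hdeg]⟩

/-- **the abstract theorem**: `S` is the system of the division algebra, `S1` that of the centre -/
theorem false_of {D1 : Type} [DivisionRing D1] {L1 : ι → Type} [∀ v, SemilatticeSup (L1 v)]
    {S1 : LSys D1 ι L1 1 p} {v0 : ι} (he : S.e v0 = S1.e v0)
    (hfin : ∀ N : Fam S, (N.H0 : Set D).Finite)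
    (hgood : ∃ m : ℕ, ((fstd S).tw v0 ((S.pi v0)⁻¹ ^ m)).Good)
    (hfin1 : ∀ N : Fam S1, (N.H0 : Set D1).Finite)
    (hgood1 : ∃ m : ℕ, ((fstd S1).tw v0 ((S1.pi v0)⁻¹ ^ m)).Good)
    (hcnt1 : ∀ d : ℕ, Finite {N : Fam S1 // fstd S1 ≤ N ∧ N.deg = d})
    (hmk : PowerSeries.mk (fun d => (S.cnt d : ℝ)) = ∏ i ∈ Finset.range n,
      PowerSeries.rescale ((p : ℝ) ^ i) (PowerSeries.mk fun d => (S1.cnt d : ℝ)))
    (hn : 2 ≤ n) : False := by
  obtain ⟨m, hm⟩ := hgood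
  obtain ⟨m1, hm1⟩ := hgood1
  obtain ⟨C, d1, hS⟩ := Fam.shape hfin hm
  obtain ⟨C1, d0, hS1⟩ := Fam.shape hfin1 hm1
  rw [pow_one, one_mul] at hS1
  obtain ⟨j0, hj0⟩ := exists_eff hfin1 hm1
  have hp : (1 : ℝ) < p := by exact_mod_cast S.one_lt
  have he0 := S1.e_pos v0
  -- enlarge `d0` so that the window contains an effective family
  let j := max j0 d0
  have hj : d0 ≤ j * S1.e v0 := (le_max_right j0 d0).trans (Nat.le_mul_of_pos_right _ he0)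
  have hS1' : Shape (fun d => (S1.cnt d : ℝ)) p C1 (S1.e v0) (j * S1.e v0) :=
    ⟨hS1.nonneg, fun d hd => hS1.one_lt d (hj.trans hd), fun d hd => hS1.per d (hj.trans hd)⟩
  obtain ⟨N, hN, hN'⟩ := hj0 j (le_max_left _ _)
  rw [one_mul] at hN'
  rw [he] at hS
  refine contra hp hn hS1' hS he0 ⟨0, he0, ?_⟩ hmk
  have h1 := hcnt1 (j * S1.e v0)
  have h2 : 0 < S1.cnt (j * S1.e v0) := by
    have : Nonempty {N : Fam S1 // fstd S1 ≤ N ∧ N.deg = ((j * S1.e v0 : ℕ) : ℤ)} :=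
      ⟨⟨N, hN, hN'⟩⟩
    exact Nat.card_pos
  rw [add_zero]
  exact_mod_cast h2

end LSys

end Vale.Agent.P011.H167.Ab
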