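import Mathlib.RingTheory.PowerSeries.Basic
import Mathlib.RingTheory.PowerSeries.Trunc
import Mathlib.RingTheory.PowerSeries.Substitution
import Mathlib.Algebra.Polynomial.Eval.Degree
import Mathlib.Data.Real.Basic
import Mathlib.Tactic

/-! # The power series contradiction (helper167)

If the coefficients of `Z` and of `∏ i < n, Z (q ^ i u)` both have the shape given by the
Riemann-Roch count for a division algebra, of degrees one and `n`, then `n < 2`. -/

namespace Vale.Agent.P011.H167.Ab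

open Finset Polynomial

/-- the shape of the coefficients -/
structure Shape (s : ℕ → ℝ) (Q C : ℝ) (f d0 : ℕ) : Prop where
  nonneg : ∀ d, 0 ≤ s d
  one_lt : ∀ d, d0 ≤ d → 1 < C * Q ^ d
  per : ∀ d, d0 ≤ d → s (d + f) * (C * Q ^ d - 1) = s d * (C * Q ^ (d + f) - 1)

variable {s : ℕ → ℝ} {Q C : ℝ} {f d0 : ℕ}

/-- the numerator -/
noncomputable def num (s : ℕ → ℝ) (Q : ℝ) (f d0 : ℕ) : ℝ[X] :=
  ∑ m ∈ range (d0 + 2 * f), Polynomial.monomial m (s m -
    (1 + Q ^ f) * (if f ≤ m then s (m - f) else 0) +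
      Q ^ f * (if 2 * f ≤ m then s (m - 2 * f) else 0))

theorem Shape.rel (h : Shape s Q C f d0) (d : ℕ) (hd : d0 ≤ d) :
    s (d + 2 * f) - (1 + Q ^ f) * s (d + f) + Q ^ f * s d = 0 := by
  have h1 := h.per d hd
  have h2 := h.per (d + f) (by omega)
  have p1 := h.one_lt d hd
  have p2 := h.one_lt (d + f) (by omega)
  have e3 : d + f + f = d + 2 * f := by ring
  rw [e3] at h2
  have q1 : C * Q ^ d - 1 ≠ 0 := (sub_pos.2 p1).ne'
  have q2 : C * Q ^ (d + f) - 1 ≠ 0 := (sub_pos.2 p2).ne'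
  have e1 : s (d + f) = s d / (C * Q ^ d - 1) * (C * Q ^ (d + f) - 1) := by
    rw [div_mul_eq_mul_div, ← h1, mul_div_assoc, div_self q1, mul_one]
  have e2 : s (d + 2 * f) = s d / (C * Q ^ d - 1) * (C * Q ^ (d + 2 * f) - 1) := by
    have : s (d + 2 * f) = s (d + f) * (C * Q ^ (d + 2 * f) - 1) / (C * Q ^ (d + f) - 1) := by
      rw [← h2, mul_div_assoc, div_self q2, mul_one]
    rw [this, e1]
    field_simp
  have e4 : s d = s d / (C * Q ^ d - 1) * (C * Q ^ d - 1) := by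
    rw [div_mul_cancel₀ _ q1]
  rw [e1, e2]
  nth_rw 3 [e4]
  rw [pow_add, pow_add, two_mul, pow_add]
  ring

/-- the coefficients of the product -/
theorem coeff_prod_mk (s : ℕ → ℝ) (Q : ℝ) (f m : ℕ) :
    PowerSeries.coeff m ((1 - (PowerSeries.X : PowerSeries ℝ) ^ f) *
      (1 - PowerSeries.C (Q ^ f) * (PowerSeries.X : PowerSeries ℝ) ^ f) * PowerSeries.mk s) =
    s m - (1 + Q ^ f) * (if f ≤ m then s (m - f) else 0) +
      Q ^ f * (if 2 * f ≤ m then s (m - 2 * f) else 0) := by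
  have e : (1 - (PowerSeries.X : PowerSeries ℝ) ^ f) *
      (1 - PowerSeries.C (Q ^ f) * (PowerSeries.X : PowerSeries ℝ) ^ f) * PowerSeries.mk s =
      PowerSeries.mk s - PowerSeries.C (1 + Q ^ f) * (PowerSeries.X ^ f * PowerSeries.mk s) +
        PowerSeries.C (Q ^ f) * (PowerSeries.X ^ (2 * f) * PowerSeries.mk s) := by
    rw [map_add, map_one, two_mul, pow_add]
    ring
  rw [e, map_add, map_sub, PowerSeries.coeff_C_mul, PowerSeries.coeff_C_mul,
    PowerSeries.coeff_X_pow_mul', PowerSeries.coeff_X_pow_mul', PowerSeries.coeff_mk,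
    PowerSeries.coeff_mk, PowerSeries.coeff_mk]

theorem Shape.coe_num (h : Shape s Q C f d0) :
    ((num s Q f d0 : ℝ[X]) : PowerSeries ℝ) =
      (1 - (PowerSeries.X : PowerSeries ℝ) ^ f) *
      (1 - PowerSeries.C (Q ^ f) * (PowerSeries.X : PowerSeries ℝ) ^ f) * PowerSeries.mk s := by
  ext m
  rw [num, Polynomial.coeff_coe, Polynomial.finsetSum_coeff, coeff_prod_mk]
  simp_rw [Polynomial.coeff_monomial]
  rw [Finset.sum_ite_eq' (range (d0 + 2 * f)) m]
  by_cases hm : m ∈ range (d0 + 2 * f)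
  · rw [if_pos hm]
  · rw [if_neg hm]
    rw [mem_range] at hm
    rw [if_pos (by omega), if_pos (by omega)]
    have := h.rel (m - 2 * f) (by omega)
    have e1 : m - 2 * f + 2 * f = m := by omega
    have e2 : m - 2 * f + f = m - f := by omega
    rw [e1, e2] at this
    exact this.symm

/-- the value of the numerator -/
theorem eval_num (s : ℕ → ℝ) (Q : ℝ) (f d0 : ℕ) (u : ℝ) : (num s Q f d0).eval u =
    (∑ m ∈ range d0, s m * u ^ m) * ((1 - u ^ f) * (1 - Q ^ f * u ^ f)) +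
      ∑ m ∈ range f, u ^ (d0 + m) * (s (d0 + m) * (1 - (1 + Q ^ f) * u ^ f) +
        u ^ f * s (d0 + m + f)) := by
  have h1 : (num s Q f d0).eval u = ∑ m ∈ range (d0 + 2 * f),
      (s m - (1 + Q ^ f) * (if f ≤ m then s (m - f) else 0) +
      Q ^ f * (if 2 * f ≤ m then s (m - 2 * f) else 0)) * u ^ m := by
    rw [num, Polynomial.eval_finsetSum]
    refine sum_congr rfl fun m _ => ?_
    rw [Polynomial.eval_monomial]
  have h2 : ∀ j N : ℕ, ∑ m ∈ range (j + N), (if j ≤ m then s (m - j) else 0) * u ^ m =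
      u ^ j * ∑ m ∈ range N, s m * u ^ m := by
    intro j N
    rw [sum_range_add, sum_eq_zero, zero_add, mul_sum]
    · refine sum_congr rfl fun m _ => ?_
      rw [if_pos (by omega), Nat.add_sub_cancel_left, pow_add]
      ring
    · intro m hm
      rw [if_neg (by rw [mem_range] at hm; omega), zero_mul]
  have h3 : ∀ j N : ℕ, ∑ m ∈ range (j + N), s m * u ^ m = ∑ m ∈ range j, s m * u ^ m +
      ∑ m ∈ range N, s (j + m) * u ^ (j + m) := fun j N => sum_range_add _ _ _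
  have h4 := h2 f (d0 + f)
  have h5 := h2 (2 * f) d0
  have e4 : f + (d0 + f) = d0 + 2 * f := by ring
  have e5 : 2 * f + d0 = d0 + 2 * f := by ring
  rw [e4] at h4
  rw [e5] at h5
  have h6 : (num s Q f d0).eval u = ∑ m ∈ range (d0 + 2 * f), s m * u ^ m -
      (1 + Q ^ f) * (u ^ f * ∑ m ∈ range (d0 + f), s m * u ^ m) +
      Q ^ f * (u ^ (2 * f) * ∑ m ∈ range d0, s m * u ^ m) := by
    rw [h1, ← h4, ← h5, mul_sum, mul_sum, ← sum_sub_distrib, ← sum_add_distrib]
    refine sum_congr rfl fun m _ => ?_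
    ring
  have e6 : d0 + 2 * f = d0 + f + f := by ring
  have h8 : ∑ m ∈ range f, s (d0 + f + m) * u ^ (d0 + f + m) =
      ∑ m ∈ range f, u ^ (d0 + m) * (u ^ f * s (d0 + m + f)) := by
    refine sum_congr rfl fun m _ => ?_
    rw [show d0 + f + m = d0 + m + f by ring, pow_add u (d0 + m) f]
    ring
  have h9 : ∑ m ∈ range f, u ^ (d0 + m) * (s (d0 + m) * (1 - (1 + Q ^ f) * u ^ f) +
        u ^ f * s (d0 + m + f)) = (∑ m ∈ range f, s (d0 + m) * u ^ (d0 + m)) *
          (1 - (1 + Q ^ f) * u ^ f) + ∑ m ∈ range f, u ^ (d0 + m) * (u ^ f * s (d0 + m + f)) := by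
    rw [sum_mul, ← sum_add_distrib]
    refine sum_congr rfl fun m _ => ?_
    ring
  rw [h6, e6, h3 (d0 + f) f, h3 d0 f, h8, h9, two_mul, pow_add]
  ring

theorem Shape.eval_eq (h : Shape s Q C f d0) (u : ℝ) : (num s Q f d0).eval u =
    (∑ m ∈ range d0, s m * u ^ m) * ((1 - u ^ f) * (1 - Q ^ f * u ^ f)) +
      ∑ m ∈ range f, u ^ (d0 + m) * (s (d0 + m) / (C * Q ^ (d0 + m) - 1) *
        (C * Q ^ (d0 + m) * (1 - u ^ f) - (1 - Q ^ f * u ^ f))) := by
  rw [eval_num]
  congr 1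
  refine sum_congr rfl fun m _ => ?_
  congr 1
  have h1 := h.per (d0 + m) (by omega)
  have p1 := h.one_lt (d0 + m) (by omega)
  have q1 : C * Q ^ (d0 + m) - 1 ≠ 0 := (sub_pos.2 p1).ne'
  have e1 : s (d0 + m + f) =
      s (d0 + m) / (C * Q ^ (d0 + m) - 1) * (C * Q ^ (d0 + m + f) - 1) := by
    rw [div_mul_eq_mul_div, ← h1, mul_div_assoc, div_self q1, mul_one]
  have e4 : s (d0 + m) =
      s (d0 + m) / (C * Q ^ (d0 + m) - 1) * (C * Q ^ (d0 + m) - 1) := by
    rw [div_mul_cancel₀ _ q1]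
  rw [e1]
  nth_rw 1 [e4]
  rw [pow_add Q (d0 + m) f]
  ring

theorem Shape.eval_pos (h : Shape s Q C f d0) (hQ : 1 < Q) (hf : 0 < f)
    (hpos : ∃ m, m < f ∧ 0 < s (d0 + m)) {u : ℝ} (hu : 0 < u) (hu1 : u ≤ Q⁻¹ ∨ u = 1) :
    0 < (num s Q f d0).eval u := by
  obtain ⟨m0, hm0, hs⟩ := hpos
  rw [h.eval_eq]
  have hQf : 1 < Q ^ f := one_lt_pow₀ hQ hf.ne'
  -- each bracket is positive
  have hbr : ∀ m, 0 < C * Q ^ (d0 + m) * (1 - u ^ f) - (1 - Q ^ f * u ^ f) := by
    intro m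
    rcases hu1 with hu1 | hu1
    · have h1 : u < 1 := lt_of_le_of_lt hu1 (inv_lt_one_of_one_lt₀ hQ)
      have h2 : u ^ f < 1 := pow_lt_one₀ hu.le h1 hf.ne'
      have h3 := h.one_lt (d0 + m) (by omega)
      have h4 : 0 < u ^ f := pow_pos hu f
      nlinarith [mul_pos (sub_pos.2 h3) (sub_pos.2 h2), mul_pos (sub_pos.2 hQf) h4]
    · rw [hu1, one_pow]
      linarith
  have hsum : 0 < ∑ m ∈ range f, u ^ (d0 + m) * (s (d0 + m) / (C * Q ^ (d0 + m) - 1) *
        (C * Q ^ (d0 + m) * (1 - u ^ f) - (1 - Q ^ f * u ^ f))) := by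
    refine sum_pos' (fun m _ => ?_) ⟨m0, mem_range.2 hm0, ?_⟩
    · have h3 := h.one_lt (d0 + m) (by omega)
      exact mul_nonneg (pow_pos hu _).le
        (mul_nonneg (div_nonneg (h.nonneg _) (sub_pos.2 h3).le) (hbr m).le)
    · have h3 := h.one_lt (d0 + m0) (by omega)
      exact mul_pos (pow_pos hu _) (mul_pos (div_pos hs (sub_pos.2 h3)) (hbr m0))
  refine add_pos_of_nonneg_of_pos ?_ hsum
  refine mul_nonneg (sum_nonneg fun m _ => mul_nonneg (h.nonneg _) (pow_pos hu _).le) ?_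
  rcases hu1 with hu1 | hu1
  · have h1 : u < 1 := lt_of_le_of_lt hu1 (inv_lt_one_of_one_lt₀ hQ)
    have h2 : u ^ f < 1 := pow_lt_one₀ hu.le h1 hf.ne'
    refine mul_nonneg (sub_pos.2 h2).le ?_
    have h5 : Q * u ≤ 1 := by
      calc Q * u ≤ Q * Q⁻¹ := mul_le_mul_of_nonneg_left hu1 (by linarith)
        _ = 1 := mul_inv_cancel₀ (by linarith)
    rw [← mul_pow, sub_nonneg]
    exact pow_le_one₀ (mul_nonneg (by linarith) hu.le) h5
  · rw [hu1, one_pow, sub_self, zero_mul]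

/-- rescaling a polynomial -/
theorem rescale_coe (r : ℝ) (P : ℝ[X]) : PowerSeries.rescale r (P : PowerSeries ℝ) =
    ((P.comp (Polynomial.C r * Polynomial.X) : ℝ[X]) : PowerSeries ℝ) := by
  ext m
  rw [PowerSeries.coeff_rescale, Polynomial.coeff_coe, Polynomial.coeff_coe,
    Polynomial.comp_C_mul_X_coeff, mul_comm]

/-- the denominators -/
noncomputable def den (r Q : ℝ) (f : ℕ) : ℝ[X] :=
  (1 - Polynomial.C (r ^ f) * Polynomial.X ^ f) *
    (1 - Polynomial.C (Q ^ f * r ^ f) * Polynomial.X ^ f)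

theorem coe_den (r Q : ℝ) (f : ℕ) : ((den r Q f : ℝ[X]) : PowerSeries ℝ) =
    PowerSeries.rescale r ((1 - (PowerSeries.X : PowerSeries ℝ) ^ f) *
      (1 - PowerSeries.C (Q ^ f) * (PowerSeries.X : PowerSeries ℝ) ^ f)) := by
  have h : ((1 - (PowerSeries.X : PowerSeries ℝ) ^ f) *
      (1 - PowerSeries.C (Q ^ f) * (PowerSeries.X : PowerSeries ℝ) ^ f)) =
      (((1 - Polynomial.X ^ f) * (1 - Polynomial.C (Q ^ f) * Polynomial.X ^ f) : ℝ[X]) :
        PowerSeries ℝ) := by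
    push_cast
    simp
  rw [h, rescale_coe]
  congr 1
  rw [den, mul_comp, sub_comp, sub_comp, mul_comp, pow_comp, C_comp, X_comp, one_comp, mul_pow,
    C_mul, C_pow (a := r) (n := f)]
  ring

/-- **the contradiction** -/
theorem contra {q C1 : ℝ} (hq : 1 < q) {n : ℕ} (hn : 2 ≤ n) {z a : ℕ → ℝ} {d1 : ℕ}
    (hz : Shape z q C1 f d0) (ha : Shape a (q ^ n) C (n * f) d1) (hf : 0 < f)
    (hpos : ∃ m, m < f ∧ 0 < z (d0 + m))
    (hprod : PowerSeries.mk a = ∏ i ∈ range n, PowerSeries.rescale (q ^ i) (PowerSeries.mk z)) :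
    False := by
  have hq0 : 0 < q := by linarith
  -- the identity of power series
  have h1 : ∀ i, ((den (q ^ i) q f : ℝ[X]) : PowerSeries ℝ) *
      PowerSeries.rescale (q ^ i) (PowerSeries.mk z) =
      (((num z q f d0).comp (Polynomial.C (q ^ i) * Polynomial.X) : ℝ[X]) : PowerSeries ℝ) := by
    intro i
    rw [← rescale_coe, hz.coe_num, coe_den, map_mul (PowerSeries.rescale (q ^ i)) _
      (PowerSeries.mk z)]
  have h2 : ((den 1 (q ^ n) (n * f) : ℝ[X]) : PowerSeries ℝ) * PowerSeries.mk a =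
      ((num a (q ^ n) (n * f) d1 : ℝ[X]) : PowerSeries ℝ) := by
    rw [ha.coe_num, coe_den, PowerSeries.rescale_one, RingHom.id_apply]
  have h3 : (((∏ i ∈ range n, den (q ^ i) q f) * num a (q ^ n) (n * f) d1 : ℝ[X]) :
      PowerSeries ℝ) = (((∏ i ∈ range n, (num z q f d0).comp (Polynomial.C (q ^ i) *
        Polynomial.X)) * den 1 (q ^ n) (n * f) : ℝ[X]) : PowerSeries ℝ) := by
    rw [Polynomial.coe_mul, Polynomial.coe_mul, ← h2, hprod]
    have e1 : ∀ g : ℕ → ℝ[X], ((∏ i ∈ range n, g i : ℝ[X]) : PowerSeries ℝ) =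
        ∏ i ∈ range n, ((g i : ℝ[X]) : PowerSeries ℝ) := by
      intro g
      exact map_prod (Polynomial.coeToPowerSeries.ringHom (R := ℝ)) g (range n)
    rw [e1, e1, prod_congr rfl fun i _ => (h1 i).symm, prod_mul_distrib]
    ring
  have h4 := congrArg (Polynomial.eval ((q ^ (n - 1))⁻¹)) (Polynomial.coe_injective ℝ h3)
  rw [eval_mul, eval_mul, eval_prod, eval_prod] at h4
  have hqn : q ^ (n - 1) ≠ 0 := pow_ne_zero _ hq0.ne'
  -- the left side is zero
  have h5 : ∏ i ∈ range n, eval ((q ^ (n - 1))⁻¹) (den (q ^ i) q f) = 0 := by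
    refine prod_eq_zero (mem_range.2 (show n - 1 < n by omega)) ?_
    rw [den, eval_mul, eval_sub, eval_one, eval_mul, eval_C, eval_pow, eval_X, ← mul_pow,
      mul_inv_cancel₀ hqn, one_pow, sub_self, zero_mul]
  rw [h5, zero_mul] at h4
  -- the right side is not
  refine absurd h4.symm (mul_ne_zero (prod_ne_zero_iff.2 fun i hi => ?_) ?_)
  · rw [eval_comp, eval_mul, eval_C, eval_X]
    rw [mem_range] at hi
    refine (hz.eval_pos hq hf hpos (by positivity) ?_).ne'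
    have e2 : q ^ i * (q ^ (n - 1))⁻¹ = (q ^ (n - 1 - i))⁻¹ := by
      rw [show n - 1 = i + (n - 1 - i) by omega, pow_add, mul_inv, ← mul_assoc,
        mul_inv_cancel₀ (pow_ne_zero _ hq0.ne'), one_mul, Nat.add_sub_cancel_left]
    rw [e2]
    by_cases hin : i = n - 1
    · right
      rw [hin, Nat.sub_self, pow_zero, inv_one]
    · left
      refine inv_anti₀ hq0 ?_
      calc q = q ^ 1 := (pow_one q).symm
        _ ≤ q ^ (n - 1 - i) := pow_le_pow_right₀ hq.le (by omega)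
  · rw [den, eval_mul, eval_sub, eval_sub, eval_one, eval_mul, eval_mul, eval_C, eval_C, eval_pow,
      eval_X, one_pow, one_mul, mul_one, ← mul_pow]
    have hN : n * f ≠ 0 := by positivity
    refine mul_ne_zero ?_ ?_
    · refine (sub_pos.2 (pow_lt_one₀ (by positivity) ?_ hN)).ne'
      exact inv_lt_one_of_one_lt₀ (one_lt_pow₀ hq (by omega))
    · have e3 : q ^ n * (q ^ (n - 1))⁻¹ = q := by
        nth_rw 1 [show n = n - 1 + 1 by omega]
        rw [pow_succ, mul_comm (q ^ (n - 1)), mul_assoc, mul_inv_cancel₀ hqn, mul_one]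
      rw [e3]
      exact (sub_neg.2 (one_lt_pow₀ hq hN)).ne

end Vale.Agent.P011.H167.Ab
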