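import Vale.Agent.P011.H167.AbBasic
import Mathlib.GroupTheory.QuotientGroup.Basic
import Mathlib.SetTheory.Cardinal.Finite
import Mathlib.Data.Real.Basic

/-! # Riemann-Roch in the abstract letters (helper167) -/

namespace Vale.Agent.P011.H167.Ab

open Set

namespace LSys

variable {D : Type} [DivisionRing D] {ι : Type} {L : ι → Type} [∀ v, SemilatticeSup (L v)]
  {n p : ℕ} {S : LSys D ι L n p}

namespace Fam

theorem Good.mono {N N' : Fam S} (hN : N.Good) (h : N ≤ N') : N'.Good := by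
  intro x hx
  obtain ⟨y, hy⟩ := hN x hx
  exact ⟨y, fun v => S.M_mono (h v) (hy v)⟩

/-- the local quotients -/
abbrev LQ (N N' : Fam S) (v : ι) : Type :=
  S.M v (N' v) ⧸ (S.M v (N v)).addSubgroupOf (S.M v (N' v))

/-- the map to the local quotients -/
def toLQ (N N' : Fam S) (T : Finset ι) : N'.H0 →+ ∀ v : T, LQ N N' v :=
  AddMonoidHom.pi fun v => (QuotientAddGroup.mk' _).comp
    (AddSubgroup.inclusion (show N'.H0 ≤ S.M v (N' v) from fun _ hx => mem_H0.1 hx v))

theorem exists_T (N N' : Fam S) : ∃ T : Finset ι, (∀ v, v ∉ T → N v = S.std v) ∧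
    ∀ v, v ∉ T → N' v = S.std v := by
  classical
  obtain ⟨T, hT⟩ := (N.fin.union N'.fin).exists_finset_coe
  have h1 : ∀ v, v ∉ T → N v = S.std v ∧ N' v = S.std v := by
    intro v hv
    rw [← Finset.mem_coe, hT] at hv
    simpa only [mem_union, mem_ofPred_eq, not_or, not_not] using hv
  exact ⟨T, fun v hv => (h1 v hv).1, fun v hv => (h1 v hv).2⟩

theorem ker_toLQ {N N' : Fam S} {T : Finset ι} (hT : ∀ v, v ∉ T → N v = N' v) :
    (toLQ N N' T).ker = N.H0.addSubgroupOf N'.H0 := by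
  ext x
  rw [AddMonoidHom.mem_ker, AddSubgroup.mem_addSubgroupOf, mem_H0]
  constructor
  · intro h v
    by_cases hv : v ∈ T
    · have := congrFun h ⟨v, hv⟩
      change (QuotientAddGroup.mk _ : LQ N N' v) = 0 at this
      rw [QuotientAddGroup.eq_zero_iff, AddSubgroup.mem_addSubgroupOf] at this
      exact this
    · have h2 := mem_H0.1 x.2 v
      have h3 := hT v hv
      rw [h3]
      exact h2
  · intro h
    funext v
    change (QuotientAddGroup.mk _ : LQ N N' v) = 0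
    rw [QuotientAddGroup.eq_zero_iff, AddSubgroup.mem_addSubgroupOf]
    exact h v

theorem surj_toLQ {N N' : Fam S} (hle : N ≤ N') (hN : N.Good) {T : Finset ι} :
    Function.Surjective (toLQ N N' T) := by
  classical
  intro g
  choose z hz using fun v : T => QuotientAddGroup.mk_surjective (g v)
  obtain ⟨y, hy⟩ := hN (fun v => if h : v ∈ T then (z ⟨v, h⟩ : D) else 0) (by
    refine T.finite_toSet.subset fun v hv => ?_
    by_contra h
    apply hv
    have h' : v ∉ T := h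
    rw [dif_neg h']
    exact (S.M v (S.std v)).zero_mem)
  have hy2 : y ∈ N'.H0 := by
    rw [mem_H0]
    intro v
    have h1 := S.M_mono (hle v) (hy v)
    by_cases h : v ∈ T
    · rw [dif_pos h] at h1
      have := (S.M v (N' v)).sub_mem (z ⟨v, h⟩).2 h1
      rwa [sub_sub_cancel] at this
    · rw [dif_neg h, zero_sub] at h1
      have := (S.M v (N' v)).neg_mem h1
      rwa [neg_neg] at this
  refine ⟨⟨y, hy2⟩, ?_⟩
  funext v
  rw [← hz v]
  change (QuotientAddGroup.mk _ : LQ N N' v) = QuotientAddGroup.mk _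
  rw [QuotientAddGroup.eq, AddSubgroup.mem_addSubgroupOf]
  have h1 := hy v
  rw [dif_pos v.2] at h1
  rw [add_comm]
  change (z v : D) + -y ∈ _
  rw [← sub_eq_add_neg]
  exact h1

theorem card_LQ {N N' : Fam S} (hle : N ≤ N') {T : Finset ι}
    (hT : ∀ v, v ∉ T → N v = S.std v) (hT' : ∀ v, v ∉ T → N' v = S.std v) :
    Nat.card (∀ v : T, LQ N N' v) = p ^ (n * (N'.deg - N.deg).toNat) := by
  rw [Nat.card_pi]
  have h1 : ∀ v : T, Nat.card (LQ N N' v) =
      p ^ (n * (S.e v * (S.ind v (N' v) - S.ind v (N v)).toNat)) := by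
    intro v
    rw [← S.index v _ _ (hle v)]
    rfl
  rw [Finset.prod_congr rfl fun v _ => h1 v, Finset.prod_pow_eq_pow_sum, ← Finset.mul_sum]
  congr 2
  rw [Finset.sum_coe_sort T fun v => S.e v * (S.ind v (N' v) - S.ind v (N v)).toNat]
  have h2 : ((∑ v ∈ T, S.e v * (S.ind v (N' v) - S.ind v (N v)).toNat : ℕ) : ℤ) =
      N'.deg - N.deg := by
    rw [deg_eq_sum N hT, deg_eq_sum N' hT', ← Finset.sum_sub_distrib]
    push_cast
    refine Finset.sum_congr rfl fun v _ => ?_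
    rw [Int.toNat_of_nonneg (sub_nonneg.2 (S.ind_mono v _ _ (hle v)))]
    ring
  omega

theorem card_LQ_ne {N N' : Fam S} (hle : N ≤ N') {T : Finset ι}
    (hT : ∀ v, v ∉ T → N v = S.std v) (hT' : ∀ v, v ∉ T → N' v = S.std v) :
    Nat.card (∀ v : T, LQ N N' v) ≠ 0 := by
  rw [card_LQ hle hT hT']
  exact pow_ne_zero _ (by have := S.one_lt; omega)

theorem relIndex_eq {N N' : Fam S} (hle : N ≤ N') (hN : N.Good) :
    N.H0.relIndex N'.H0 = p ^ (n * (N'.deg - N.deg).toNat) := by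
  obtain ⟨T, hT, hT'⟩ := exists_T N N'
  rw [← card_LQ hle hT hT', AddSubgroup.relIndex, ← ker_toLQ (T := T)
    (fun v hv => by rw [hT v hv, hT' v hv]), AddSubgroup.index_ker,
    AddMonoidHom.range_eq_top_of_surjective _ (surj_toLQ hle hN)]
  exact Nat.card_congr (Equiv.Set.univ _)

theorem relIndex_le {N N' : Fam S} (hle : N ≤ N') :
    N.H0.relIndex N'.H0 ≤ p ^ (n * (N'.deg - N.deg).toNat) ∧ N.H0.relIndex N'.H0 ≠ 0 := by
  obtain ⟨T, hT, hT'⟩ := exists_T N N'
  have h0 := card_LQ_ne hle hT hT'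
  have hfin : Finite (∀ v : T, LQ N N' v) := Nat.finite_of_card_ne_zero h0
  rw [← card_LQ hle hT hT', AddSubgroup.relIndex, ← ker_toLQ (T := T)
    (fun v hv => by rw [hT v hv, hT' v hv]), AddSubgroup.index_ker]
  constructor
  · exact Nat.card_le_card_of_injective _ Subtype.val_injective
  · exact Nat.card_ne_zero.2 ⟨⟨0⟩, inferInstance⟩

theorem card_mul {N N' : Fam S} (hle : N ≤ N') :
    Nat.card N.H0 * N.H0.relIndex N'.H0 = Nat.card N'.H0 := by
  rw [AddSubgroup.relIndex, ← AddSubgroup.card_mul_index (N.H0.addSubgroupOf N'.H0)]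
  congr 1
  exact (Nat.card_congr (AddSubgroup.addSubgroupOfEquivOfLe (H0_mono hle)).toEquiv).symm

variable (hfin : ∀ N : Fam S, (N.H0 : Set D).Finite)

include hfin

theorem card_pos (N : Fam S) : 0 < Nat.card N.H0 := by
  have : Finite N.H0 := hfin N
  exact Nat.card_pos

/-- the Riemann-Roch constant with respect to a good family -/
theorem card_eq {N0 N : Fam S} (hN0 : N0.Good) (hN : N.Good) :
    (Nat.card N.H0 : ℝ) = Nat.card N0.H0 * ((p : ℝ) ^ n) ^ (N.deg - N0.deg) := by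
  have hp : (p : ℝ) ≠ 0 := by have := S.one_lt; positivity
  have h1 := card_mul (N.le_sup N0)
  have h2 := card_mul (N.le_sup' N0)
  rw [relIndex_eq (N.le_sup N0) hN] at h1
  rw [relIndex_eq (N.le_sup' N0) hN0] at h2
  have d1 := deg_mono (N.le_sup N0)
  have d2 := deg_mono (N.le_sup' N0)
  have h3 : (Nat.card N.H0 : ℝ) * (p : ℝ) ^ (n * ((N.sup N0).deg - N.deg).toNat) =
      Nat.card N0.H0 * (p : ℝ) ^ (n * ((N.sup N0).deg - N0.deg).toNat) := by
    exact_mod_cast h1.trans h2.symm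
  have e1 : ∀ m : ℤ, 0 ≤ m → (p : ℝ) ^ (n * m.toNat) = ((p : ℝ) ^ n) ^ m := by
    intro m hm
    rw [pow_mul, ← zpow_natCast (((p : ℝ) ^ n)) m.toNat, Int.toNat_of_nonneg hm]
  rw [e1 _ (by omega), e1 _ (by omega)] at h3
  have hpn : ((p : ℝ) ^ n) ≠ 0 := pow_ne_zero _ hp
  have e2 : (N.sup N0).deg - N0.deg = (N.deg - N0.deg) + ((N.sup N0).deg - N.deg) := by ring
  rw [e2, zpow_add₀ hpn, ← mul_assoc] at h3
  exact mul_right_cancel₀ (zpow_ne_zero _ hpn) h3

/-- the Riemann inequality -/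
theorem card_ge {N0 : Fam S} (hN0 : N0.Good) (N : Fam S) :
    Nat.card N0.H0 * ((p : ℝ) ^ n) ^ (N.deg - N0.deg) ≤ (Nat.card N.H0 : ℝ) := by
  have hp : (0 : ℝ) < p := by have := S.one_lt; positivity
  have hpn : (0 : ℝ) < (p : ℝ) ^ n := pow_pos hp n
  have h1 := card_mul (N.le_sup N0)
  have h2 := card_eq hfin hN0 (hN0.mono (N.le_sup' N0))
  have h3 := (relIndex_le (N.le_sup N0)).1
  have d1 := deg_mono (N.le_sup N0)
  have h4 : (Nat.card (N.sup N0).H0 : ℝ) ≤
      Nat.card N.H0 * ((p : ℝ) ^ n) ^ ((N.sup N0).deg - N.deg) := by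
    rw [← h1]
    push_cast
    refine mul_le_mul_of_nonneg_left ?_ (by positivity)
    have e1 : ((p : ℝ) ^ n) ^ ((N.sup N0).deg - N.deg) =
        (p : ℝ) ^ (n * ((N.sup N0).deg - N.deg).toNat) := by
      rw [pow_mul, ← zpow_natCast (((p : ℝ) ^ n)) ((N.sup N0).deg - N.deg).toNat,
        Int.toNat_of_nonneg (by omega)]
    rw [e1]
    exact_mod_cast h3
  rw [h2] at h4
  have e2 : (N.sup N0).deg - N0.deg = (N.deg - N0.deg) + ((N.sup N0).deg - N.deg) := by ring
  rw [e2, zpow_add₀ hpn.ne', ← mul_assoc] at h4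
  exact le_of_mul_le_mul_right h4 (zpow_pos hpn _)

end Fam

end LSys

end Vale.Agent.P011.H167.Ab
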