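import Vale.Agent.P011.H167.AbRR
import Vale.Agent.P011.H167.AbPow

/-! # The shape of the coefficients of the zeta function (helper167) -/

namespace Vale.Agent.P011.H167.Ab

open Set

namespace LSys

variable {D : Type} [DivisionRing D] {ι : Type} {L : ι → Type} [∀ v, SemilatticeSup (L v)]
  {n p : ℕ} {S : LSys D ι L n p}

namespace Fam

theorem mul_at (N : Fam S) (x : Dˣ) (v : ι) : (N.mul x) v = S.act v (N v) x := rfl

theorem mul_one (N : Fam S) : N.mul 1 = N := by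
  ext v
  exact S.act_one v (N v)

theorem mul_mul (N : Fam S) (x y : Dˣ) : N.mul (x * y) = (N.mul x).mul y := by
  ext v
  exact S.act_mul v (N v) x y

theorem mul_inv (N : Fam S) (x : Dˣ) : (N.mul x).mul x⁻¹ = N := by
  rw [← mul_mul, mul_inv_cancel, mul_one]

theorem mul_inv' (N : Fam S) (x : Dˣ) : (N.mul x⁻¹).mul x = N := by
  rw [← mul_mul, inv_mul_cancel, mul_one]

theorem mul_le_iff (N N' : Fam S) (x : Dˣ) : N.mul x ≤ N' ↔ N ≤ N'.mul x⁻¹ :=
  forall_congr' fun v => S.act_le_iff v (N v) (N' v) x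

theorem mem_H0_iff (N : Fam S) (x : Dˣ) : (x : D) ∈ N.H0 ↔ (fstd S).mul x ≤ N := by
  rw [mem_H0]
  exact forall_congr' fun v => S.mem_iff v (N v) x

theorem mem_H0_mul (N : Fam S) (x : Dˣ) (y : D) :
    y ∈ (N.mul x).H0 ↔ y * ((x⁻¹ : Dˣ) : D) ∈ N.H0 := by
  rw [mem_H0, mem_H0]
  exact forall_congr' fun v => S.mem_M_act v (N v) x y

theorem card_H0_mul (N : Fam S) (x : Dˣ) : Nat.card (N.mul x).H0 = Nat.card N.H0 := by
  refine Nat.card_congr ⟨fun y => ⟨y.1 * ((x⁻¹ : Dˣ) : D), (mem_H0_mul N x y.1).1 y.2⟩,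
    fun y => ⟨y.1 * x, (mem_H0_mul N x _).2 ?_⟩, fun y => ?_, fun y => ?_⟩
  · rw [mul_assoc, Units.mul_inv, _root_.mul_one]
    exact y.2
  · apply Subtype.ext
    change y.1 * ((x⁻¹ : Dˣ) : D) * x = y.1
    rw [mul_assoc, Units.inv_mul, _root_.mul_one]
  · apply Subtype.ext
    change y.1 * x * ((x⁻¹ : Dˣ) : D) = y.1
    rw [mul_assoc, Units.mul_inv, _root_.mul_one]

theorem Good.mul {N : Fam S} (hN : N.Good) (x : Dˣ) : (N.mul x).Good := by
  intro r hr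
  obtain ⟨y, hy⟩ := hN (fun v => r v * ((x⁻¹ : Dˣ) : D)) (by
    refine (hr.union (S.act_std x)).subset fun v hv => ?_
    by_contra h
    simp only [mem_union, mem_ofPred_eq, not_or, not_not] at h
    apply hv
    rw [← S.mem_M_act, h.2]
    exact h.1)
  refine ⟨y * x, fun v => ?_⟩
  rw [mul_at, S.mem_M_act, sub_mul, mul_assoc, Units.mul_inv, _root_.mul_one]
  exact hy v

/-- the change of the degree under multiplication does not depend on the family -/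
theorem deg_mul_sub (N N' : Fam S) (x : Dˣ) :
    (N.mul x).deg - N.deg = (N'.mul x).deg - N'.deg := by
  classical
  obtain ⟨T, hT⟩ := ((N.fin.union N'.fin).union (S.act_std x)).exists_finset_coe
  have h1 : ∀ v, v ∉ T → N v = S.std v ∧ N' v = S.std v ∧ S.act v (S.std v) x = S.std v := by
    intro v hv
    rw [← Finset.mem_coe, hT] at hv
    simp only [mem_union, mem_ofPred_eq, not_or, not_not] at hv
    exact ⟨hv.1.1, hv.1.2, hv.2⟩
  rw [deg_eq_sum N (fun v hv => (h1 v hv).1), deg_eq_sum N' (fun v hv => (h1 v hv).2.1),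
    deg_eq_sum (N.mul x) (T := T) (fun v hv => by rw [mul_at, (h1 v hv).1, (h1 v hv).2.2]),
    deg_eq_sum (N'.mul x) (T := T) (fun v hv => by rw [mul_at, (h1 v hv).2.1, (h1 v hv).2.2]),
    ← Finset.sum_sub_distrib, ← Finset.sum_sub_distrib]
  refine Finset.sum_congr rfl fun v _ => ?_
  rw [mul_at, mul_at, S.ind_act v (N v) x, S.ind_act v (N' v) x]
  ring

theorem deg_mul (hfin : ∀ N : Fam S, (N.H0 : Set D).Finite) {N0 : Fam S} (hN0 : N0.Good)
    (N : Fam S) (x : Dˣ) : (N.mul x).deg = N.deg := by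
  have h1 := card_eq hfin hN0 (hN0.mul x)
  rw [card_H0_mul] at h1
  have hp : (1 : ℝ) < p := by exact_mod_cast S.one_lt
  have hpn : (1 : ℝ) < (p : ℝ) ^ n := one_lt_pow₀ hp S.n_pos.ne'
  have h2 : (0 : ℝ) < Nat.card N0.H0 := by exact_mod_cast card_pos hfin N0
  have h3 : ((p : ℝ) ^ n) ^ ((N0.mul x).deg - N0.deg) = 1 := by
    have : (Nat.card N0.H0 : ℝ) * 1 =
      Nat.card N0.H0 * ((p : ℝ) ^ n) ^ ((N0.mul x).deg - N0.deg) := by
      rw [_root_.mul_one]; exact h1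
    exact (mul_left_cancel₀ h2.ne' this).symm
  have h4 : (N0.mul x).deg - N0.deg = 0 := by
    have := (zpow_right_injective₀ (by linarith) hpn.ne') (h3.trans (zpow_zero _).symm)
    exact this
  have h5 := deg_mul_sub N N0 x
  omega

theorem tw_at_self (N : Fam S) (v : ι) (z : Dˣ) : (N.tw v z) v = S.act v (N v) z := by
  classical
  exact if_pos rfl

theorem tw_at_ne (N : Fam S) {v w : ι} (h : w ≠ v) (z : Dˣ) : (N.tw v z) w = N w := by
  classical
  exact if_neg h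

theorem tw_inv (N : Fam S) (v : ι) (z : Dˣ) : (N.tw v z).tw v z⁻¹ = N := by
  ext w
  by_cases h : w = v
  · subst h
    rw [tw_at_self, tw_at_self, S.act_inv]
  · rw [tw_at_ne _ h, tw_at_ne _ h]

theorem tw_inv' (N : Fam S) (v : ι) (z : Dˣ) : (N.tw v z⁻¹).tw v z = N := by
  have := tw_inv N v z⁻¹
  rwa [inv_inv] at this

theorem tw_mono {N N' : Fam S} (h : N ≤ N') (v : ι) (z : Dˣ) : N.tw v z ≤ N'.tw v z := by
  intro w
  by_cases hw : w = v
  · subst hw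
    rw [tw_at_self, tw_at_self]
    exact S.act_mono _ _ _ _ (h w)
  · rw [tw_at_ne _ hw, tw_at_ne _ hw]
    exact h w

theorem deg_tw (N : Fam S) (v : ι) (z : Dˣ) :
    (N.tw v z).deg = N.deg + S.e v * (S.ind v (S.act v (N v) z) - S.ind v (N v)) := by
  classical
  obtain ⟨T, hT⟩ := (N.fin.union (finite_singleton v)).exists_finset_coe
  have h1 : ∀ w, w ∉ T → N w = S.std w ∧ w ≠ v := by
    intro w hw
    rw [← Finset.mem_coe, hT] at hw
    simpa only [mem_union, mem_ofPred_eq, mem_singleton_iff, not_or, not_not] using hw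
  have hvT : v ∈ T := by
    by_contra h
    exact (h1 v h).2 rfl
  rw [deg_eq_sum N (fun w hw => (h1 w hw).1),
    deg_eq_sum (N.tw v z) (T := T) (fun w hw => by rw [tw_at_ne _ (h1 w hw).2, (h1 w hw).1]),
    ← Finset.add_sum_erase T _ hvT, ← Finset.add_sum_erase T _ hvT, tw_at_self]
  have h2 : ∑ w ∈ T.erase v, (S.e w : ℤ) * S.ind w ((N.tw v z) w) =
      ∑ w ∈ T.erase v, (S.e w : ℤ) * S.ind w (N w) := by
    refine Finset.sum_congr rfl fun w hw => ?_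
    rw [tw_at_ne _ (Finset.ne_of_mem_erase hw)]
  rw [h2]
  ring

theorem mul_tw_pi (N : Fam S) (v : ι) {z : Dˣ} (hz : ∀ x : Dˣ, z * x = x * z) (x : Dˣ) :
    (N.tw v z).mul x = (N.mul x).tw v z := by
  ext w
  by_cases hw : w = v
  · subst hw
    rw [mul_at, tw_at_self, tw_at_self, mul_at, ← S.act_mul, ← S.act_mul, hz]
  · rw [mul_at, tw_at_ne _ hw, tw_at_ne _ hw, mul_at]

section good

variable (hfin : ∀ N : Fam S, (N.H0 : Set D).Finite)

include hfin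

theorem exists_ne_zero {N : Fam S} (h : 1 < (Nat.card N.H0 : ℝ)) : ∃ x : Dˣ, (x : D) ∈ N.H0 := by
  have : Finite N.H0 := hfin N
  have h1 : 1 < Nat.card N.H0 := by exact_mod_cast h
  have h2 : Nontrivial N.H0 := Finite.one_lt_card_iff_nontrivial.1 h1
  obtain ⟨x, hx⟩ := exists_ne (0 : N.H0)
  refine ⟨Units.mk0 (x : D) fun h => hx (Subtype.ext h), ?_⟩
  rw [Units.val_mk0]
  exact x.2

/-- every family of large degree is good -/
theorem good_of_deg {v0 : ι} {m : ℕ}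
    (hgood : ((fstd S).tw v0 ((S.pi v0)⁻¹ ^ m)).Good) :
    ∃ d0 : ℤ, ∀ N : Fam S, d0 ≤ N.deg → N.Good := by
  set z := (S.pi v0)⁻¹ ^ m with hz
  set N0 := (fstd S).tw v0 z with hN0
  have hzc : ∀ x : Dˣ, z * x = x * z := by
    intro x
    have h1 : Commute (S.pi v0) x := S.pi_comm v0 x
    exact (h1.inv_left.pow_left m)
  refine ⟨N0.deg + 1 + S.e v0 * (m * n), fun N hN => ?_⟩
  have hz' : z⁻¹ = S.pi v0 ^ m := by rw [hz, inv_pow, inv_inv]
  have h1 : (N.tw v0 z⁻¹).deg = N.deg - S.e v0 * (m * n) := by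
    rw [deg_tw, hz', S.ind_pi_pow]
    ring
  have hp : (1 : ℝ) < p := by exact_mod_cast S.one_lt
  have hpn : (1 : ℝ) < (p : ℝ) ^ n := one_lt_pow₀ hp S.n_pos.ne'
  have h2 := card_ge hfin hgood (N.tw v0 z⁻¹)
  have h3 : 1 < (Nat.card (N.tw v0 z⁻¹).H0 : ℝ) := by
    refine lt_of_lt_of_le ?_ h2
    have h4 : (1 : ℝ) ≤ Nat.card N0.H0 := by exact_mod_cast card_pos hfin N0
    have h5 : (1 : ℝ) < ((p : ℝ) ^ n) ^ ((N.tw v0 z⁻¹).deg - N0.deg) :=
      one_lt_zpow₀ hpn (by rw [h1]; omega)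
    calc (1 : ℝ) < ((p : ℝ) ^ n) ^ ((N.tw v0 z⁻¹).deg - N0.deg) := h5
      _ = 1 * ((p : ℝ) ^ n) ^ ((N.tw v0 z⁻¹).deg - N0.deg) := (one_mul _).symm
      _ ≤ _ := mul_le_mul_of_nonneg_right h4 (by linarith)
  obtain ⟨x, hx⟩ := exists_ne_zero hfin h3
  rw [mem_H0_iff] at hx
  refine (hgood.mul x).mono ?_
  rw [mul_tw_pi _ _ hzc]
  have := tw_mono hx v0 z
  rwa [tw_inv'] at this

end good

/-- the units in a subgroup of `D` -/
theorem card_units (H : AddSubgroup D) [Finite H] :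
    (Nat.card {y : Dˣ // (y : D) ∈ H} : ℝ) = Nat.card H - 1 := by
  classical
  have hf : Finite {b : H // b ≠ 0} := inferInstance
  let e : {y : Dˣ // (y : D) ∈ H} ≃ {b : H // b ≠ 0} :=
    { toFun := fun y => ⟨⟨(y.1 : D), y.2⟩, fun h => y.1.ne_zero (congrArg Subtype.val h)⟩
      invFun := fun b => ⟨Units.mk0 (b.1 : D) (fun h => b.2 (Subtype.ext h)), by
        rw [Units.val_mk0]
        exact b.1.2⟩
      left_inv := fun y => Subtype.ext (Units.ext rfl)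
      right_inv := fun b => Subtype.ext (Subtype.ext rfl) }
  rw [Nat.card_congr e, ← Nat.card_congr (Equiv.optionSubtypeNe (0 : H)), Finite.card_option]
  push_cast
  ring

theorem finite_units (H : AddSubgroup D) [Finite H] : Finite {y : Dˣ // (y : D) ∈ H} := by
  refine Finite.of_injective (fun y => (⟨y.1, y.2⟩ : H)) fun y y' h => ?_
  exact Subtype.ext (Units.ext (congrArg Subtype.val h))

theorem card_sigma_real {X : Type} {Y : X → Type} [∀ x, Finite (Y x)] {c : ℝ}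
    (h : ∀ x, (Nat.card (Y x) : ℝ) = c) : (Nat.card (Σ x, Y x) : ℝ) = Nat.card X * c := by
  rcases isEmpty_or_nonempty X with hX | ⟨⟨x0⟩⟩
  · rw [Nat.card_of_isEmpty, Nat.card_of_isEmpty (α := X)]
    simp
  · have h1 : ∀ x, Nat.card (Y x) = Nat.card (Y x0) := by
      intro x
      exact_mod_cast (h x).trans (h x0).symm
    have e : ∀ x, Y x ≃ Fin (Nat.card (Y x0)) := fun x =>
      (Finite.equivFin (Y x)).trans (finCongr (h1 x))
    rw [Nat.card_congr ((Equiv.sigmaCongrRight e).trans (Equiv.sigmaEquivProd _ _)), Nat.card_prod,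
      Nat.card_eq_fintype_card (α := Fin _), Fintype.card_fin, Nat.cast_mul, h x0]

/-- pairs of an effective family and a unit -/
abbrev Pair (S : LSys D ι L n p) (v0 : ι) (z : Dˣ) (d : ℕ) : Type :=
  {P : Fam S × Dˣ // (fstd S ≤ P.1 ∧ P.1.deg = d) ∧ (P.2 : D) ∈ (P.1.tw v0 z).H0}

theorem card_pair (hfin : ∀ N : Fam S, (N.H0 : Set D).Finite) {v0 : ι} {z : Dˣ} {d : ℕ} {c : ℝ}
    (h : ∀ N : Fam S, fstd S ≤ N → N.deg = d → (Nat.card (N.tw v0 z).H0 : ℝ) = c) :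
    (Nat.card (Pair S v0 z d) : ℝ) = S.cnt d * (c - 1) := by
  let e : Pair S v0 z d ≃ Σ N : {N : Fam S // fstd S ≤ N ∧ N.deg = d},
      {y : Dˣ // (y : D) ∈ (N.1.tw v0 z).H0} :=
    ⟨fun P => ⟨⟨P.1.1, P.2.1⟩, ⟨P.1.2, P.2.2⟩⟩, fun s => ⟨(s.1.1, s.2.1), s.1.2, s.2.2⟩,
      fun P => rfl, fun s => rfl⟩
  have hf : ∀ N : Fam S, Finite N.H0 := fun N => hfin N
  have : ∀ N : {N : Fam S // fstd S ≤ N ∧ N.deg = d},
      Finite {y : Dˣ // (y : D) ∈ (N.1.tw v0 z).H0} := fun N => finite_units _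
  rw [Nat.card_congr e, card_sigma_real (c := c - 1) fun N => ?_]
  · rfl
  · rw [card_units, h N.1 N.2.1 N.2.2]

/-- the bijection -/
noncomputable def pairEquiv (hdeg : ∀ (N : Fam S) (x : Dˣ), (N.mul x).deg = N.deg) {v0 : ι} (d : ℕ) :
    Pair S v0 (S.pi v0)⁻¹ d ≃ Pair S v0 (S.pi v0) (d + n * S.e v0) where
  toFun P := ⟨((P.1.1.tw v0 (S.pi v0)⁻¹).mul P.1.2⁻¹, P.1.2⁻¹), by
    have hc : ∀ x : Dˣ, S.pi v0 * x = x * S.pi v0 := S.pi_comm v0
    obtain ⟨⟨N, y⟩, ⟨h1, h2⟩, h3⟩ := P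
    change (fstd S ≤ (N.tw v0 (S.pi v0)⁻¹).mul y⁻¹ ∧ _) ∧ _
    change (y : D) ∈ (N.tw v0 (S.pi v0)⁻¹).H0 at h3
    refine ⟨⟨?_, ?_⟩, ?_⟩
    · rw [mem_H0_iff, mul_le_iff] at h3
      exact h3
    · change ((N.tw v0 (S.pi v0)⁻¹).mul y⁻¹).deg = _
      change N.deg = d at h2
      rw [hdeg, deg_tw, S.ind_pi_inv, h2]
      push_cast
      ring
    · change ((y⁻¹ : Dˣ) : D) ∈ (((N.tw v0 (S.pi v0)⁻¹).mul y⁻¹).tw v0 (S.pi v0)).H0
      rw [← mul_tw_pi _ _ hc, tw_inv', mem_H0_iff, mul_le_iff, inv_inv, mul_inv']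
      exact h1⟩
  invFun P := ⟨((P.1.1.tw v0 (S.pi v0)).mul P.1.2⁻¹, P.1.2⁻¹), by
    have hc : ∀ x : Dˣ, (S.pi v0)⁻¹ * x = x * (S.pi v0)⁻¹ := by
      intro x
      have h1 : Commute (S.pi v0) x := S.pi_comm v0 x
      exact h1.inv_left
    obtain ⟨⟨N, y⟩, ⟨h1, h2⟩, h3⟩ := P
    change (fstd S ≤ (N.tw v0 (S.pi v0)).mul y⁻¹ ∧ _) ∧ _
    change (y : D) ∈ (N.tw v0 (S.pi v0)).H0 at h3
    refine ⟨⟨?_, ?_⟩, ?_⟩
    · rw [mem_H0_iff, mul_le_iff] at h3
      exact h3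
    · change ((N.tw v0 (S.pi v0)).mul y⁻¹).deg = _
      change N.deg = ((d + n * S.e v0 : ℕ) : ℤ) at h2
      rw [hdeg, deg_tw, S.ind_pi, h2]
      push_cast
      ring
    · change ((y⁻¹ : Dˣ) : D) ∈ (((N.tw v0 (S.pi v0)).mul y⁻¹).tw v0 (S.pi v0)⁻¹).H0
      rw [← mul_tw_pi _ _ hc, tw_inv, mem_H0_iff, mul_le_iff, inv_inv, mul_inv']
      exact h1⟩
  left_inv P := by
    have hc : ∀ x : Dˣ, S.pi v0 * x = x * S.pi v0 := S.pi_comm v0
    obtain ⟨⟨N, y⟩, h⟩ := P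
    apply Subtype.ext
    refine Prod.ext ?_ (inv_inv y)
    change (((N.tw v0 (S.pi v0)⁻¹).mul y⁻¹).tw v0 (S.pi v0)).mul y⁻¹⁻¹ = N
    rw [← mul_tw_pi _ _ hc, tw_inv', inv_inv, mul_inv']
  right_inv P := by
    have hc : ∀ x : Dˣ, (S.pi v0)⁻¹ * x = x * (S.pi v0)⁻¹ := by
      intro x
      have h1 : Commute (S.pi v0) x := S.pi_comm v0 x
      exact h1.inv_left
    obtain ⟨⟨N, y⟩, h⟩ := P
    apply Subtype.ext
    refine Prod.ext ?_ (inv_inv y)
    change (((N.tw v0 (S.pi v0)).mul y⁻¹).tw v0 (S.pi v0)⁻¹).mul y⁻¹⁻¹ = N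
    rw [← mul_tw_pi _ _ hc, tw_inv, inv_inv, mul_inv']

/-- **the shape of the coefficients** -/
theorem shape (hfin : ∀ N : Fam S, (N.H0 : Set D).Finite) {v0 : ι} {m : ℕ}
    (hgood : ((fstd S).tw v0 ((S.pi v0)⁻¹ ^ m)).Good) :
    ∃ (C : ℝ) (d0 : ℕ), Shape (fun d => (S.cnt d : ℝ)) ((p : ℝ) ^ n) C (n * S.e v0) d0 := by
  set N0 := (fstd S).tw v0 ((S.pi v0)⁻¹ ^ m) with hN0
  obtain ⟨d1, hd1⟩ := good_of_deg hfin hgood
  have hp : (1 : ℝ) < p := by exact_mod_cast S.one_lt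
  have hpn : (1 : ℝ) < (p : ℝ) ^ n := one_lt_pow₀ hp S.n_pos.ne'
  set Q : ℝ := (p : ℝ) ^ n with hQ
  set C : ℝ := Nat.card N0.H0 * Q ^ (-N0.deg) with hC
  have hC0 : 0 < C := mul_pos (by exact_mod_cast card_pos hfin N0) (zpow_pos (by linarith) _)
  have hcard : ∀ N : Fam S, ∀ d : ℕ, d1 ≤ (d : ℤ) → N.deg = d →
      (Nat.card N.H0 : ℝ) = C * Q ^ d := by
    intro N d hd hN
    rw [card_eq hfin hgood (hd1 N (by omega)), hC, mul_assoc, ← zpow_natCast Q d,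
      ← zpow_add₀ (by linarith), hN]
    congr 2
    ring
  obtain ⟨d2, hd2⟩ := pow_unbounded_of_one_lt (1 / C) hpn
  refine ⟨C, max d1.toNat d2 + n * S.e v0, fun d => by positivity, fun d hd => ?_,
    fun d hd => ?_⟩
  · have h1 : Q ^ d2 ≤ Q ^ d := pow_le_pow_right₀ hpn.le (by
      have := le_max_right d1.toNat d2
      omega)
    rw [div_lt_iff₀ hC0] at hd2
    calc 1 < Q ^ d2 * C := hd2
      _ ≤ Q ^ d * C := mul_le_mul_of_nonneg_right h1 hC0.le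
      _ = C * Q ^ d := mul_comm _ _
  · have hd' : d1 ≤ ((d - n * S.e v0 : ℕ) : ℤ) := by
      have := le_max_left d1.toNat d2
      omega
    have hd'' : d1 ≤ (d : ℤ) := by omega
    have hdeg : ∀ (N : Fam S) (x : Dˣ), (N.mul x).deg = N.deg :=
      fun N x => deg_mul hfin hgood N x
    have h1 := Nat.card_congr (pairEquiv hdeg (v0 := v0) d)
    have h2 : (Nat.card (Pair S v0 (S.pi v0)⁻¹ d) : ℝ) =
        S.cnt d * (C * Q ^ (d + n * S.e v0) - 1) := by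
      refine card_pair hfin fun N _ hN => hcard _ _ (by push_cast; omega) ?_
      rw [deg_tw, S.ind_pi_inv, hN]
      push_cast
      ring
    have h3 : (Nat.card (Pair S v0 (S.pi v0) (d + n * S.e v0)) : ℝ) =
        S.cnt (d + n * S.e v0) * (C * Q ^ d - 1) := by
      refine card_pair hfin fun N _ hN => hcard _ _ hd'' ?_
      rw [deg_tw, S.ind_pi, hN]
      push_cast
      ring
    rw [h1, h3] at h2
    exact h2

end Fam

end LSys

end Vale.Agent.P011.H167.Ab
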