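import Vale.Agent.P011.Pow.Cent
import Vale.Agent.P011.H872.FF.CentF
import Vale.Agent.P011.Hey.H63.PlaceRes

/-!
# The centralizer of a symmetric square root, function fields

The centralizer of a symmetric square root, as a division algebra with involution of the second
kind over a quadratic extension of the base field.
-/

open Polynomial Module

set_option linter.unusedSectionVars false

namespace Vale.Agent.P011.H167.Cn

open Vale.Agent.P011.One (Lt2 lt2 lt2_apply lt2_inj)
open Vale.Agent.P011.Pow (FL CT fv cv fc fv_inj cv_inj fv_alg cv_alg fv_mem exists_fv mem_cL cv_comm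
  exists_cv cv_fc fv_cv_comm cv_algF cv_smul finrank_FL finrank_CT finrank_FC cen_CT)
open Vale.Agent.P011.H738 Vale.Agent.P011.H271 Vale.Agent.P011.H305
open Vale.Agent.P011.H63.FB (incF)
open Vale.Agent.P011.H872.FF (XaF IsCentF)

section star

variable {k K D : Type} [Field k] [Field K] [StarRing K]
    [DivisionRing D] [StarRing D] [Algebra k K] [Algebra k D] [Algebra K D] [IsScalarTower k K D]
    {d : kˣ} {s : K}

theorem star_algK (hS : SetF k K D d s) (c : K) :
    star (algebraMap K D c) = algebraMap K D (star c) := by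
  have h1 := hS.star_smul c (1 : D)
  rwa [star_one, Algebra.smul_def, mul_one, Algebra.smul_def, mul_one] at h1

/-- A symmetric element outside `k` whose square is in `k`. -/
theorem Xa_ne (hS : SetF k K D d s) {a : kˣ} (ha : ¬ IsSquare (a : k)) {t : D}
    (ht : t ∈ XaF D a) (c : K) : algebraMap K D c ≠ t := by
  intro h
  have h1 := ht.1
  rw [← h, star_algK hS] at h1
  have h2 : star c = c := (algebraMap K D).injective h1
  obtain ⟨r, rfl⟩ := (hS.fix c).mp h2
  rw [← IsScalarTower.algebraMap_apply] at h
  apply ha
  refine ⟨r, (algebraMap k D).injective ?_⟩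
  rw [← ht.2, ← h, map_mul]

theorem star_mem_Lt2 (hS : SetF k K D d s) {a : K} {t : D} (hts : star t = t)
    (ht : t * t = algebraMap K D a) {x : D} (hx : x ∈ Lt2 K ht) : star x ∈ Lt2 K ht := by
  obtain ⟨u, v, rfl⟩ := hx
  refine ⟨star u, star v, ?_⟩
  rw [star_add, star_mul, hts, star_algK hS, star_algK hS, Algebra.commutes]

theorem sym_Lt2 (hS : SetF k K D d s) {a : K} {t : D} (hts : star t = t)
    (ht : t * t = algebraMap K D a) (hnt : ∀ c : K, algebraMap K D c ≠ t) {x : D}
    (hx : x ∈ Lt2 K ht) (hxs : star x = x) :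
    ∃ u v : k, x = algebraMap k D u + algebraMap k D v * t := by
  obtain ⟨u, v, rfl⟩ := hx
  rw [star_add, star_mul, hts, star_algK hS, star_algK hS, ← Algebra.commutes] at hxs
  have h1 : ((star u, star v) : K × K) = (u, v) := lt2_inj hnt hxs
  obtain ⟨u', hu'⟩ := (hS.fix u).mp (congrArg Prod.fst h1)
  obtain ⟨v', hv'⟩ := (hS.fix v).mp (congrArg Prod.snd h1)
  refine ⟨u', v', ?_⟩
  rw [← hu', ← hv', ← IsScalarTower.algebraMap_apply, ← IsScalarTower.algebraMap_apply]

end star

section two

variable {k K D : Type} [Field k] [Field K] [StarRing K]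
    [DivisionRing D] [StarRing D] [Algebra k K] [Algebra k D] [Algebra K D] [IsScalarTower k K D]
    {d : kˣ} {s : K} {t : D} {a : k} (ht : t * t = algebraMap k D a)

theorem htK (K : Type) [Field K] [Algebra k K] [Algebra K D] [IsScalarTower k K D]
    {t : D} {a : k} (ht : t * t = algebraMap k D a) :
    t * t = algebraMap K D (algebraMap k K a) := by
  rw [ht, IsScalarTower.algebraMap_apply k K D]

theorem mem_LK {x : D} (hx : x ∈ Lt2 k ht) : x ∈ Lt2 K (htK K ht) := by
  obtain ⟨u, v, rfl⟩ := hx
  exact ⟨algebraMap k K u, algebraMap k K v, by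
    rw [IsScalarTower.algebraMap_apply k K D, IsScalarTower.algebraMap_apply k K D v]⟩

/-- The inclusion of the small field in the big one. -/
noncomputable def ff : FL ht →+* FL (htK K ht) where
  toFun x := ⟨fv ht x, mem_LK ht x.2⟩
  map_one' := rfl
  map_mul' _ _ := rfl
  map_zero' := rfl
  map_add' _ _ := rfl

theorem fv_ff (x : FL ht) : fv (htK K ht) (ff ht x) = fv ht x := rfl

noncomputable instance (priority := 50) algFF : Algebra (FL ht) (FL (htK K ht)) := (ff ht).toAlgebra

noncomputable instance (priority := 50) algFC : Algebra (FL ht) (CT (htK K ht)) :=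
  ((fc (htK K ht)).comp (ff ht)).toAlgebra' fun x y => cv_inj _ (by
    rw [map_mul, map_mul]
    exact fv_cv_comm (htK K ht) (ff ht x) y)

instance (priority := 50) : IsScalarTower (FL ht) (FL (htK K ht)) (CT (htK K ht)) :=
  IsScalarTower.of_algebraMap_eq fun _ => rfl

theorem cv_algL (x : FL ht) : cv (htK K ht) (algebraMap (FL ht) (CT (htK K ht)) x) = fv ht x := rfl

theorem fv_algL (x : FL ht) : fv (htK K ht) (algebraMap (FL ht) (FL (htK K ht)) x) = fv ht x := rfl

theorem algLK (c : k) : algebraMap K (FL (htK K ht)) (algebraMap k K c) =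
    algebraMap (FL ht) (FL (htK K ht)) (algebraMap k (FL ht) c) := fv_inj _ (by
  rw [fv_algL, fv_alg, fv_alg, IsScalarTower.algebraMap_apply k K D])

/-- The involution of the centralizer. -/
@[reducible] def starCT (hts : star t = t) : StarRing (CT (htK K ht)) where
  star x := ⟨star (x.1 : D), (mem_cL _).mpr (by
    have h := cv_comm (htK K ht) x
    have h2 := congrArg star h
    rw [star_mul, star_mul, hts] at h2
    exact h2.symm)⟩
  star_involutive x := cv_inj _ (star_star (x.1 : D))
  star_mul x y := cv_inj _ (star_mul (x.1 : D) y.1)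
  star_add x y := cv_inj _ (star_add (x.1 : D) y.1)

/-- The involution of the big field. -/
@[reducible] def starFL (hS : SetF k K D d s) (hts : star t = t) :
    StarRing (FL (htK K ht)) where
  star x := ⟨star (x.1 : D), star_mem_Lt2 hS hts (htK K ht) x.2⟩
  star_involutive x := fv_inj _ (star_star (x.1 : D))
  star_mul x y := fv_inj _ (star_mul (x.1 : D) y.1)
  star_add x y := fv_inj _ (star_add (x.1 : D) y.1)

theorem star_algk (hS : SetF k K D d s) (c : k) :
    star (algebraMap k D c) = algebraMap k D c := by
  rw [IsScalarTower.algebraMap_apply k K D, star_algK hS, (hS.fix _).mpr ⟨c, rfl⟩]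

theorem setting_CT (hS : SetF k K D d s) (ha : ¬ IsSquare a)
    (had : ¬ IsSquare (a * d)) (hts : star t = t) :
    letI := starCT (K := K) ht hts
    letI := starFL ht hS hts
    SetF (FL ht) (FL (htK K ht)) (CT (htK K ht)) (incF k (FL ht) d)
      (algebraMap K (FL (htK K ht)) s) := by
  have hnt : ∀ c : k, algebraMap k D c ≠ t := fun c hc => ha ⟨c, (algebraMap k D).injective (by
        rw [← ht, ← hc, map_mul])⟩
  have ha0 : a ≠ 0 := fun h => ha ⟨0, by rw [h, mul_zero]⟩
  have hntK : ∀ c : K, algebraMap K D c ≠ t :=
    Xa_ne hS (a := Units.mk0 a ha0) ha ⟨hts, ht⟩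
  have := hS.fin
  have := hS.cen
  let i1 := starCT (K := K) ht hts
  let i2 := starFL ht hS hts
  have i3 : Module.Finite k (FL ht) := Module.finite_of_finrank_pos (by
      rw [finrank_FL ht hnt]
      exact two_pos)
  refine
    { sq := ?_
      star_s := ?_
      ns := ?_
      fix := ?_
      rank := ?_
      fin := ?_
      cen := ?_
      star_smul := ?_ }
  · rw [← map_pow, hS.sq]
    exact algLK ht d
  · apply fv_inj
    have h1 : star (algebraMap K D s) = -algebraMap K D s := by
      rw [star_algK hS, hS.star_s, map_neg]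
    rw [map_neg, fv_alg]
    exact h1
  · rintro ⟨x, hx⟩
    obtain ⟨u, v, huv⟩ := fv_mem ht x
    have h1 : algebraMap k D d = fv ht x * fv ht x := by
      rw [← map_mul, ← hx]
      rfl
    have h2 : lt2 k t ((d : k), 0) = lt2 k t (u * u + v * v * a, 2 * u * v) := by
      rw [lt2_apply, lt2_apply]
      change algebraMap k D d + algebraMap k D 0 * t =
        algebraMap k D (u * u + v * v * a) + algebraMap k D (2 * u * v) * t
      rw [map_zero, zero_mul, add_zero, h1, huv, map_add, map_mul, map_mul, map_mul, map_mul,
        map_mul, ← ht, map_ofNat]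
      have c1 : t * algebraMap k D u = algebraMap k D u * t := (Algebra.commutes _ _).symm
      have c2 : t * algebraMap k D v = algebraMap k D v * t := (Algebra.commutes _ _).symm
      have c3 : algebraMap k D v * algebraMap k D u = algebraMap k D u * algebraMap k D v := by
        rw [← map_mul, mul_comm, map_mul]
      generalize algebraMap k D u = U at c1 c3 ⊢
      generalize algebraMap k D v = V at c2 c3 ⊢
      calc (U + V * t) * (U + V * t) = U * U + U * V * t + V * (t * U) + V * (t * V) * t := by
            noncomm_ring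
        _ = U * U + U * V * t + V * U * t + V * V * (t * t) := by
            rw [c1, c2]; noncomm_ring
        _ = U * U + V * V * (t * t) + 2 * U * V * t := by
            rw [c3]; noncomm_ring
    have h3 := lt2_inj hnt h2
    have h4 : (d : k) = u * u + v * v * a := congrArg Prod.fst h3
    have h5 : 0 = 2 * u * v := congrArg Prod.snd h3
    rcases mul_eq_zero.mp h5.symm with h6 | h6
    · have hu : u = 0 := (mul_eq_zero.mp h6).resolve_left hS.two_ne
      apply had
      refine ⟨a * v, ?_⟩
      rw [h4, hu]
      ring
    · apply hS.ns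
      refine ⟨u, ?_⟩
      rw [h4, h6]
      ring
  · intro x
    constructor
    · intro hx
      have hx' : star (fv (htK K ht) x) = fv (htK K ht) x := congrArg (fv (htK K ht)) hx
      obtain ⟨y, hy⟩ := exists_fv ht (sym_Lt2 hS hts (htK K ht) hntK x.2 hx')
      exact ⟨y, fv_inj _ hy⟩
    · rintro ⟨y, rfl⟩
      apply fv_inj
      obtain ⟨u, v, huv⟩ := fv_mem ht y
      change star (fv ht y) = fv ht y
      have c2 : t * algebraMap k D v = algebraMap k D v * t := (Algebra.commutes _ _).symm
      rw [huv, star_add, star_mul, hts, star_algk hS, star_algk hS, c2]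
  · let _ : Algebra k (FL (htK K ht)) :=
      ((algebraMap K (FL (htK K ht))).comp (algebraMap k K)).toAlgebra
    have : IsScalarTower k K (FL (htK K ht)) := IsScalarTower.of_algebraMap_eq fun _ => rfl
    have : IsScalarTower k (FL ht) (FL (htK K ht)) :=
      IsScalarTower.of_algebraMap_eq fun x => algLK ht x
    have h1 := Module.finrank_mul_finrank k (FL ht) (FL (htK K ht))
    have h2 := Module.finrank_mul_finrank k K (FL (htK K ht))
    rw [finrank_FL ht hnt] at h1
    rw [hS.rank, finrank_FL (htK K ht) hntK] at h2
    omega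
  · infer_instance
  · exact cen_CT _ hntK
  · intro x y
    apply cv_inj
    have h1 : star (fv (htK K ht) x * cv (htK K ht) y) =
        star (fv (htK K ht) x) * star (cv (htK K ht) y) := by
      rw [star_mul]
      exact (fv_cv_comm (htK K ht) (star x) (star y)).symm
    rw [cv_smul]
    refine Eq.trans ?_ h1
    exact congrArg star (cv_smul (htK K ht) x y)

/-- The centralizer of a symmetric square root, as a division algebra with involution of the
second kind over a quadratic extension. -/
theorem exists_isCentF [GFF k] (hS : SetF k K D d s) {a : kˣ} (ha : ¬ IsSquare (a : k))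
    (had : ¬ IsSquare ((a * d : kˣ) : k)) {m : ℕ} (hdeg : finrank K D = (2 * m) ^ 2)
    (ht : t ∈ XaF D a) :
    ∃ (L : Type) (_ : Field L) (_ : GFF L) (_ : Algebra k L)
      (K' : Type) (_ : Field K') (_ : StarRing K') (_ : GFF K') (_ : Algebra K K')
      (C : Type) (_ : DivisionRing C) (_ : StarRing C)
      (_ : Algebra L K') (_ : Algebra L C) (_ : Algebra K' C) (_ : IsScalarTower L K' C)
      (T : L) (j : C →+* D),
      SetF L K' C (incF k L d) (algebraMap K K' s) ∧ finrank K' C = m ^ 2 ∧
      IsCentF k K D L K' C t a T j := by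
  have hnt : ∀ c : k, algebraMap k D c ≠ t := fun c hc => ha ⟨c, (algebraMap k D).injective (by
        rw [← ht.2, ← hc, map_mul])⟩
  have hntK : ∀ c : K, algebraMap K D c ≠ t := Xa_ne hS ha ht
  have := hS.fin
  have := hS.cen
  have i3 : Module.Finite k (FL ht.2) := Module.finite_of_finrank_pos (by
      rw [finrank_FL ht.2 hnt]
      exact two_pos)
  have i4 : GFF (FL ht.2) := Hey.H63.gff_of_finite (k := k)
  have i7 : Module.Finite k K := Module.finite_of_finrank_pos (by
    rw [hS.rank]
    exact two_pos)
  have hK : GFF K := Hey.H63.gff_of_finite (k := k)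
  have i5 : Module.Finite K (FL (htK K ht.2)) := Module.finite_of_finrank_pos (by
      rw [finrank_FL (htK K ht.2) hntK]
      exact two_pos)
  have i6 : GFF (FL (htK K ht.2)) := Hey.H63.gff_of_finite (k := K)
  obtain ⟨T, hT⟩ := exists_fv ht.2 (x := t) ⟨0, 1, by rw [map_zero, map_one, one_mul, zero_add]⟩
  let i8 := starCT (K := K) ht.2 ht.1
  let i9 := starFL ht.2 hS ht.1
  refine ⟨FL ht.2, inferInstance, i4, inferInstance, FL (htK K ht.2), inferInstance,
    starFL ht.2 hS ht.1, i6, inferInstance, CT (htK K ht.2), inferInstance,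
    starCT (K := K) ht.2 ht.1, inferInstance, inferInstance, inferInstance,
    IsScalarTower.of_algebraMap_eq fun _ => rfl,
    T, cv (htK K ht.2), setting_CT ht.2 hS ha had ht.1, finrank_FC _ hntK hdeg, ?_⟩
  refine
    { rkL := finrank_FL ht.2 hnt
      rkK := finrank_FL _ hntK
      sqT := ?_
      repL := ?_
      repK := ?_
      comp := algLK ht.2
      inj := cv_inj _
      star := fun x => rfl
      range := ?_
      jT := hT
      jK := fun _ => rfl }
  · apply fv_inj
    rw [map_mul, hT]
    exact ht.2
  · intro l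
    obtain ⟨u, v, h⟩ := fv_mem ht.2 l
    refine ⟨u, v, fv_inj _ ?_⟩
    rw [h, map_add, map_mul, hT]
    rfl
  · intro l
    obtain ⟨u, v, h⟩ := fv_mem (htK K ht.2) l
    refine ⟨u, v, fv_inj _ ?_⟩
    rw [h, map_add, map_mul, fv_algL, hT]
    rfl
  · intro y
    constructor
    · exact exists_cv _
    · rintro ⟨x, rfl⟩
      exact cv_comm _ x

end two

end Vale.Agent.P011.H167.Cn
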