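import Vale.Agent.P011.H167.CnA
import Vale.Agent.P011.H505.WangB
import Vale.Agent.P011.H182.Nma
import Vale.Agent.P011.H738.FPlus
import Vale.Agent.P011.Pow.Kappa

/-!
# The centralizer of a symmetric square root, function fields: reduced norms
-/

open Polynomial Module

set_option linter.unusedSectionVars false

namespace Vale.Agent.P011.H167.Cn

open Vale.Agent.P011.H738 (Place SUA)
open Vale.Agent.P011.H271 Vale.Agent.P011.H305 Vale.Agent.P011.H182
open Vale.Agent.P011.H63.FB (incF)
open Vale.Agent.P011.H872.FF (XaF IsCentF om kk star_kk star_om om_sq two_neK)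
open Vale.Agent.P011.W (HasNrd exists_maxfield)
open Vale.Agent.P011.H505.Wang (hasNrd_norm hasNrd_of_det)

section nrd

variable {K D K' C : Type} [Field K] [Infinite K] [DivisionRing D] [Algebra K D]
    [FiniteDimensional K D] [Algebra.IsCentral K D] [Field K'] [Algebra K K'] [DivisionRing C]
    [Algebra K' C] [FiniteDimensional K' C] [Algebra.IsCentral K' C] {m n : ℕ}

/-- The reduced norm of an element of a subalgebra over an extension field. -/
theorem exists_nrd_cent (hdeg : finrank K D = n ^ 2) (hC : finrank K' C = m ^ 2)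
    (hKK : finrank K K' * m = n) (j : C →+* D)
    (hj : ∀ c : K, j (algebraMap K' C (algebraMap K K' c)) = algebraMap K D c) (x : C) :
    ∃ ν : K', HasNrd K' m x ν ∧ HasNrd K n (j x) (Algebra.norm K ν) := by
  have : Infinite K' := Infinite.of_injective _ (algebraMap K K').injective
  have hn : 0 < n := W.deg_pos hdeg
  have hm : 0 < m := W.deg_pos hC
  have : FiniteDimensional K K' := Module.finite_of_finrank_pos (by
    rcases Nat.eq_zero_or_pos (finrank K K') with h | h
    · rw [h, zero_mul] at hKK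
      omega
    · exact h)
  obtain ⟨E, _, _, _, i, u, hE, rfl⟩ := exists_maxfield hC x
  let _ : Algebra K E := ((algebraMap K' E).comp (algebraMap K K')).toAlgebra
  have : IsScalarTower K K' E := IsScalarTower.of_algebraMap_eq fun _ => rfl
  let i' : E →ₐ[K] D :=
    { j.comp (i : E →+* C) with
      commutes' := fun c => by
        change j (i (algebraMap K' E (algebraMap K K' c))) = algebraMap K D c
        rw [i.commutes, hj] }
  refine ⟨Algebra.norm K' u, hasNrd_norm hC hE i u, ?_⟩
  rw [Algebra.norm_norm]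
  have hEK : finrank K E = n := by rw [← Module.finrank_mul_finrank K K' E, hE, hKK]
  exact hasNrd_norm hdeg hEK i' u

theorem hasNrd_cent (hdeg : finrank K D = n ^ 2) (hC : finrank K' C = m ^ 2)
    (hKK : finrank K K' * m = n) (j : C →+* D)
    (hj : ∀ c : K, j (algebraMap K' C (algebraMap K K' c)) = algebraMap K D c) {x : C} {ν : K'}
    (hx : HasNrd K' m x ν) : HasNrd K n (j x) (Algebra.norm K ν) := by
  obtain ⟨ν', h1, h2⟩ := exists_nrd_cent hdeg hC hKK j hj x
  rwa [W.HasNrd.unique hC hx h1]

/-- The determinant form. -/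
theorem det_cent (hdeg : finrank K D = n ^ 2) (hC : finrank K' C = m ^ 2)
    (hKK : finrank K K' * m = n) (j : C →+* D)
    (hj : ∀ c : K, j (algebraMap K' C (algebraMap K K' c)) = algebraMap K D c)
    {Ω : Type} [Field Ω] [Algebra K Ω] (f : D →ₐ[K] Matrix (Fin n) (Fin n) Ω)
    {Ω' : Type} [Field Ω'] [Algebra K' Ω'] (g : C →ₐ[K'] Matrix (Fin m) (Fin m) Ω')
    {x : C} {ν : K'} (hx : (g x).det = algebraMap K' Ω' ν) :
    (f (j x)).det = algebraMap K Ω (Algebra.norm K ν) := by
  have : Infinite K' := Infinite.of_injective _ (algebraMap K K').injective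
  exact hasNrd_cent hdeg hC hKK j hj (hasNrd_of_det hC g hx) Ω f

/-- Elements of reduced norm one. -/
theorem det_cent_one (hdeg : finrank K D = n ^ 2) (hC : finrank K' C = m ^ 2)
    (hKK : finrank K K' * m = n) (j : C →+* D)
    (hj : ∀ c : K, j (algebraMap K' C (algebraMap K K' c)) = algebraMap K D c)
    {Ω : Type} [Field Ω] [Algebra K Ω] (f : D →ₐ[K] Matrix (Fin n) (Fin n) Ω)
    {Ω' : Type} [Field Ω'] [Algebra K' Ω'] (g : C →ₐ[K'] Matrix (Fin m) (Fin m) Ω')
    {x : C} (hx : (g x).det = 1) : (f (j x)).det = 1 := by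
  have h1 := det_cent hdeg hC hKK j hj f g (x := x) (ν := 1) (by rw [hx, map_one])
  rwa [map_one, map_one] at h1

end nrd

section cent

variable {k K D L K' C : Type} [Field k] [Field K] [DivisionRing D] [StarRing D]
    [Algebra k K] [Algebra k D] [Algebra K D] [Field L] [Field K'] [DivisionRing C] [StarRing C]
    [Algebra k L] [Algebra K K'] [Algebra L K'] [Algebra L C] [Algebra K' C]
    {t : D} {a : kˣ} {T : L} {j : C →+* D}
    [Infinite K] [FiniteDimensional K D] [Algebra.IsCentral K D] [FiniteDimensional K' C]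
    [Algebra.IsCentral K' C] {m n : ℕ}

include n in
theorem hasNrd (h : IsCentF k K D L K' C t a T j) (hn : n = 2 * m)
    (hdeg : finrank K D = n ^ 2) (hC : finrank K' C = m ^ 2) {x : C} {ν : K'}
    (hx : HasNrd K' m x ν) : HasNrd K n (j x) (Algebra.norm K ν) :=
  hasNrd_cent hdeg hC (by rw [h.rkK, hn]) j h.jK hx

variable {Ω : Type} [Field Ω] [Algebra K Ω] (f : D →ₐ[K] Matrix (Fin n) (Fin n) Ω)
    {Ω' : Type} [Field Ω'] [Algebra K' Ω'] (g : C →ₐ[K'] Matrix (Fin m) (Fin m) Ω')

theorem det (h : IsCentF k K D L K' C t a T j) (hn : n = 2 * m)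
    (hdeg : finrank K D = n ^ 2) (hC : finrank K' C = m ^ 2) {x : C} {ν : K'}
    (hx : (g x).det = algebraMap K' Ω' ν) :
    (f (j x)).det = algebraMap K Ω (Algebra.norm K ν) :=
  det_cent hdeg hC (by rw [h.rkK, hn]) j h.jK f g hx

theorem mem_SUA (h : IsCentF k K D L K' C t a T j) (hn : n = 2 * m)
    (hdeg : finrank K D = n ^ 2) (hC : finrank K' C = m ^ 2) {x : Cˣ} (hx : x ∈ SUA g) :
    Units.map (j : C →* D) x ∈ SUA f := by
  obtain ⟨h1, h2⟩ := hx
  refine ⟨?_, det_cent_one hdeg hC (by rw [h.rkK, hn]) j h.jK f g h2⟩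
  change j (x : C) * star (j (x : C)) = 1
  rw [← h.star, ← map_mul, h1, map_one]

/-- The homomorphism of the special unitary groups. -/
def resA (h : IsCentF k K D L K' C t a T j) (hn : n = 2 * m)
    (hdeg : finrank K D = n ^ 2) (hC : finrank K' C = m ^ 2) : SUA g →* SUA f :=
  ((Units.map (j : C →* D)).comp (SUA g).subtype).codRestrict _ fun x =>
    mem_SUA f g h hn hdeg hC x.2

theorem resA_val (h : IsCentF k K D L K' C t a T j) (hn : n = 2 * m)
    (hdeg : finrank K D = n ^ 2) (hC : finrank K' C = m ^ 2) (x : SUA g) :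
    (((resA f g h hn hdeg hC x : SUA f) : Dˣ) : D) = j ((x : Cˣ) : C) := rfl

/-- The set of the elements of a subgroup. -/
def ImA {f : D →ₐ[K] Matrix (Fin n) (Fin n) Ω} (N : Subgroup (SUA f)) : Set D :=
  {x | ∃ g ∈ N, (((g : SUA f) : Dˣ) : D) = x}

/-- The trace of a normal subgroup of finite index on the centralizer. -/
theorem exists_trace (h : IsCentF k K D L K' C t a T j) (hn : n = 2 * m)
    (hdeg : finrank K D = n ^ 2) (hC : finrank K' C = m ^ 2) (N : Subgroup (SUA f))
    [hN : N.Normal] (hi : N.index ≠ 0) :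
    ∃ N' : Subgroup (SUA g), N'.Normal ∧ N'.index ≠ 0 ∧
      (∀ x : SUA g, x ∈ N' ↔ resA f g h hn hdeg hC x ∈ N) ∧
      ∀ x : C, x ∈ ImA N' ↔ x * star x = 1 ∧ (g x).det = 1 ∧ j x ∈ ImA N := by
  refine ⟨N.comap (resA f g h hn hdeg hC), inferInstance, ?_, fun x => Iff.rfl, ?_⟩
  · rw [Subgroup.index_comap]
    exact ne_zero_of_dvd_ne_zero hi (Subgroup.relIndex_dvd_index_of_normal _ _)
  · intro x
    constructor
    · rintro ⟨y, hy, rfl⟩
      exact ⟨y.2.1, y.2.2, _, hy, rfl⟩
    · rintro ⟨hx1, hx2, y, hy, hxy⟩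
      have hx0 : x ≠ 0 := by
        rintro rfl
        rw [zero_mul] at hx1
        exact zero_ne_one hx1
      refine ⟨⟨Units.mk0 x hx0, hx1, hx2⟩, ?_, rfl⟩
      change resA f g h hn hdeg hC _ ∈ N
      have h1 : resA f g h hn hdeg hC ⟨Units.mk0 x hx0, hx1, hx2⟩ = y :=
        Subtype.ext (Units.ext hxy.symm)
      rw [h1]
      exact hy

end cent

section cont

variable {k D : Type} [Field k] [DivisionRing D] [Algebra k D] {N n : ℕ}

/-- Continuity of the determinant at a point. -/
theorem det_near (B : Basis (Fin N) k D) {Ω : Type} [Field Ω] [Algebra k Ω]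
    (G : D →ₗ[k] Matrix (Fin n) (Fin n) Ω) (Λ : Ω →ₗ[k] k) (A : AbsoluteValue k ℝ) (x₀ : D)
    {ε : ℝ} (hε : 0 < ε) : ∃ η : ℝ, 0 < η ∧ ∀ x : D, na B A (x - x₀) < η →
      A (Λ (G x).det - Λ (G x₀).det) < ε := by
  have hG : ∀ x : D, G x = ∑ j, B.repr x j • G (B j) := by
    intro x
    conv_lhs => rw [← B.sum_repr x]
    rw [map_sum]
    exact Finset.sum_congr rfl fun j _ => map_smul _ _ _
  have hc := @Pow.cont_det k Ω A.toNormedField _ _ Λ n N fun j => G (B j)
  let _ : NormedField k := A.toNormedField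
  have hc' := (Metric.continuous_iff.mp hc) (fun j => B.repr x₀ j) ε hε
  obtain ⟨η, hη, h⟩ := hc'
  refine ⟨η, hη, fun x hx => ?_⟩
  have h1 := h (fun j => B.repr x j) ?_
  · rw [hG x, hG x₀]
    rw [dist_eq_norm] at h1
    exact h1
  · rw [dist_pi_lt_iff hη]
    intro j
    rw [dist_eq_norm]
    have h2 := (Finset.single_le_sum (f := fun i => A (B.repr (x - x₀) i))
      (fun i _ => A.nonneg _) (Finset.mem_univ j)).trans_lt hx
    simp only [map_sub, Finsupp.sub_apply] at h2
    exact h2

end cont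

section main

variable {k K D L K' C : Type} [Field k] [Field K] [StarRing K]
    [DivisionRing D] [StarRing D] [Algebra k K] [Algebra k D] [Algebra K D] [IsScalarTower k K D]
    [Field L] [Algebra k L] [Field K'] [StarRing K']
    [Algebra K K'] [DivisionRing C] [StarRing C] [Algebra L K'] [Algebra L C] [Algebra K' C]
    [IsScalarTower L K' C] {d : kˣ} {s : K} {t : D} {a : kˣ} {T : L} {j : C →+* D}

theorem span_F (h : SetF k K D d s) (x : K) :
    ∃ a b : k, x = algebraMap k K a + algebraMap k K b * s := by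
  have h2 : (2 : K) ≠ 0 := by
    rw [← map_ofNat (algebraMap k K) 2]
    exact (_root_.map_ne_zero _).mpr h.two_ne
  have hs := h.s_ne
  obtain ⟨a, ha⟩ := (h.fix ((x + star x) / 2)).mp (by
    rw [star_div₀, star_add, star_star, star_ofNat, add_comm])
  obtain ⟨b, hb⟩ := (h.fix ((x - star x) / (2 * s))).mp (by
    rw [star_div₀, star_sub, star_star, star_mul', star_ofNat, h.star_s, mul_neg, div_neg,
      ← neg_div, neg_sub])
  refine ⟨a, b, ?_⟩
  rw [ha, hb]
  field_simp
  ring

/-- The reduced norms of the unitary elements of the centralizer. -/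
theorem exists_pu [Infinite K] (hS : SetF k K D d s)
    (hSC : SetF L K' C (incF k L d) (algebraMap K K' s))
    (h : IsCentF k K D L K' C t a T j) {n m : ℕ} (hn : n = 2 * m)
    (hdeg : finrank K D = n ^ 2) (hC : finrank K' C = m ^ 2) {Ω : Type} [Field Ω] [Algebra K Ω]
    (f : D →ₐ[K] Matrix (Fin n) (Fin n) Ω) {e : C} (he : e * star e = 1)
    (hdet : (f (j e)).det = 1) :
    ∃ p u : k, HasNrd K' m e (kk k K K' p + kk k K K' u * om K' s T) ∧
      p ^ 2 - (a * d : k) * u ^ 2 = 1 := by
  have := hS.fin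
  have := hS.cen
  have := hSC.fin
  have := hSC.cen
  have h2' : (2 : K') ≠ 0 := two_neK hSC
  obtain ⟨ν, hν, hν2⟩ := exists_nrd_cent hdeg hC (by rw [h.rkK, hn]) j h.jK e
  have hnorm : Algebra.norm K ν = 1 := by
    apply (algebraMap K Ω).injective
    rw [map_one, ← hdet]
    exact (hν2 Ω f).symm
  have hstar : ν * star ν = 1 := by
    have h1 : HasNrd K' m (star e) (star ν) := W.HasNrd.star (fun c => star_algK hSC c) hν
    have h2 := W.HasNrd.mul hν h1
    rw [he] at h2
    have h3 : HasNrd K' m (1 : C) 1 := fun Ω _ _ f => by rw [map_one, map_one, Matrix.det_one]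
    exact W.HasNrd.unique hC h2 h3
  obtain ⟨x, y, hxy⟩ := h.repK ν
  obtain ⟨p, q, hx⟩ := span_F hS x
  obtain ⟨r, u, hy⟩ := span_F hS y
  have hTT : algebraMap L K' T * algebraMap L K' T = algebraMap K K' (algebraMap k K a) := by
    rw [← map_mul, h.sqT, h.comp]
  have hN := Pow.norm_quad h.rkK hTT h.repK x y
  rw [← hxy, hnorm] at hN
  have hνν : ν * (algebraMap K K' x - algebraMap K K' y * algebraMap L K' T) = 1 := by
    rw [hxy]
    calc _ = algebraMap K K' (x ^ 2) - (algebraMap L K' T * algebraMap L K' T) *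
          algebraMap K K' (y ^ 2) := by
          rw [map_pow, map_pow]; ring
      _ = 1 := by rw [hTT, ← map_mul, ← map_sub, ← hN, map_one]
  have hν0 : ν ≠ 0 := left_ne_zero_of_mul_eq_one hstar
  have hst : star ν = algebraMap K K' x - algebraMap K K' y * algebraMap L K' T :=
    mul_left_cancel₀ hν0 (hstar.trans hνν.symm)
  obtain ⟨S', hS'⟩ : ∃ S', S' = algebraMap K K' s := ⟨_, rfl⟩
  obtain ⟨T', hT'⟩ : ∃ T', T' = algebraMap L K' T := ⟨_, rfl⟩
  have hsS : star S' = -S' := by rw [hS']; exact hSC.star_s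
  have hsT : star T' = T' := by rw [hT']; exact (hSC.fix _).mpr ⟨T, rfl⟩
  have hS0 : S' ≠ 0 := by rw [hS']; exact hSC.s_ne
  have hkk : ∀ c : k, star (kk k K K' c) = kk k K K' c := star_kk hSC h
  have ex : algebraMap K K' x = kk k K K' p + kk k K K' q * S' := by
    rw [hx, map_add, map_mul, hS']
    rfl
  have ey : algebraMap K K' y = kk k K K' r + kk k K K' u * S' := by
    rw [hy, map_add, map_mul, hS']
    rfl
  have h1 : kk k K K' q * S' = kk k K K' r * T' := by
    have h2 := hst
    rw [hxy, ex, ey, ← hT', star_add, star_add, star_mul, star_mul, star_add, star_mul, hsS, hsT,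
      hkk, hkk, hkk, hkk] at h2
    apply mul_left_cancel₀ h2'
    linear_combination -h2
  have hq : q = 0 := by
    by_contra hq
    have hq' : kk k K K' q ≠ 0 := (_root_.map_ne_zero _).mpr hq
    have h2 : S' = kk k K K' (r / q) * T' := by
      rw [map_div₀]
      field_simp
      linear_combination h1
    have h3 : star S' = S' := by
      rw [h2, star_mul, hsT, hkk, mul_comm]
    rw [hsS] at h3
    apply hS0
    have h4 : 2 * S' = 0 := by linear_combination -h3
    exact (mul_eq_zero.mp h4).resolve_left h2'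
  have hr : r = 0 := by
    rw [hq, map_zero, zero_mul] at h1
    have hT0 : T' ≠ 0 := by
      rw [hT']
      intro h0
      rw [h0, mul_zero] at hTT
      exact (_root_.map_ne_zero _).mpr ((_root_.map_ne_zero _).mpr a.ne_zero) hTT.symm
    rcases mul_eq_zero.mp h1.symm with h2 | h2
    · exact (_root_.map_eq_zero _).mp h2
    · exact absurd h2 hT0
  have hνe : ν = kk k K K' p + kk k K K' u * om K' s T := by
    rw [hxy, ex, ey, hq, hr, om, ← hS', ← hT', map_zero]
    ring
  refine ⟨p, u, by rw [← hνe]; exact hν, ?_⟩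
  apply (algebraMap k K).injective
  rw [map_one, ← (show (1 : K) = x ^ 2 - algebraMap k K a * y ^ 2 from hN).symm, hx, hy, hq, hr,
    map_zero, zero_mul, add_zero, zero_add, map_sub, map_mul, map_pow, map_pow, map_mul, mul_pow,
    hS.sq]
  ring

/-- The coordinates of the reduced norm are close to those of one. -/
theorem pu_near [Infinite K] (hS : SetF k K D d s)
    (hSC : SetF L K' C (incF k L d) (algebraMap K K' s))
    (h : IsCentF k K D L K' C t a T j) {m N : ℕ} (hC : finrank K' C = m ^ 2)
    (B : Basis (Fin N) k D) (A : AbsoluteValue k ℝ) {ε : ℝ} (hε : 0 < ε) :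
    ∃ η : ℝ, 0 < η ∧ ∀ (e : C) (p u : k),
      HasNrd K' m e (kk k K K' p + kk k K K' u * om K' s T) →
      na B A (j e - 1) < η → A (p - 1) < ε ∧ A u < ε := by
  have := hSC.fin
  have := hSC.cen
  obtain ⟨g⟩ := Vale.Agent.P011S.exists_split (K := K') (D := C) hC (AlgebraicClosure K')
  let algK : Algebra k K' := (kk k K K').toAlgebra
  let algC : Algebra k C := ((algebraMap K' C).comp (kk k K K')).toAlgebra' fun c x =>
    Algebra.commutes _ _
  have tow : IsScalarTower k K' (AlgebraicClosure K') := inferInstance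
  have hck : ∀ c : k, j (algebraMap K' C (kk k K K' c)) = algebraMap k D c := fun c => by
    rw [IsScalarTower.algebraMap_apply k K D]
    exact h.jK _
  let jl : C →ₗ[k] D :=
    { toFun := j
      map_add' := map_add j
      map_smul' := fun c x => by
        rw [RingHom.id_apply, Algebra.smul_def, Algebra.smul_def, map_mul]
        exact congrArg (· * j x) (hck c) }
  obtain ⟨r, hr⟩ := jl.exists_leftInverse_of_injective (LinearMap.ker_eq_bot.mpr h.inj)
  have hr' : ∀ x : C, r (j x) = x := fun x => LinearMap.congr_fun hr x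
  let gl : C →ₗ[k] Matrix (Fin m) (Fin m) (AlgebraicClosure K') :=
    { toFun := g
      map_add' := map_add g
      map_smul' := fun c x => by
        rw [RingHom.id_apply, Algebra.smul_def, map_mul]
        change g (algebraMap K' C (kk k K K' c)) * g x = _
        rw [AlgHom.commutes, ← Algebra.smul_def]
        ext i l
        rw [Matrix.smul_apply, Matrix.smul_apply, Algebra.smul_def, Algebra.smul_def,
          IsScalarTower.algebraMap_apply k K' (AlgebraicClosure K')]
        rfl }
  let il : k × k →ₗ[k] K' :=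
    { toFun := fun x => kk k K K' x.1 + kk k K K' x.2 * om K' s T
      map_add' := fun x y => by
        rw [Prod.fst_add, Prod.snd_add, map_add, map_add]; ring
      map_smul' := fun c x => by
        rw [Prod.smul_fst, Prod.smul_snd, smul_eq_mul, smul_eq_mul, map_mul, map_mul,
          RingHom.id_apply, Algebra.smul_def]
        change _ = kk k K K' c * _
        ring }
  have hker : LinearMap.ker il = ⊥ := by
    rw [LinearMap.ker_eq_bot']
    rintro ⟨x, y⟩ hxy
    have h1 : kk k K K' x + kk k K K' y * om K' s T = 0 := hxy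
    have h2 := congrArg star h1
    rw [star_add, star_mul, star_om hSC, star_kk hSC h, star_kk hSC h, star_zero] at h2
    have h3 : (2 : K') ≠ 0 := two_neK hSC
    have h4 : kk k K K' x = 0 := by
      apply mul_left_cancel₀ h3
      linear_combination h1 + h2
    have h5 : x = 0 := (_root_.map_eq_zero _).mp h4
    have h6 : om K' s T ≠ 0 := by
      intro h0
      have h7 := om_sq hS h
      rw [h0, mul_zero] at h7
      exact (_root_.map_ne_zero (kk k K K')).mpr (mul_ne_zero a.ne_zero d.ne_zero) h7.symm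
    have h7 : y = 0 := by
      rw [h4, zero_add] at h1
      rcases mul_eq_zero.mp h1 with h8 | h8
      · exact (_root_.map_eq_zero _).mp h8
      · exact absurd h8 h6
    rw [h5, h7]
    rfl
  obtain ⟨r2, hr2⟩ := il.exists_leftInverse_of_injective hker
  have hr2' : ∀ p u : k, r2 (kk k K K' p + kk k K K' u * om K' s T) = (p, u) := fun p u =>
    LinearMap.congr_fun hr2 (p, u)
  obtain ⟨ρ, hρ'⟩ := (Algebra.linearMap K' (AlgebraicClosure K')).exists_leftInverse_of_injective
    (LinearMap.ker_eq_bot.mpr (algebraMap K' (AlgebraicClosure K')).injective)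
  have hρ : ∀ c, ρ (algebraMap K' (AlgebraicClosure K') c) = c := fun c =>
    LinearMap.congr_fun hρ' c
  let Λ : AlgebraicClosure K' →ₗ[k] k × k := r2.comp (ρ.restrictScalars k)
  have hΛ : ∀ p u : k, Λ (algebraMap K' (AlgebraicClosure K')
      (kk k K K' p + kk k K K' u * om K' s T)) = (p, u) := fun p u => by
    change r2 (ρ _) = _
    rw [hρ, hr2']
  obtain ⟨η₁, hη₁, H1⟩ := det_near B (gl.comp r) ((LinearMap.fst k k k).comp Λ) A 1 hε
  obtain ⟨η₂, hη₂, H2⟩ := det_near B (gl.comp r) ((LinearMap.snd k k k).comp Λ) A 1 hε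
  refine ⟨min η₁ η₂, lt_min hη₁ hη₂, fun e p u hν hne => ?_⟩
  have e1 : ((gl.comp r) (j e)).det = algebraMap K' (AlgebraicClosure K')
      (kk k K K' p + kk k K K' u * om K' s T) := by
    change (g (r (j e))).det = _
    rw [hr', hν _ g]
  have e2 : ((gl.comp r) 1).det = algebraMap K' (AlgebraicClosure K')
      (kk k K K' 1 + kk k K K' 0 * om K' s T) := by
    change (g (r 1)).det = _
    rw [← map_one j, hr', map_one, Matrix.det_one, map_one, map_zero, zero_mul, add_zero, map_one]
  have h1 := H1 _ (hne.trans_le (min_le_left _ _))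
  have h2 := H2 _ (hne.trans_le (min_le_right _ _))
  have f1 : ∀ z, ((LinearMap.fst k k k).comp Λ) z = (Λ z).1 := fun _ => rfl
  have f2 : ∀ z, ((LinearMap.snd k k k).comp Λ) z = (Λ z).2 := fun _ => rfl
  rw [e1, e2, f1, f1, hΛ, hΛ] at h1
  rw [e1, e2, f2, f2, hΛ, hΛ] at h2
  refine ⟨h1, ?_⟩
  have h3 : ((p, u) : k × k).2 - ((1, 0) : k × k).2 = u := sub_zero u
  rwa [h3] at h2

end main

end Vale.Agent.P011.H167.Cn
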