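import Vale.Agent.P011.H167.CnB
import Vale.Agent.P011.H73.Sp2

/-!
# The centralizer of a symmetric square root, function fields: closeness in the centralizer and in
the algebra
-/

open Polynomial Module

set_option linter.unusedSectionVars false

namespace Vale.Agent.P011.H167.Cn

open Vale.Agent.P011.H738 (Place SUA)
open Vale.Agent.P011.H271 Vale.Agent.P011.H305 Vale.Agent.P011.H182
open Vale.Agent.P011.H271.S3 (Ab)
open Vale.Agent.P011.H63.FB (incF)
open Vale.Agent.P011.H872.FF (XaF IsCentF om kk star_kk star_om om_sq two_neK)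
open Vale.Agent.P011.H73

section lin

variable {k V : Type} [Field k] [AddCommGroup V] [Module k V] {N : ℕ}

/-- The minimum of finitely many positive numbers. -/
theorem exists_min_pos {ι : Type} {S : Set ι} (hS : S.Finite) (δ : ι → ℝ) (hδ : ∀ i, 0 < δ i) :
    ∃ η : ℝ, 0 < η ∧ ∀ i ∈ S, η ≤ δ i := by
  rcases hS.toFinset.eq_empty_or_nonempty with he | hne
  · refine ⟨1, one_pos, fun w hw => ?_⟩
    have : w ∈ hS.toFinset := hS.mem_toFinset.mpr hw
    rw [he] at this
    exact absurd this (Finset.notMem_empty _)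
  · exact ⟨hS.toFinset.inf' hne δ, (Finset.lt_inf'_iff _).mpr fun w _ => hδ w,
      fun w hw => Finset.inf'_le _ (hS.mem_toFinset.mpr hw)⟩

/-- Linear maps to a field above are continuous. -/
theorem near_lin_one {D : Type} [DivisionRing D] [Algebra k D] (B : Basis (Fin N) k D) {L : Type}
    [Field L] [Algebra k L] (Λ : D →ₗ[k] L) {v : Place k} {w : Place L} (hw : Ab w v) {γ : ℝ}
    (hγ : 0 < γ) : ∃ η : ℝ, 0 < η ∧ ∀ x : D, na B v.abv x < η → w.abv (Λ x) < γ := by
  have key : ∀ i : Fin N, ∃ ε : ℝ, 0 < ε ∧ ∀ c : k, v.abv c < ε → w.abv (c • Λ (B i)) < γ := by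
    intro i
    have hp : 0 ≤ w.abv (Λ (B i)) := w.abv.nonneg _
    obtain ⟨δ, hδ, h⟩ := hw.small (ε := γ / (w.abv (Λ (B i)) + 1)) (by positivity)
    refine ⟨δ, hδ, fun c hc => ?_⟩
    have h1 := h c hc
    rw [lt_div_iff₀ (by positivity)] at h1
    rw [Algebra.smul_def, map_mul]
    refine lt_of_le_of_lt (mul_le_mul_of_nonneg_left ?_ (w.abv.nonneg _)) h1
    linarith
  choose δ hδ0 hδ using key
  obtain ⟨η, hη, hη'⟩ := exists_min_pos (Set.finite_univ (α := Fin N)) δ hδ0
  refine ⟨η, hη, fun x hx => ?_⟩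
  have h1 : Λ x = ∑ i, B.repr x i • Λ (B i) := by
    conv_lhs => rw [← B.sum_repr x]
    rw [map_sum]
    exact Finset.sum_congr rfl fun i _ => map_smul _ _ _
  rw [h1]
  refine Sp.sum_lt w _ _ hγ fun i _ => hδ i _ ?_
  exact ((coord_le_na B v.abv x i).trans_lt hx).trans_le (hη' i (Set.mem_univ i))

/-- Linear maps to a field above are continuous, all places above at once. -/
theorem near_lin {D : Type} [DivisionRing D] [Algebra k D] (B : Basis (Fin N) k D) {L : Type}
    [Field L] [GFF L] [Algebra k L] (Λ : D →ₗ[k] L) (v : Place k) {γ : Place L → ℝ}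
    (hγ : ∀ w, 0 < γ w) : ∃ η : ℝ, 0 < η ∧ ∀ x : D, na B v.abv x < η → ∀ w : Place L, Ab w v →
      w.abv (Λ x) < γ w := by
  classical
  have key : ∀ w : Place L, ∃ η : ℝ, 0 < η ∧ (Ab w v → ∀ x : D, na B v.abv x < η →
      w.abv (Λ x) < γ w) := by
    intro w
    by_cases hw : Ab w v
    · obtain ⟨η, hη, h⟩ := near_lin_one B Λ hw (hγ w)
      exact ⟨η, hη, fun _ => h⟩
    · exact ⟨1, one_pos, fun h => absurd h hw⟩
  choose δ hδ0 hδ using key
  obtain ⟨η, hη, hη'⟩ := exists_min_pos (Sp.above_finite (E := L) v) δ hδ0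
  exact ⟨η, hη, fun x hx w hw => hδ w hw x (hx.trans_le (hη' w hw))⟩

/-- Quadratic extensions given by a square root are separable. -/
theorem sep_of_sqrt {L : Type} [Field L] [Algebra k L] [FiniteDimensional k L]
    (h2 : (2 : k) ≠ 0) {a : kˣ} {T : L} (hTT : T * T = algebraMap k L a)
    (repL : ∀ l : L, ∃ u v : k, l = algebraMap k L u + algebraMap k L v * T) :
    Algebra.IsSeparable k L := by
  have h1 : IsSeparable k T := by
    have hp : (X ^ 2 - C (a : k) : k[X]).Separable := separable_X_pow_sub_C (a : k)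
      (by exact_mod_cast h2) a.ne_zero
    refine Polynomial.Separable.of_dvd hp (minpoly.dvd k T ?_)
    rw [map_sub, map_pow, aeval_X, aeval_C, sq, hTT, sub_self]
  have h3 : IntermediateField.adjoin k {T} = ⊤ := by
    rw [eq_top_iff]
    intro l _
    obtain ⟨u, v, rfl⟩ := repL l
    exact add_mem (IntermediateField.algebraMap_mem _ u) (mul_mem (IntermediateField.algebraMap_mem _ v)
      (IntermediateField.mem_adjoin_simple_self k T))
  have h4 : Algebra.IsSeparable k (IntermediateField.adjoin k {T}) :=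
    (IntermediateField.isSeparable_adjoin_simple_iff_isSeparable k L).mpr h1
  rw [h3] at h4
  exact Algebra.IsSeparable.of_algHom k (⊤ : IntermediateField k L)
    (IntermediateField.topEquiv (F := k) (E := L)).symm.toAlgHom

end lin

section near

variable {k D : Type} [Field k] [DivisionRing D] [Algebra k D] {N M : ℕ}
  (B : Basis (Fin N) k D) {L C : Type} [Field L] [Algebra k L]
  [DivisionRing C] [Algebra L C] (B' : Basis (Fin M) L C)

/-- The norm in `C` is small if the coordinates are. -/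
theorem na_lt_of_coord {A : AbsoluteValue L ℝ} {ε : ℝ} (hε : 0 < ε) {x : C}
    (h : ∀ i, A (B'.repr x i) < ε / (M + 1)) : na B' A x < ε := by
  have h1 := na_le_of_coord B' A (x := x) (M := ε / (M + 1)) fun i => (h i).le
  refine h1.trans_lt ?_
  rw [← mul_div_assoc, div_lt_iff₀ (by positivity)]
  nlinarith

/-- Closeness in `D` implies closeness in `C`. -/
theorem near_down_aux [GFF L] (j : C →+* D) (hjinj : Function.Injective j)
    (hj : ∀ c : k, j (algebraMap L C (algebraMap k L c)) = algebraMap k D c)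
    (v : Place k) {ε : Place L → ℝ} (hε : ∀ w, 0 < ε w) :
    ∃ η : ℝ, 0 < η ∧ ∀ x : C, na B v.abv (j x) < η → ∀ w : Place L, Ab w v →
      na B' w.abv x < ε w := by
  classical
  let algC : Algebra k C := ((algebraMap L C).comp (algebraMap k L)).toAlgebra' fun c x =>
    Algebra.commutes _ _
  have tow : IsScalarTower k L C := IsScalarTower.of_algebraMap_eq fun _ => rfl
  let jl : C →ₗ[k] D :=
    { toFun := j
      map_add' := map_add j
      map_smul' := fun c x => by
        rw [RingHom.id_apply, Algebra.smul_def, Algebra.smul_def, map_mul]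
        exact congrArg (· * j x) (hj c) }
  obtain ⟨r, hr⟩ := jl.exists_leftInverse_of_injective (LinearMap.ker_eq_bot.mpr hjinj)
  have h1 : ∀ i : Fin M, ∃ η : ℝ, 0 < η ∧ ∀ x : D, na B v.abv x < η →
      ∀ w : Place L, Ab w v → w.abv (((B'.coord i).restrictScalars k).comp r x) <
        ε w / (M + 1) := fun i =>
    near_lin B (((B'.coord i).restrictScalars k).comp r) v
      (γ := fun w => ε w / (M + 1)) fun w => div_pos (hε w) (by positivity)
  choose δ hδ0 hδ using h1
  obtain ⟨η, hη, hη'⟩ := exists_min_pos (Set.finite_univ (α := Fin M)) δ hδ0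
  refine ⟨η, hη, fun x hx w hw => na_lt_of_coord B' (hε w) fun i => ?_⟩
  have h3 := hδ i (j x) (hx.trans_le (hη' i (Set.mem_univ i))) w hw
  have h4 : r (j x) = x := LinearMap.congr_fun hr x
  rw [LinearMap.comp_apply, h4] at h3
  exact h3

/-- Closeness in `C` implies closeness in `D`. -/
theorem near_up_aux [GFF k] [GFF L] [FiniteDimensional k L] [Algebra.IsSeparable k L]
    (j : C →+* D)
    (hj : ∀ c : k, j (algebraMap L C (algebraMap k L c)) = algebraMap k D c)
    (v : Place k) {ε : ℝ} (hε : 0 < ε) :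
    ∃ η : ℝ, 0 < η ∧ ∀ x : C, (∀ w : Place L, Ab w v → na B' w.abv x < η) →
      na B v.abv (j x) < ε := by
  classical
  let c := Module.finBasis k L
  obtain ⟨A, hA⟩ : ∃ A : ℝ, A = ∑ i : Fin M, ∑ l, na B v.abv (j (algebraMap L C (c l) * B' i)) :=
    ⟨_, rfl⟩
  have hA0 : 0 ≤ A := by
    rw [hA]
    exact Finset.sum_nonneg fun i _ => Finset.sum_nonneg fun l _ => na_nonneg B _ _
  obtain ⟨η, hη⟩ := Sp.coord_small (E := L) c v (γ := ε / (A + 1)) (by positivity)
  obtain ⟨μ, hμ0, hμ⟩ := exists_min_pos (Sp.above_finite (E := L) v)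
    (fun w => w.abv (algebraMap k L η)) fun w => w.abv.pos (by
      rw [ne_eq, map_eq_zero]
      exact η.ne_zero)
  refine ⟨μ, hμ0, fun x hx => ?_⟩
  have h1 : ∀ i l, v.abv (c.repr (B'.repr x i) l) < ε / (A + 1) := fun i l =>
    hη _ (fun w hw => ((coord_le_na B' w.abv x i).trans_lt (hx w hw)).trans_le (hμ w hw)) l
  have h2 : j x = ∑ i, ∑ l, c.repr (B'.repr x i) l • j (algebraMap L C (c l) * B' i) := by
    conv_lhs => rw [← B'.sum_repr x]
    rw [map_sum]
    refine Finset.sum_congr rfl fun i _ => ?_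
    conv_lhs => rw [Algebra.smul_def, ← c.sum_repr (B'.repr x i)]
    rw [map_sum (algebraMap L C), Finset.sum_mul, map_sum j]
    refine Finset.sum_congr rfl fun l _ => ?_
    rw [Algebra.smul_def, map_mul (algebraMap L C), mul_assoc, map_mul j, hj, Algebra.smul_def]
  rw [h2]
  have h3 : na B v.abv (∑ i, ∑ l, c.repr (B'.repr x i) l • j (algebraMap L C (c l) * B' i)) ≤
      ∑ i : Fin M, ∑ l, ε / (A + 1) * na B v.abv (j (algebraMap L C (c l) * B' i)) := by
    refine (na_sum_le B _ _ _).trans (Finset.sum_le_sum fun i _ =>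
      (na_sum_le B _ _ _).trans (Finset.sum_le_sum fun l _ => ?_))
    rw [na_smul]
    exact mul_le_mul_of_nonneg_right (h1 i l).le (na_nonneg B _ _)
  refine h3.trans_lt ?_
  simp_rw [← Finset.mul_sum]
  rw [← hA, div_mul_eq_mul_div, div_lt_iff₀ (by positivity)]
  nlinarith

end near

section wrappers

variable {k K D L K' C : Type} [Field k] [Field K] [StarRing K]
  [DivisionRing D] [StarRing D] [Algebra k K] [Algebra k D] [Algebra K D] [IsScalarTower k K D]
  [Field L] [GFF L] [Algebra k L] [Field K'] [StarRing K']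
  [Algebra K K'] [DivisionRing C] [StarRing C] [Algebra L K'] [Algebra L C]
  [Algebra K' C] [IsScalarTower L K' C] {t : D} {a : kˣ} {T : L} {j : C →+* D} {d : kˣ} {s : K}

/-- **Closeness in the algebra implies closeness in the centralizer.** -/
theorem near_down (h : IsCentF k K D L K' C t a T j) {N M : ℕ}
    (B : Basis (Fin N) k D) (B' : Basis (Fin M) L C)
    (v : Place k) {ε : Place L → ℝ} (hε : ∀ w, 0 < ε w) :
    ∃ η : ℝ, 0 < η ∧ ∀ x : C, na B v.abv (j x) < η → ∀ w : Place L, Ab w v →
      na B' w.abv x < ε w :=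
  near_down_aux B B' j h.inj h.jk v hε

/-- **Closeness in the centralizer implies closeness in the algebra.** -/
theorem near_up [GFF k] (h2 : (2 : k) ≠ 0) (h : IsCentF k K D L K' C t a T j) {N M : ℕ}
    (B : Basis (Fin N) k D) (B' : Basis (Fin M) L C) (v : Place k) {ε : ℝ} (hε : 0 < ε) :
    ∃ η : ℝ, 0 < η ∧ ∀ x : C, (∀ w : Place L, Ab w v → na B' w.abv x < η) →
      na B v.abv (j x) < ε := by
  have : FiniteDimensional k L := Module.finite_of_finrank_pos (by rw [h.rkL]; norm_num)
  have : Algebra.IsSeparable k L := sep_of_sqrt h2 h.sqT h.repL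
  exact near_up_aux B B' j h.jk v hε

end wrappers

end Vale.Agent.P011.H167.Cn
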