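import Vale.Agent.P011.H167.NiH
import Vale.Agent.P011.H339.FF.V

/-! # The norm index over global function fields (helper167)

For a cyclic extension `E / k` of prime degree `p` (also `p = char k`) of a global function field:
* `norm_index`: for every large finite set `S` of places the products of a unit outside `S` and an
  element which is a local norm at every place of `S` form a subgroup of index exactly `p` of `kˣ`;
* `n1`, `n2`: the two halves in the letters of helper74. -/

set_option linter.unusedSectionVars false

namespace Vale.Agent.P011.H167.Ni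

open Module Vale.Agent.P011.H738 Vale.Agent.P011.H271 Vale.Agent.P011.H973.PF Finset
open Vale.Agent.P011.H511.FF Vale.Agent.P011.Hey.H63 Vale.Agent.P011.H74.Odd

theorem Gn.lv {k E : Type} [Field k] [GFF k] [Field E] [GFF E] [Algebra k E]
    [FiniteDimensional k E] [IsGalois k E] {p : ℕ} {s : E ≃ₐ[k] E} (G : Gn p s) : LV s :=
  fun S _ hε => H339.FFV.exists_V G.rank s G.gen S hε

theorem lva (p : ℕ) : LVA p := fun _ _ _ _ _ _ _ _ _ _ G => G.lv

/-- **the norm index of a cyclic extension of prime degree of a global function field** -/
theorem norm_index {k E : Type} [Field k] [GFF k] [Field E] [Algebra k E]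
    [FiniteDimensional k E] [IsGalois k E] {p : ℕ} (hp : p.Prime) (hE : finrank k E = p) :
    ∃ S0 : Finset (Place k), ∀ S : Finset (Place k), S0 ⊆ S → (HS E S).index = p := by
  have : GFF E := gff_of_finite (k := k)
  obtain ⟨s, G⟩ := exists_gn (k := k) (E := E) hp hE
  obtain ⟨S0, hS0⟩ := exists_good (k := k) (E := E) (un k E)
  exact ⟨S0, fun S hS => index_HS' G G.lv (hS0 S hS)⟩

/-- the first half -/
theorem n1 {p : ℕ} (hp : p.Prime) : N1 p := n1_of hp (lva p)

/-- the second half -/
theorem n2 {p : ℕ} (hp : p.Prime) : N2 p := n2_of hp (lva p)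

end Vale.Agent.P011.H167.Ni
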