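import Vale.Agent.P011.H74.Odd.E13F
import Vale.Agent.P011.H167.NiI

/-!
# (E1) + (E3) over function fields without the norm hypotheses (helper167)

helper74's `e13F`, `e13F_near` with the norm index `n1`, `n2` plugged in.
-/

open Polynomial Module
open scoped commutatorElement

set_option linter.unusedSectionVars false

namespace Vale.Agent.P011.H167.E13

open Vale.Agent.P011.H738 Vale.Agent.P011.H271 Vale.Agent.P011.H271.S3 Vale.Agent.P011.H973.PF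
open Vale.Agent.P011.H511.FF Vale.Agent.P011.H698 Vale.Agent.P011.H704.HQ
open Vale.Agent.P011.H271.StarF Vale.Agent.P011.H74.Odd
open Vale.Agent.P011.H496.Spl (SplAt exists_split)
open Vale.Agent.P011.H699.Odd

variable {k K D Ω : Type} [Field k] [Field K] [StarRing K] [DivisionRing D] [StarRing D]
  [Algebra k K] [Algebra k D] [Algebra K D] [IsScalarTower k K D] [StarModule K D] {n N : ℕ}
  [Field Ω] [Algebra K Ω]

/-- **(E1) and (E3) over function fields**, odd degree not divisible by the characteristic. -/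
theorem e13F' (hk : IsGlobalFunctionField k) [GFF k] (hA : Anis k K D n) (ho : Odd n)
    (hn3 : 3 ≤ n) (hch : (n : k) ≠ 0) (f : D →ₐ[K] Matrix (Fin n) (Fin n) Ω)
    (B : Basis (Fin N) k D) {T : Set (Place k)} (hT : T.Finite) (hTne : T.Nonempty)
    (hTA : Adiv k K D ⊆ T) (hTS : ∀ v, v ∉ T → SplAt K D n v) {ε0 : ℝ} (hε0 : 0 < ε0) :
    ∃ ε : ℝ, 0 < ε ∧ ∀ Q H : Subgroup (SUA f), Q ≤ H →
      (∀ g : SUA f, Nr B (Adiv k K D) ε0 ((g : Dˣ) : D) → g ∈ H) →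
      (∀ g : SUA f, ∀ x ∈ H, ⁅g, x⁆ ∈ Q) →
      (∀ (u : UA D) (h : SUA f), Nr B T ε ((u : Dˣ) : D) → Nr B (Adiv k K D) ε ((h : Dˣ) : D) →
        ⁅(u : Dˣ), (h : Dˣ)⁆ ∈ Q.map (SUA f).subtype) ∧
      ∀ u w : UA D, Nr B T ε ((u : Dˣ) : D) → Nr B T ε ((w : Dˣ) : D) →
        ⁅(u : Dˣ), (w : Dˣ)⁆ ∈ Q.map (SUA f).subtype :=
  e13F hk hA ho hn3 hch (fun _ hp _ => Ni.n1 hp) (fun _ hp _ => Ni.n2 hp) f B hT hTne hTA hTS hε0

/-- The same, in the letters of the reduction. -/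
theorem e13F_near' (hk : IsGlobalFunctionField k) [GFF k] (hA : Anis k K D n) (ho : Odd n)
    (hn3 : 3 ≤ n) (hch : (n : k) ≠ 0) (f : D →ₐ[K] Matrix (Fin n) (Fin n) Ω)
    (B : Basis (Fin N) k D) {T : Set (Place k)} (hT : T.Finite) (hTne : T.Nonempty)
    (hTA : Adiv k K D ⊆ T) (hTS : ∀ v, v ∉ T → SplAt K D n v) {Q H : Subgroup (SUA f)}
    (hQH : Q ≤ H) (hH : NearA k K f B H) (hc : ∀ g : SUA f, ∀ x ∈ H, ⁅g, x⁆ ∈ Q) :
    ∃ ε : ℝ, 0 < ε ∧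
      (∀ (u : UA D) (h : SUA f), Nr B T ε ((u : Dˣ) : D) → Nr B (Adiv k K D) ε ((h : Dˣ) : D) →
        ⁅(u : Dˣ), (h : Dˣ)⁆ ∈ Q.map (SUA f).subtype) ∧
      ∀ u w : UA D, Nr B T ε ((u : Dˣ) : D) → Nr B T ε ((w : Dˣ) : D) →
        ⁅(u : Dˣ), (w : Dˣ)⁆ ∈ Q.map (SUA f).subtype :=
  e13F_near hk hA ho hn3 hch (fun _ hp _ => Ni.n1 hp) (fun _ hp _ => Ni.n2 hp) f B hT hTne hTA hTS
    hQH hH hc

end Vale.Agent.P011.H167.E13
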