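import Vale.Agent.P011.Even.HermClass
import Vale.Agent.P011.Even.MinCont
import Vale.Agent.P011.Even.RealRoots
import Vale.Agent.P011.Two2.FinLin
import Vale.Agent.P011.H929.E.Alg

/-!
# Local prescription over function fields, part 1 (linear algebra)

Hermitian matrices over a quadratic extension of an infinite field of characteristic not two.
-/

open Module Matrix Polynomial Filter Topology

set_option linter.unusedSectionVars false

namespace Vale.Agent.P011.H167.Fp

open Vale.Agent.P011.Even Vale.Agent.P011.T2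

section orth

variable {L V : Type} [Field L] [StarRing L] [AddCommGroup V] [Module L V]

/-- Extending an orthogonal basis of the complement of an anisotropic vector. -/
theorem cons_basis (B : HForm L V) {x : V} (hx : B.h x x ≠ 0) {n : ℕ}
    (w : Basis (Fin n) L (LinearMap.ker (B.lin x)))
    (hw1 : ∀ i j, i ≠ j → B.h (w i : V) (w j : V) = 0) (hw2 : ∀ i, B.h (w i : V) (w i : V) ≠ 0) :
    ∃ w' : Basis (Fin (n + 1)) L V, w' 0 = x ∧ (∀ i j, i ≠ j → B.h (w' i) (w' j) = 0) ∧
      ∀ i, B.h (w' i) (w' i) ≠ 0 := by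
  let w' : Basis (Fin (n + 1)) L V := Module.Basis.mkFinCons x w (by
      intro c y hy h
      have h3 : B.h y x = 0 := hy
      have h4 := congrArg (fun z => B.h z x) h
      simp only [B.add_left, B.smul_left, h3, add_zero, B.zero_left] at h4
      exact (mul_eq_zero.mp h4).resolve_right hx) (fun z => ⟨_, B.perp_mem z hx⟩)
  have hw0 : w' 0 = x := by simp [w']
  have hws : ∀ i : Fin n, w' i.succ = (w i : V) := by intro i; simp [w']
  have hwx : ∀ i, B.h (w i : V) x = 0 := fun i => (w i).2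
  have hxw : ∀ i, B.h x (w i : V) = 0 := fun i => by rw [← B.symm, hwx, star_zero]
  refine ⟨w', hw0, ?_, ?_⟩
  · intro i j hij
    induction i using Fin.cases with
    | zero =>
      induction j using Fin.cases with
      | zero => exact absurd rfl hij
      | succ j => rw [hw0, hws]; exact hxw j
    | succ i =>
      induction j using Fin.cases with
      | zero => rw [hw0, hws]; exact hwx i
      | succ j => rw [hws, hws]; exact hw1 i j fun h => hij (congrArg Fin.succ h)
  · intro i
    induction i using Fin.cases with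
    | zero => rw [hw0]; exact hx
    | succ i => rw [hws]; exact hw2 i

/-- Orthogonal bases. -/
theorem exists_orth (h2 : (2 : L) ≠ 0) : ∀ (n : ℕ) (V : Type) [AddCommGroup V] [Module L V]
    [FiniteDimensional L V] (B : HForm L V), B.Nondeg → finrank L V = n →
    ∃ w : Basis (Fin n) L V, (∀ i j, i ≠ j → B.h (w i) (w j) = 0) ∧ ∀ i, B.h (w i) (w i) ≠ 0 := by
  intro n
  induction n with
  | zero =>
    intro V _ _ _ B hB hV
    exact ⟨Module.finBasisOfFinrankEq L V hV, fun i => i.elim0, fun i => i.elim0⟩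
  | succ n ih =>
    intro V _ _ _ B hB hV
    have : Nontrivial V := Module.nontrivial_of_finrank_pos (R := L) (by omega)
    obtain ⟨v, hv⟩ := _root_.exists_ne (0 : V)
    obtain ⟨x, hx⟩ := B.exists_ne h2 hB hv
    obtain ⟨w, hw1, hw2⟩ := ih (LinearMap.ker (B.lin x)) (B.sub _) (B.perp_nondeg hB hx)
      (by have := B.finrank_perp hx; omega)
    obtain ⟨w', -, h1, h3⟩ := cons_basis B hx w hw1 hw2
    exact ⟨w', h1, h3⟩

/-- Orthogonal bases with a prescribed first vector. -/
theorem exists_orth_at (h2 : (2 : L) ≠ 0) (n : ℕ) [FiniteDimensional L V] (B : HForm L V)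
    (hB : B.Nondeg) (hV : finrank L V = n + 1) {x : V} (hx : B.h x x ≠ 0) :
    ∃ w : Basis (Fin (n + 1)) L V, w 0 = x ∧
      (∀ i j, i ≠ j → B.h (w i) (w j) = 0) ∧ ∀ i, B.h (w i) (w i) ≠ 0 := by
  obtain ⟨w, hw1, hw2⟩ := exists_orth h2 n (LinearMap.ker (B.lin x)) (B.sub _)
    (B.perp_nondeg hB hx) (by have := B.finrank_perp hx; omega)
  exact cons_basis B hx w hw1 hw2

/-- A vector which is anisotropic for two forms. -/
theorem exists_common (h2 : (2 : L) ≠ 0) (hinf : {t : L | star t = t}.Infinite)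
    (b c : HForm L V) (hb : b.Nondeg) (hc : c.Nondeg) {z : V} (hz : z ≠ 0) :
    ∃ x, b.h x x ≠ 0 ∧ c.h x x ≠ 0 := by
  obtain ⟨x, hx⟩ := b.exists_ne h2 hb hz
  obtain ⟨y, hy⟩ := c.exists_ne h2 hc hz
  let Pol : HForm L V → L[X] := fun b =>
    C (b.h x x) + C (b.h x y + b.h y x) * X + C (b.h y y) * X ^ 2
  have hPol : ∀ (b : HForm L V) (t : L), star t = t →
      (Pol b).eval t = b.h (x + t • y) (x + t • y) := by
    intro b t ht
    simp only [Pol, eval_add, eval_mul, eval_C, eval_X, eval_pow]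
    rw [b.add_left, b.add_right, b.add_right, b.smul_left, b.smul_left, b.smul_right,
      b.smul_right, ht]
    ring
  have hP : Pol b ≠ 0 := fun h => hx (by
    have h1 := congrArg (fun p => p.coeff 0) h
    simpa [Pol] using h1)
  have hQ : Pol c ≠ 0 := fun h => hy (by
    have h1 := congrArg (fun p => p.coeff 2) h
    simpa [Pol, coeff_C, coeff_X] using h1)
  obtain ⟨t, ht, ht'⟩ : ∃ t : L, star t = t ∧ (Pol b * Pol c).eval t ≠ 0 := by
    by_contra hcon
    push Not at hcon
    exact mul_ne_zero hP hQ (Polynomial.eq_zero_of_infinite_isRoot _ (hinf.mono hcon))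
  rw [eval_mul] at ht'
  refine ⟨x + t • y, ?_, ?_⟩
  · rw [← hPol b t ht]
    exact left_ne_zero_of_mul ht'
  · rw [← hPol c t ht]
    exact right_ne_zero_of_mul ht'

end orth

section diag

variable {F L : Type} [Field F] [Field L] [StarRing L] [Algebra F L]

theorem infinite_fix [Infinite F] {d : F} (hQ : QuadL F L d) : {t : L | star t = t}.Infinite := by
  refine Set.Infinite.mono (s := Set.range (algebraMap F L)) ?_
    (Set.infinite_range_of_injective (algebraMap F L).injective)
  rintro _ ⟨a, rfl⟩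
  exact hQ.fix' a

/-- Diagonalisation of a hermitian matrix, with a nonzero diagonal entry of another one. -/
theorem exists_diag_at [Infinite F] {d : F} (h2 : (2 : L) ≠ 0) (hQ : QuadL F L d) {n : ℕ}
    (H H' : Matrix (Fin (n + 1)) (Fin (n + 1)) L)
    (hH : Hᴴ = H) (hH' : H'ᴴ = H') (hd : H.det ≠ 0) (hd' : H'.det ≠ 0) :
    ∃ (P : Matrix (Fin (n + 1)) (Fin (n + 1)) L) (μ : Fin (n + 1) → Fˣ) (β : Fˣ), IsUnit P ∧
      P * H * Pᴴ = Matrix.diagonal (fun i => algebraMap F L (μ i)) ∧
      (P * H' * Pᴴ) 0 0 = algebraMap F L β := by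
  obtain ⟨x, hx, hx'⟩ := exists_common h2 (infinite_fix hQ) (matForm H hH) (matForm H' hH')
    (matForm_nondeg H hH hd) (matForm_nondeg H' hH' hd') (z := fun _ => 1)
    (fun h => one_ne_zero (congrFun h 0))
  obtain ⟨w, hw0, hw1, hw2⟩ := exists_orth_at h2 n (matForm H hH)
    (matForm_nondeg H hH hd) (Module.finrank_fin_fun L) hx
  choose δ hδ using fun i => hQ.fix _ ((matForm H hH).symm (w i) (w i))
  have hδ0 : ∀ i, δ i ≠ 0 := by
    intro i h0
    apply hw2 i
    rw [← hδ, h0, map_zero]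
  obtain ⟨β, hβ⟩ := hQ.fix _ ((matForm H' hH').symm x x)
  have hβ0 : β ≠ 0 := by
    intro h0
    apply hx'
    rw [← hβ, h0, map_zero]
  let P : Matrix (Fin (n + 1)) (Fin (n + 1)) L := Matrix.of fun i => w i
  have hP : ∀ (X : Matrix (Fin (n + 1)) (Fin (n + 1)) L) (hX : Xᴴ = X) i j, (P * X * Pᴴ) i j =
      (matForm X hX).h (w i) (w j) := by
    intro X hX i j
    rw [Matrix.mul_apply, matForm_h]
    simp only [Matrix.mul_apply, Finset.sum_mul, Matrix.conjTranspose_apply]
    rw [Finset.sum_comm]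
    rfl
  refine ⟨P, fun i => Units.mk0 (δ i) (hδ0 i), Units.mk0 β hβ0, ?_, ?_, ?_⟩
  · have h1 : P.transpose = (Pi.basisFun L (Fin (n + 1))).toMatrix w := by
      ext i j
      rw [Matrix.transpose_apply, Basis.toMatrix_apply, Pi.basisFun_repr]
      rfl
    rw [← Matrix.isUnit_transpose, h1]
    exact ⟨⟨_, _, (Pi.basisFun L (Fin (n + 1))).toMatrix_mul_toMatrix_flip w,
      w.toMatrix_mul_toMatrix_flip (Pi.basisFun L (Fin (n + 1)))⟩, rfl⟩
  · ext i j
    rw [hP H hH, Matrix.diagonal_apply]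
    split_ifs with hij
    · subst hij
      rw [← hδ]
      rfl
    · exact hw1 i j hij
  · rw [hP H' hH', hw0, ← hβ]
    rfl

end diag

section norms

variable {F L : Type} [Field F] [Field L] [StarRing L] [Algebra F L] {d : Fˣ}

theorem norm_mem_LN (h2 : (2 : L) ≠ 0) (hQ : QuadL F L (d : F)) {p : L} (hp : p ≠ 0) :
    ∃ ν : Fˣ, algebraMap F L ν = p * star p ∧ ν ∈ LN d := by
  obtain ⟨θ, hθ0, hθ, hθd⟩ := hQ.gen
  obtain ⟨a, ha⟩ := hQ.fix ((p + star p) / 2) (by
    rw [star_div₀, star_add, star_star, star_ofNat, add_comm])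
  obtain ⟨r, hr⟩ := hQ.fix ((p - star p) / (2 * θ)) (by
    rw [star_div₀, star_sub, star_star, star_mul', star_ofNat, hθ, mul_neg, div_neg,
      ← neg_div, neg_sub])
  have hx1 : p = algebraMap F L a + algebraMap F L r * θ := by
    rw [ha, hr]; field_simp; ring
  have h1 : algebraMap F L (a ^ 2 - d * r ^ 2) = p * star p := by
    conv_rhs => rw [hx1, star_add, star_mul', hQ.fix', hQ.fix', hθ]
    rw [map_sub, map_mul, map_pow, map_pow, ← hθd]
    ring
  have h0 : a ^ 2 - d * r ^ 2 ≠ 0 := by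
    intro h
    rw [h, map_zero] at h1
    rcases mul_eq_zero.mp h1.symm with h2 | h2
    · exact hp h2
    · exact hp (star_eq_zero.mp h2)
  exact ⟨Units.mk0 _ h0, h1, ⟨a, r, rfl⟩⟩

theorem sq_mul_mem_LN {x y : Fˣ} (h : x ∈ LN d) (h' : ∃ u : Fˣ, y = x * u ^ 2) : y ∈ LN d := by
  obtain ⟨u, rfl⟩ := h'
  refine Subgroup.mul_mem _ h ⟨u, 0, ?_⟩
  push_cast
  ring

/-- The hermitian matrix with given eigenvalues relative to a diagonalised one. -/
theorem exists_Hr (hQ : QuadL F L (d : F)) {n : ℕ} {P Hm : Matrix (Fin n) (Fin n) L}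
    (hP : IsUnit P) {μ : Fin n → Fˣ}
    (hPm : P * Hm * Pᴴ = Matrix.diagonal fun i => algebraMap F L (μ i)) (hdm : Hm.det ≠ 0)
    (e : Fin n → Fˣ) : ∃ Hr : Matrix (Fin n) (Fin n) L, Hrᴴ = Hr ∧
      P * Hr * Pᴴ = Matrix.diagonal (fun i => algebraMap F L (μ i * e i)) ∧ IsUnit Pᴴ ∧
      Hm⁻¹ * Hr * Pᴴ = Pᴴ * Matrix.diagonal (fun i => algebraMap F L (e i)) ∧
      Hr.det = Hm.det * algebraMap F L (∏ i, e i : Fˣ) := by
  obtain ⟨Pu, rfl⟩ := hP
  let Q : Matrix (Fin n) (Fin n) L := ((Pu⁻¹ : (Matrix (Fin n) (Fin n) L)ˣ) : _)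
  have hPQ : (Pu : Matrix (Fin n) (Fin n) L) * Q = 1 := Pu.mul_inv
  have hQP : Q * (Pu : Matrix (Fin n) (Fin n) L) = 1 := Pu.inv_mul
  have hQPh : Qᴴ * (Pu : Matrix (Fin n) (Fin n) L)ᴴ = 1 := by
    rw [← Matrix.conjTranspose_mul, hPQ, Matrix.conjTranspose_one]
  have hPQh : (Pu : Matrix (Fin n) (Fin n) L)ᴴ * Qᴴ = 1 := by
    rw [← Matrix.conjTranspose_mul, hQP, Matrix.conjTranspose_one]
  let R : Matrix (Fin n) (Fin n) L := Matrix.diagonal fun i => algebraMap F L (μ i * e i)
  have hR : Rᴴ = R := by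
    rw [Matrix.diagonal_conjTranspose]
    congr 1
    funext i
    exact hQ.fix' _
  let Hr : Matrix (Fin n) (Fin n) L := Q * R * Qᴴ
  have hPHr : (Pu : Matrix (Fin n) (Fin n) L) * Hr * (Pu : Matrix (Fin n) (Fin n) L)ᴴ = R := by
    calc _ = ((Pu : Matrix (Fin n) (Fin n) L) * Q) * R *
          (Qᴴ * (Pu : Matrix (Fin n) (Fin n) L)ᴴ) := by
          simp only [Hr, Matrix.mul_assoc]
      _ = R := by rw [hPQ, hQPh, Matrix.one_mul, Matrix.mul_one]
  have hHmP : Hm * (Pu : Matrix (Fin n) (Fin n) L)ᴴ =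
      Q * Matrix.diagonal (fun i => algebraMap F L (μ i)) := by
    rw [← hPm]
    calc _ = (Q * (Pu : Matrix (Fin n) (Fin n) L)) * Hm *
          (Pu : Matrix (Fin n) (Fin n) L)ᴴ := by rw [hQP, Matrix.one_mul]
      _ = _ := by simp only [Matrix.mul_assoc]
  have hdet0 : (Pu : Matrix (Fin n) (Fin n) L).det ≠ 0 :=
    ((Matrix.isUnit_iff_isUnit_det _).mp Pu.isUnit).ne_zero
  refine ⟨Hr, ?_, hPHr, ⟨⟨_, _, hPQh, hQPh⟩, rfl⟩, ?_, ?_⟩
  · change (Q * R * Qᴴ)ᴴ = Q * R * Qᴴ
    rw [Matrix.conjTranspose_mul, Matrix.conjTranspose_mul, Matrix.conjTranspose_conjTranspose, hR,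
      Matrix.mul_assoc]
  · have hmdet : IsUnit Hm.det := isUnit_iff_ne_zero.mpr hdm
    have h1 : Hr * (Pu : Matrix (Fin n) (Fin n) L)ᴴ =
        Hm * ((Pu : Matrix (Fin n) (Fin n) L)ᴴ * Matrix.diagonal
          (fun i => algebraMap F L (e i))) := by
      have h2 : Matrix.diagonal (fun i => algebraMap F L (μ i)) * Matrix.diagonal
          (fun i => algebraMap F L (e i)) = R := by
        rw [Matrix.diagonal_mul_diagonal]
        congr 1
        funext i
        rw [← map_mul]
      rw [← Matrix.mul_assoc, hHmP, Matrix.mul_assoc Q, h2]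
      change Q * R * Qᴴ * _ = _
      rw [Matrix.mul_assoc (Q * R), hQPh, Matrix.mul_one]
    rw [Matrix.mul_assoc, h1, ← Matrix.mul_assoc, Matrix.nonsing_inv_mul _ hmdet, Matrix.one_mul]
  · have h1 := congrArg Matrix.det hPHr
    have h2 := congrArg Matrix.det hPm
    rw [Matrix.det_mul, Matrix.det_mul, Matrix.det_diagonal] at h1 h2
    have hs : (Pu : Matrix (Fin n) (Fin n) L)ᴴ.det ≠ 0 := by
      rw [Matrix.det_conjTranspose]
      exact fun h => hdet0 (star_eq_zero.mp h)
    apply mul_left_cancel₀ hdet0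
    apply mul_right_cancel₀ hs
    rw [h1]
    have h3 : (Pu : Matrix (Fin n) (Fin n) L).det * (Hm.det * algebraMap F L (∏ i, e i : Fˣ)) *
        ((Pu : Matrix (Fin n) (Fin n) L)ᴴ).det =
        ((Pu : Matrix (Fin n) (Fin n) L).det * Hm.det * ((Pu : Matrix (Fin n) (Fin n) L)ᴴ).det) *
        algebraMap F L (∏ i, e i : Fˣ) := by ring
    rw [h3, h2, Units.coe_prod, map_prod, ← Finset.prod_mul_distrib]
    exact Finset.prod_congr rfl fun i _ => map_mul _ _ _

end norms

section cont

variable {F L : Type} [NormedField F] [Field L] [Algebra F L]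

theorem cont_poly' (la : L →ₗ[F] F) {N : ℕ} (P : MvPolynomial (Fin N) L) :
    Continuous fun r : Fin N → F => la (MvPolynomial.eval (fun i => algebraMap F L (r i)) P) := by
  have h1 : (fun r : Fin N → F => la (MvPolynomial.eval (fun i => algebraMap F L (r i)) P)) =
      fun r => ∑ d ∈ P.support, la (MvPolynomial.coeff d P) * ∏ i, r i ^ d i := by
    funext r
    rw [MvPolynomial.eval_eq', map_sum]
    refine Finset.sum_congr rfl fun d _ => ?_
    have h2 : MvPolynomial.coeff d P * ∏ i, algebraMap F L (r i) ^ d i =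
        (∏ i, r i ^ d i) • MvPolynomial.coeff d P := by
      rw [Algebra.smul_def, map_prod, mul_comm]
      simp only [map_pow]
    rw [h2, map_smul, smul_eq_mul, mul_comm]
  rw [h1]
  fun_prop

/-- The determinant of a matrix depending linearly on coordinates. -/
theorem cont_det (la : L →ₗ[F] F) {n N : ℕ} (M0 : Matrix (Fin n) (Fin n) L)
    (M : Fin N → Matrix (Fin n) (Fin n) L) :
    Continuous fun y : Fin N → F => la (M0 + ∑ j, y j • M j).det := by
  let P : Matrix (Fin n) (Fin n) (MvPolynomial (Fin N) L) :=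
    M0.map MvPolynomial.C + ∑ j, (MvPolynomial.X j : MvPolynomial (Fin N) L) •
      (M j).map MvPolynomial.C
  have h := cont_poly' la P.det
  have h1 : (fun y : Fin N → F => la (MvPolynomial.eval (fun i => algebraMap F L (y i)) P.det)) =
      fun y : Fin N → F => la (M0 + ∑ j, y j • M j).det := by
    funext y
    congr 1
    rw [RingHom.map_det]
    congr 1
    rw [map_add, map_sum]
    congr 1
    · ext i j
      simp
    · refine Finset.sum_congr rfl fun l _ => ?_
      ext i j
      rw [RingHom.mapMatrix_apply, Matrix.map_apply, Matrix.smul_apply, Matrix.smul_apply,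
        Matrix.map_apply, smul_eq_mul, map_mul, MvPolynomial.eval_X, MvPolynomial.eval_C,
        Algebra.smul_def]
  rwa [h1] at h

end cont

section near

variable {k D F A : Type} [Field k] [DivisionRing D] [Algebra k D] [NormedField F]
  [Algebra k F] [Ring A] [Algebra F A] {N : ℕ} (B : Basis (Fin N) k D) {ι : Type} [Fintype ι]
  (BA : Basis ι F A) (g : D →+* A) (hg : ∀ (a : k) x, g (a • x) = algebraMap k F a • g x)

include BA hg in
/-- The elements `m * r` for `r` close to a given element of a completion. -/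
theorem near_left (m : D) (b : Fin N → F) {n : ℕ}
    (hli : LinearIndependent F (fun i : Fin n => (g m * (∑ j, b j • g (B j))) ^ (i : ℕ)))
    {q : F[X]} (hq : q.Monic) (hqn : q.natDegree = n)
    (hq0 : aeval (g m * (∑ j, b j • g (B j))) q = 0)
    {ε : ℝ} (hε : 0 < ε) :
    ∀ᶠ y in 𝓝 b, ∀ r : D, (fun j => algebraMap k F (B.repr r j)) = y →
      LinearIndependent k (fun i : Fin n => (m * r) ^ (i : ℕ)) ∧
      ∀ p : k[X], p.Monic → p.natDegree = n → aeval (m * r) p = 0 →
        ∀ i, ‖algebraMap k F (p.coeff i) - q.coeff i‖ < ε := by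
  classical
  let W : (Fin N → F) → A := fun y => ∑ j, y j • g (B j)
  have hW : CtsAt BA W b := by
    intro l
    have h1 : (fun y => BA.repr (W y) l) = fun y : Fin N → F =>
        ∑ j, y j * BA.repr (g (B j)) l := by
      funext y
      rw [map_sum, Finsupp.finsetSum_apply]
      exact Finset.sum_congr rfl fun j _ => by rw [map_smul, Finsupp.smul_apply, smul_eq_mul]
    rw [h1]
    exact tendsto_finsetSum _ fun j _ => (continuousAt_apply j b).mul continuousAt_const
  let Z : (Fin N → F) → A := fun y => g m * W y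
  have hZ : CtsAt BA Z b := (CtsAt.const _).mul hW
  have hev := near_minpoly hZ hli hq hqn hq0 hε
  filter_upwards [hev] with y hy r hr
  subst hr
  obtain ⟨h1, h2⟩ := hy
  have hWr : W (fun j => algebraMap k F (B.repr r j)) = g r := by
    conv_rhs => rw [← B.sum_repr r]
    rw [map_sum]
    exact Finset.sum_congr rfl fun j _ => (hg _ _).symm
  have hZr : Z (fun j => algebraMap k F (B.repr r j)) = g (m * r) := by
    change g m * W _ = _
    rw [hWr, map_mul]
  rw [hZr] at h1 h2
  refine ⟨?_, fun p hp hpn hp0 i => ?_⟩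
  · rw [Fintype.linearIndependent_iff] at h1 ⊢
    intro a ha i
    have h3 := h1 (fun i => algebraMap k F (a i)) (by
      have h4 := congrArg g ha
      rw [map_sum, map_zero] at h4
      rw [← h4]
      exact Finset.sum_congr rfl fun i _ => by rw [hg, map_pow]) i
    exact (_root_.map_eq_zero (algebraMap k F)).mp h3
  · have h3 := h2 (p.map (algebraMap k F)) (hp.map _) (by rw [natDegree_map, hpn]) (by
      rw [aeval_eq_sum_range, natDegree_map]
      rw [aeval_eq_sum_range] at hp0
      have h4 := congrArg g hp0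
      rw [map_sum, map_zero] at h4
      rw [← h4]
      exact Finset.sum_congr rfl fun i _ => by rw [hg, map_pow, coeff_map]) i
    rwa [coeff_map] at h3

end near

end Vale.Agent.P011.H167.Fp
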