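import Vale.Agent.P011.H182.Nma
import Vale.Agent.P011.H698.DensFF
import Vale.Agent.P011.H158.N4ValF
import Vale.Agent.P011.H74.GlobF
import Vale.Agent.P011.Hey.Fin0

/-!
# Landherr's theorem over function fields, part 1

Weak approximation in `D`, sizes, integral elements.
-/

open Module Polynomial

set_option linter.unusedSectionVars false

namespace Vale.Agent.P011.H167.Lf

open Vale.Agent.P011.H738 Vale.Agent.P011.H271 Vale.Agent.P011.H182 Vale.Agent.P011.H305

section approx

variable {k : Type} [Field k] [GFF k]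

/-- Weak approximation in `k`. -/
theorem approx {P : Set (Place k)} (hP : P.Finite) (x : Place k → k) {δ : Place k → ℝ}
    (hδ : ∀ p, 0 < δ p) : ∃ y : k, ∀ p ∈ P, p.abv (y - x p) < δ p := by
  obtain ⟨e, he, hle⟩ := H74.GlobF.exists_lower hP (u := δ) fun p _ => hδ p
  obtain ⟨a, ha⟩ := H698.place_weak hP.toFinset
    (fun p => algebraMap k (p : Place k).comp (x p)) he
  refine ⟨a, fun p hp => ?_⟩
  have h1 := ha ⟨p, hP.mem_toFinset.mpr hp⟩
  rw [← map_sub, norm_alg] at h1
  exact h1.trans_le (hle p hp)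

theorem exists_abv_lt (p : Place k) {ε : ℝ} (hε : 0 < ε) : ∃ a : k, a ≠ 0 ∧ p.abv a < ε := by
  obtain ⟨x, hx⟩ := p.normalized.2.1
  have hx1 : 1 < p.abv x := by
    rw [hx]; exact one_lt_qq' p
  have hx0 : x ≠ 0 := by
    rintro rfl
    rw [map_zero] at hx1
    linarith
  obtain ⟨n, hn⟩ := exists_pow_lt_of_lt_one hε (inv_lt_one_of_one_lt₀ hx1)
  refine ⟨x⁻¹ ^ n, pow_ne_zero n (inv_ne_zero hx0), ?_⟩
  rw [map_pow, map_inv₀]
  exact hn

theorem exists_abv_gt (p : Place k) (M : ℝ) : ∃ a : k, M < p.abv a := by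
  have hM : 0 < |M| + 1 := by positivity
  obtain ⟨y, hy0, hy⟩ := exists_abv_lt p (inv_pos.mpr hM)
  refine ⟨y⁻¹, ?_⟩
  have h1 : 0 < p.abv y := p.abv.pos hy0
  have h2 : |M| + 1 < (p.abv y)⁻¹ := by
    rw [lt_inv_comm₀ hM h1]
    exact hy
  rw [map_inv₀]
  linarith [le_abs_self M]

/-- There are infinitely many elements which are small at finitely many places. -/
theorem infinite_small {P : Set (Place k)} (hP : P.Finite) {δ : Place k → ℝ}
    (hδ : ∀ p, 0 < δ p) : {y : k | y ≠ 0 ∧ ∀ p ∈ P, p.abv y < δ p}.Infinite := by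
  obtain ⟨p0⟩ := Hey.nonempty_place k
  have hP' : (insert p0 P).Finite := hP.insert p0
  choose r hr0 hr1 using fun p : Place k => exists_abv_lt p (ε := min (δ p) 1)
    (lt_min (hδ p) one_pos)
  -- a nonzero small element
  obtain ⟨y, hy⟩ := approx hP' r (δ := fun p => p.abv (r p)) fun p => p.abv.pos (hr0 p)
  have hyle : ∀ p ∈ insert p0 P, p.abv y < min (δ p) 1 := by
    intro p hp
    have e : y = (y - r p) + r p := by ring
    rw [e]
    exact (p.nonarch _ _).trans_lt (max_lt ((hy p hp).trans (hr1 p)) (hr1 p))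
  have hy0 : y ≠ 0 := by
    rintro rfl
    have := hy p0 (Set.mem_insert _ _)
    rw [zero_sub, AbsoluteValue.map_neg] at this
    exact lt_irrefl _ this
  have hinj : Function.Injective fun n : ℕ => y ^ (n + 1) := by
    have h1 : StrictAnti fun n : ℕ => p0.abv (y ^ (n + 1)) := by
      intro a b hab
      simp only [map_pow]
      exact pow_lt_pow_right_of_lt_one₀ (p0.abv.pos hy0)
        ((hyle p0 (Set.mem_insert _ _)).trans_le (min_le_right _ _)) (by omega)
    intro a b hab
    exact h1.injective (congrArg p0.abv hab)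
  refine (Set.infinite_range_of_injective hinj).mono ?_
  rintro _ ⟨n, rfl⟩
  refine ⟨pow_ne_zero _ hy0, fun p hp => ?_⟩
  have h1 := hyle p (Set.mem_insert_of_mem _ hp)
  rw [map_pow, pow_succ]
  calc p.abv y ^ n * p.abv y ≤ 1 * p.abv y :=
        mul_le_mul_of_nonneg_right (pow_le_one₀ (p.abv.nonneg _)
          (h1.trans_le (min_le_right _ _)).le) (p.abv.nonneg _)
    _ = p.abv y := one_mul _
    _ < δ p := h1.trans_le (min_le_left _ _)

end approx

section sizes

variable {k D : Type} [Field k] [DivisionRing D] [Algebra k D] {N : ℕ}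
  (B : Basis (Fin N) k D)

/-- The values of a sesquilinear expression depend continuously on the argument. -/
theorem form_cont (a : AbsoluteValue k ℝ) (σ : D →ₗ[k] D) (e x₀ : D) {ε : ℝ} (hε : 0 < ε) :
    ∃ δ : ℝ, 0 < δ ∧ ∀ x, na B a (x - x₀) < δ →
      na B a (σ x * e * x - σ x₀ * e * x₀) < ε := by
  obtain ⟨C, hC', hCm⟩ := na_mul B a
  have hC : 0 < C := by linarith
  obtain ⟨S, hS, hSm⟩ := na_linear B a σ
  obtain ⟨M, hM, hMd⟩ : ∃ M : ℝ, 0 < M ∧ C * (C * S * na B a e) * (na B a x₀ + 1) +
      C * (C * na B a (σ x₀) * na B a e) ≤ M := by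
    refine ⟨C * (C * S * na B a e) * (na B a x₀ + 1) +
      C * (C * na B a (σ x₀) * na B a e) + 1, ?_, by linarith⟩
    have h1 := na_nonneg B a e
    have h2 := na_nonneg B a x₀
    have h3 := na_nonneg B a (σ x₀)
    positivity
  refine ⟨min 1 (ε / (2 * M)), by positivity, fun x hx => ?_⟩
  have hx1 : na B a (x - x₀) < 1 := hx.trans_le (min_le_left _ _)
  have hx2 : na B a (x - x₀) < ε / (2 * M) := hx.trans_le (min_le_right _ _)
  have hxb : na B a x ≤ na B a x₀ + 1 := by
    have h1 : x = x₀ + (x - x₀) := by abel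
    rw [h1]
    exact (na_add_le B a _ _).trans (add_le_add le_rfl hx1.le)
  have e1 : σ x * e * x - σ x₀ * e * x₀ = σ (x - x₀) * e * x + σ x₀ * e * (x - x₀) := by
    rw [map_sub]
    noncomm_ring
  rw [e1]
  have h0 := na_nonneg B a (x - x₀)
  have he := na_nonneg B a e
  have hσ := na_nonneg B a (σ x₀)
  have hx₀ := na_nonneg B a x₀
  have h1 : na B a (σ (x - x₀) * e * x) ≤
      C * (C * (S * na B a (x - x₀)) * na B a e) * (na B a x₀ + 1) := by
    refine (hCm _ _).trans ?_
    refine mul_le_mul ?_ hxb (na_nonneg _ _ _) (by positivity)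
    refine mul_le_mul_of_nonneg_left ?_ hC.le
    refine (hCm _ _).trans ?_
    refine mul_le_mul_of_nonneg_right ?_ he
    exact mul_le_mul_of_nonneg_left (hSm _) hC.le
  have h2 : na B a (σ x₀ * e * (x - x₀)) ≤ C * (C * na B a (σ x₀) * na B a e) * na B a (x - x₀) := by
    refine (hCm _ _).trans ?_
    refine mul_le_mul_of_nonneg_right ?_ h0
    exact mul_le_mul_of_nonneg_left (hCm _ _) hC.le
  calc na B a (σ (x - x₀) * e * x + σ x₀ * e * (x - x₀))
      ≤ C * (C * (S * na B a (x - x₀)) * na B a e) * (na B a x₀ + 1) +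
        C * (C * na B a (σ x₀) * na B a e) * na B a (x - x₀) :=
        (na_add_le B a _ _).trans (add_le_add h1 h2)
    _ = (C * (C * S * na B a e) * (na B a x₀ + 1) +
      C * (C * na B a (σ x₀) * na B a e)) * na B a (x - x₀) := by ring
    _ ≤ M * na B a (x - x₀) := mul_le_mul_of_nonneg_right hMd h0
    _ ≤ M * (ε / (2 * M)) := mul_le_mul_of_nonneg_left hx2.le hM.le
    _ = ε / 2 := by field_simp
    _ < ε := by linarith

/-- Weak approximation in `D`. -/
theorem approxD [GFF k] {T : Set (Place k)} (hT : T.Finite) (z : Place k → D) {δ : Place k → ℝ}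
    (hδ : ∀ p, 0 < δ p) : ∃ x : D, ∀ p ∈ T, na B p.abv (x - z p) < δ p := by
  have h1 : ∀ i : Fin N, ∃ f : k, ∀ p ∈ T, p.abv (f - B.repr (z p) i) < δ p / (N + 1) := fun i =>
    approx hT (fun p => B.repr (z p) i) (δ := fun p => δ p / (N + 1)) (fun p => by
      have := hδ p
      positivity)
  choose f hf using h1
  refine ⟨∑ i, f i • B i, fun p hp => ?_⟩
  have h2 : ∀ i, B.repr (∑ i, f i • B i - z p) i = f i - B.repr (z p) i := by
    intro i
    rw [map_sub, Finsupp.sub_apply, B.repr_sum_self]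
  rw [na]
  have h3 : ∀ i ∈ (Finset.univ : Finset (Fin N)), p.abv (B.repr (∑ i, f i • B i - z p) i) ≤
      δ p / (N + 1) := by
    intro i _
    rw [h2]
    exact (hf i p hp).le
  refine (Finset.sum_le_sum h3).trans_lt ?_
  rw [Finset.sum_const, Finset.card_univ, Fintype.card_fin, nsmul_eq_mul]
  have h4 := hδ p
  rw [mul_div_assoc', div_lt_iff₀ (by positivity)]
  nlinarith

end sizes

section integral

variable {k D : Type} [Field k] [DivisionRing D] [StarRing D] [Algebra k D] {N : ℕ}
  {B : Basis (Fin N) k D} {a : AbsoluteValue k ℝ}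

theorem ig_pow (h : Gd B a) {x : D} (hx : Ig B a x) (n : ℕ) : Ig B a (x ^ n) := by
  induction n with
  | zero => rw [pow_zero]; exact h.one
  | succ n ih => rw [pow_succ]; exact h.mul' ih hx

/-- small times integral is small -/
theorem small_mul (h : Gd B a) {x y : D} (hx : ∀ l, a (B.repr x l) < 1)
    (hy : Ig B a y) (l : Fin N) : a (B.repr (x * y) l) < 1 := by
  classical
  have h1 : ∀ i, Ig B a (B i * y) := fun i => h.mul' (fun l => by
    rw [B.repr_self, Finsupp.single_apply]
    split_ifs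
    · rw [map_one]
    · rw [map_zero]; exact zero_le_one) hy
  have h2 : x * y = ∑ i, B.repr x i • (B i * y) := by
    conv_lhs => rw [← B.sum_repr x]
    rw [Finset.sum_mul]
    exact Finset.sum_congr rfl fun i _ => smul_mul_assoc _ _ _
  rw [h2, map_sum, Finsupp.coe_finsetSum, Finset.sum_apply]
  have h3 : ∀ s : Finset (Fin N), a (∑ i ∈ s, (B.repr (B.repr x i • (B i * y))) l) < 1 := by
    intro s
    induction s using Finset.induction_on with
    | empty => rw [Finset.sum_empty, map_zero]; exact one_pos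
    | insert b s hb ih =>
      rw [Finset.sum_insert hb]
      refine (h.na _ _).trans_lt (max_lt ?_ ih)
      rw [map_smul, Finsupp.smul_apply, smul_eq_mul, map_mul]
      exact mul_lt_one_of_nonneg_of_lt_one_left (a.nonneg _) (hx b) (h1 b l)
  exact h3 _

/-- The inverse of an element close to one is integral. -/
theorem ig_inv_one_add (h : Gd B a) {y : D}
    (hy : ∀ l, a (B.repr y l) < 1) : Ig B a (1 + y)⁻¹ := by
  by_cases h0 : 1 + y = 0
  · rw [h0, inv_zero]
    exact ig_zero
  obtain ⟨u, hu⟩ : ∃ u : D, u = (1 + y)⁻¹ := ⟨_, rfl⟩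
  rw [← hu]
  have hyu : u + y * u = 1 := by
    rw [hu]
    calc (1 + y)⁻¹ + y * (1 + y)⁻¹ = (1 + y) * (1 + y)⁻¹ := by rw [add_mul, one_mul]
      _ = 1 := mul_inv_cancel₀ h0
  have hu0 : u ≠ 0 := by rw [hu]; exact inv_ne_zero h0
  have hne : Nonempty (Fin N) := by
    by_contra hN
    rw [not_nonempty_iff] at hN
    apply hu0
    rw [← B.sum_repr u]
    exact Finset.sum_eq_zero fun i _ => (hN.false i).elim
  obtain ⟨i0, hi0⟩ := Finite.exists_max fun i => a (B.repr u i)
  intro l
  refine (hi0 l).trans ?_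
  by_contra hc
  rw [not_le] at hc
  obtain ⟨c, hcd⟩ : ∃ c : k, c = B.repr u i0 := ⟨_, rfl⟩
  rw [← hcd] at hc hi0
  have hc0 : c ≠ 0 := by
    rintro rfl
    rw [map_zero] at hc
    linarith
  have hvc : 0 < a c := a.pos hc0
  have hInt : Ig B a (c⁻¹ • u) := fun i => by
    rw [map_smul, Finsupp.smul_apply, smul_eq_mul, map_mul, map_inv₀, inv_mul_le_iff₀ hvc, mul_one]
    exact hi0 i
  have h2 := small_mul h hy hInt i0
  have h3 : c⁻¹ • (1 : D) = c⁻¹ • u + y * (c⁻¹ • u) := by
    rw [mul_smul_comm, ← smul_add, hyu]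
  have h4 := congrArg (fun z => B.repr z i0) h3
  simp only [map_add, Finsupp.add_apply] at h4
  rw [map_smul, Finsupp.smul_apply, map_smul, Finsupp.smul_apply, smul_eq_mul, smul_eq_mul,
    ← hcd, inv_mul_cancel₀ hc0] at h4
  have h6 : a (c⁻¹ * B.repr (1 : D) i0) < 1 := by
    rw [map_mul, map_inv₀]
    exact mul_lt_one_of_nonneg_of_lt_one_left (inv_nonneg.mpr (a.nonneg _))
      (inv_lt_one_of_one_lt₀ hc) (h.one i0)
  rw [h4] at h6
  have h7 : a ((1 + B.repr (y * (c⁻¹ • u)) i0) - B.repr (y * (c⁻¹ • u)) i0) < 1 := by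
    rw [sub_eq_add_neg]
    refine (h.na _ _).trans_lt (max_lt h6 ?_)
    rw [AbsoluteValue.map_neg]
    exact h2
  rw [add_sub_cancel_right, map_one] at h7
  exact lt_irrefl _ h7

end integral

section period

variable {K D : Type} [Field K] [StarRing K] [DivisionRing D] [Algebra K D]
  [FiniteDimensional K D]

theorem minpoly_add (a : D) (c : K) :
    minpoly K (a + algebraMap K D c) = (minpoly K a).comp (X - C c) := by
  have ha : IsIntegral K a := IsIntegral.of_finite K a
  have hb : IsIntegral K (a + algebraMap K D c) := IsIntegral.of_finite K _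
  have key : ∀ (b : D) (c : K), aeval (b + algebraMap K D c) ((minpoly K b).comp (X - C c)) = 0 := by
    intro b c
    rw [Polynomial.aeval_comp, map_sub, Polynomial.aeval_X, Polynomial.aeval_C, add_sub_cancel_right,
      minpoly.aeval]
  have hdeg : ∀ (b : D) (c : K), ((minpoly K b).comp (X - C c)).natDegree =
      (minpoly K b).natDegree := by
    intro b c
    rw [Polynomial.natDegree_comp, Polynomial.natDegree_X_sub_C, mul_one]
  have hmon : ((minpoly K a).comp (X - C c)).Monic :=
    (minpoly.monic ha).comp (Polynomial.monic_X_sub_C c) (by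
      rw [Polynomial.natDegree_X_sub_C]; exact one_ne_zero)
  refine (Polynomial.eq_of_monic_of_dvd_of_natDegree_le (minpoly.monic hb) hmon
    (minpoly.dvd _ _ (key a c)) ?_).symm
  rw [hdeg]
  have h2 := key (a + algebraMap K D c) (-c)
  rw [map_neg, add_neg_cancel_right] at h2
  have h3 := minpoly.dvd _ _ h2
  have h4 := Polynomial.natDegree_le_of_dvd h3 (by
    intro h0
    have := hdeg (a + algebraMap K D c) (-c)
    rw [h0, Polynomial.natDegree_zero] at this
    exact (minpoly.natDegree_pos hb).ne this)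
  rwa [hdeg] at h4

/-- The minimal polynomial is coprime to its conjugate after adding a suitable multiple of `s`. -/
theorem exists_shift (h2 : (2 : K) ≠ 0) {s : K} (hs : star s = -s) (hs0 : s ≠ 0) (a : D)
    {Δ : Set K} (hΔ : Δ.Infinite) (hΔs : ∀ δ ∈ Δ, star δ = δ) : ∃ c ∈ Δ,
      minpoly K (a + algebraMap K D (c * s)) ≠
        (minpoly K (a + algebraMap K D (c * s))).map (starRingEnd K) := by
  by_contra hcon
  push Not at hcon
  obtain ⟨m, hm⟩ : ∃ m : K[X], m = minpoly K a := ⟨_, rfl⟩
  -- the polynomial is constant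
  have h3 : ∀ δ ∈ Δ, m.eval (-(2 * (δ * s))) = (m.map (starRingEnd K)).eval 0 := by
    intro δ hδ
    have h4 := hcon δ hδ
    rw [minpoly_add, ← hm] at h4
    have h5 := congrArg (Polynomial.eval (-(δ * s))) h4
    have h6 : (m.comp (X - C (δ * s))).eval (-(δ * s)) = m.eval (-(2 * (δ * s))) := by
      rw [Polynomial.eval_comp]
      congr 1
      simp only [Polynomial.eval_sub, Polynomial.eval_X, Polynomial.eval_C]
      ring
    have h7 : ((m.comp (X - C (δ * s))).map (starRingEnd K)).eval (-(δ * s)) =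
        (m.map (starRingEnd K)).eval 0 := by
      rw [Polynomial.map_comp, Polynomial.eval_comp]
      congr 1
      have h8 : (starRingEnd K) (δ * s) = -(δ * s) := by
        change star (δ * s) = _
        rw [star_mul, hΔs δ hδ, hs]
        ring
      rw [Polynomial.map_sub, Polynomial.map_X, Polynomial.map_C, h8]
      simp only [Polynomial.eval_sub, Polynomial.eval_X, Polynomial.eval_C]
      ring
    rw [h6, h7] at h5
    exact h5
  have h4 : m - C ((m.map (starRingEnd K)).eval 0) = 0 := by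
    apply Polynomial.eq_zero_of_infinite_isRoot
    refine Set.Infinite.mono (s := (fun δ => -(2 * (δ * s))) '' Δ) ?_ ?_
    · rintro _ ⟨δ, hδ, rfl⟩
      change Polynomial.IsRoot _ _
      rw [Polynomial.IsRoot, Polynomial.eval_sub, Polynomial.eval_C, h3 δ hδ, sub_self]
    · refine hΔ.image ?_
      intro x _ y _ hxy
      simp only [neg_inj] at hxy
      exact mul_right_cancel₀ hs0 (mul_left_cancel₀ h2 hxy)
  have h5 : m.natDegree = 0 := by
    rw [sub_eq_zero.mp h4, Polynomial.natDegree_C]
  have h6 := minpoly.natDegree_pos (IsIntegral.of_finite K a)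
  rw [← hm] at h6
  omega

theorem coprime_conj {b : D} (h : minpoly K b ≠ (minpoly K b).map (starRingEnd K)) :
    ∃ A A' : K[X], A * minpoly K b + A' * (minpoly K b).map (starRingEnd K) = 1 := by
  have hb : IsIntegral K b := IsIntegral.of_finite K b
  have hirr := minpoly.irreducible hb
  have hmon := minpoly.monic hb
  have h1 : ¬ minpoly K b ∣ (minpoly K b).map (starRingEnd K) := by
    intro hdvd
    apply h
    symm
    apply Polynomial.eq_of_monic_of_dvd_of_natDegree_le hmon (hmon.map _) hdvd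
    rw [Polynomial.natDegree_map]
  exact (hirr.coprime_iff_not_dvd).mpr h1

end period

end Vale.Agent.P011.H167.Lf
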