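import Vale.Agent.P011.H167.FpA
import Vale.Agent.P011.H167.LfA
import Vale.Agent.P011.H63.FBase
import Vale.Agent.P011.H929.E.Base
import Vale.Agent.P011.Hey.Fin0

/-!
# Local prescription over function fields, part 2

Hermitian matrices over a quadratic extension of the completion of a function field: the choice
with prescribed classes.
-/

open Module Matrix Polynomial

set_option linter.unusedSectionVars false

namespace Vale.Agent.P011.H167.Fp

open Vale.Agent.P011.H738 Vale.Agent.P011.H271 Vale.Agent.P011.H182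
open Vale.Agent.P011.T2 (QuadL)
open Vale.Agent.P011.Even (LN)
open Vale.Agent.P011.Arith (NF)
open Vale.Agent.P011.H63.FB (LSF iuF iuF_val mem_LN_iff isSquare_of_near exists_global)

variable {k : Type} [Field k] [GFF k] (v : Place k)

theorem four_ne (hk : (2 : k) ≠ 0) : (4 : v.comp) ≠ 0 := by
  have h : (4 : v.comp) = 2 * 2 := by norm_num
  rw [h]
  exact mul_ne_zero (H63.FB.two_ne_comp v hk) (H63.FB.two_ne_comp v hk)

theorem exists_sq_radius (hk : (2 : k) ≠ 0) : ∃ ε : ℝ, 0 < ε ∧ ∀ x : v.comp, ‖x - 1‖ < ε →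
    ∃ u : v.compˣ, x = (u : v.comp) ^ 2 := by
  refine ⟨1, one_pos, fun x hx => ?_⟩
  obtain ⟨w, hw⟩ := isSquare_of_near v hk hx
  have hw0 : w ≠ 0 := by
    rintro rfl
    rw [hw, mul_zero, zero_sub, norm_neg, norm_one] at hx
    exact lt_irrefl _ hx
  exact ⟨Units.mk0 w hw0, by rw [hw, Units.val_mk0, sq]⟩

theorem exists_small {δ : ℝ} (hδ : 0 < δ) : ∃ t : kˣ, ‖(iuF v t : v.comp)‖ < δ ∧
    ‖(iuF v t : v.comp)‖ < 1 := by
  obtain ⟨a, ha, h⟩ := Lf.exists_abv_lt v (lt_min hδ one_pos)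
  have h1 : ‖algebraMap k v.comp a‖ = v.abv a := norm_alg v a
  rw [← h1] at h
  exact ⟨Units.mk0 a ha, lt_of_lt_of_le h (min_le_left _ _), lt_of_lt_of_le h (min_le_right _ _)⟩

/-- The choice of the small eigenvalue. -/
theorem first_eig (hk : (2 : k) ≠ 0) {ε0 : ℝ} (hε0 : 0 < ε0)
    (hsq : ∀ x : v.comp, ‖x - 1‖ < ε0 →
      ∃ u : v.compˣ, x = (u : v.comp) ^ 2) {a0 : kˣ}
    (ha0s : ¬ IsSquare (iuF v a0 : v.comp)) (μ β : v.compˣ) :
    ∃ (T : kˣ) (w1 : v.compˣ),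
      ¬ IsSquare (algebraMap k (v.comp) (((a0 * T ^ 2 : kˣ) : k)⁻¹ + 4⁻¹)) ∧
      (β : v.comp) + μ * iuF v (a0 * T ^ 2) = β * (w1 : v.comp) ^ 2 := by
  let F := v.comp
  have h40 : (4 : F) ≠ 0 := four_ne v hk
  set C : ℝ := ‖(iuF v a0 : F) / 4‖ + ‖(μ : F) * iuF v a0 / β‖ + 1 with hC
  have hC0 : 0 < C := by positivity
  obtain ⟨T, hT, hT1⟩ := exists_small v (div_pos hε0 hC0)
  have hTT : ‖(iuF v T : F)‖ ^ 2 < ε0 / C := by
    have h1 : ‖(iuF v T : F)‖ ^ 2 ≤ ‖(iuF v T : F)‖ := by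
      rw [sq]
      exact mul_le_of_le_one_left (norm_nonneg _) hT1.le
    exact lt_of_le_of_lt h1 hT
  set e0 : kˣ := a0 * T ^ 2 with he0
  have he0v : (iuF v e0 : F) = iuF v a0 * (iuF v T : F) ^ 2 := by
    rw [he0, map_mul, map_pow, Units.val_mul, Units.val_pow_eq_pow_val]
  have hsmall : ∀ c : F, ‖c‖ ≤ C → ‖c * (iuF v T : F) ^ 2‖ < ε0 := by
    intro c hc
    rw [norm_mul, norm_pow]
    calc ‖c‖ * ‖(iuF v T : F)‖ ^ 2 ≤ C * ‖(iuF v T : F)‖ ^ 2 :=
          mul_le_mul_of_nonneg_right hc (by positivity)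
      _ < C * (ε0 / C) := mul_lt_mul_of_pos_left hTT hC0
      _ = ε0 := by field_simp
  obtain ⟨w1, hw1⟩ := hsq (((β : F) + μ * iuF v e0) / β) (by
    have hβ0 := β.ne_zero
    have e1 : ((β : F) + μ * iuF v e0) / β - 1 =
        ((μ : F) * iuF v a0 / β) * (iuF v T : F) ^ 2 := by
      rw [he0v]; field_simp; ring
    rw [e1]
    apply hsmall
    rw [hC]
    have := norm_nonneg ((iuF v a0 : F) / 4)
    linarith)
  refine ⟨T, w1, ?_, ?_⟩
  · obtain ⟨w, hw⟩ := hsq (1 + (iuF v e0 : F) / 4) (by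
      have e1 : 1 + (iuF v e0 : F) / 4 - 1 = ((iuF v a0 : F) / 4) * (iuF v T : F) ^ 2 := by
        rw [he0v]; ring
      rw [e1]
      apply hsmall
      rw [hC]
      have := norm_nonneg ((μ : F) * iuF v a0 / β)
      linarith)
    rintro ⟨z, hz⟩
    apply ha0s
    have h1 : algebraMap k F ((e0 : k)⁻¹ + 4⁻¹) = (iuF v e0 : F)⁻¹ * (w : F) ^ 2 := by
      rw [← hw, map_add, map_inv₀, map_inv₀, map_ofNat]
      change (iuF v e0 : F)⁻¹ + 4⁻¹ = _
      have := (iuF v e0).ne_zero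
      field_simp
    rw [h1, he0v] at hz
    have hT0 := (iuF v T).ne_zero
    have ha00 := (iuF v a0).ne_zero
    have hw0 := w.ne_zero
    rw [inv_mul_eq_iff_eq_mul₀ (mul_ne_zero ha00 (pow_ne_zero 2 hT0))] at hz
    have hz0 : z ≠ 0 := by
      rintro rfl
      rw [mul_zero, mul_zero] at hz
      exact pow_ne_zero 2 hw0 hz
    refine ⟨(w : F) / (z * iuF v T), ?_⟩
    rw [div_mul_div_comm, ← sq, hz]
    field_simp
  · rw [← hw1]
    have := β.ne_zero
    field_simp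
    rfl


/-- The choice of the large eigenvalues. -/
theorem second_eig {ε0 : ℝ} (hε0 : 0 < ε0)
    (hsq : ∀ x : v.comp, ‖x - 1‖ < ε0 →
      ∃ u : v.compˣ, x = (u : v.comp) ^ 2) {d : kˣ} {L : Type} [Field L]
    [StarRing L] [Algebra (v.comp) L]
    (hQ : QuadL (v.comp) L (iuF v d : v.comp)) {n : ℕ}
    (B : Matrix (Fin (n + 1)) (Fin (n + 1)) L) (hB : Bᴴ = B) {β ρ w1 : v.compˣ}
    (hBβ : B 0 0 = algebraMap (v.comp) L β)
    (hw1 : (β : v.comp) + ρ = β * (w1 : v.comp) ^ 2)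
    (μ : Fin n → v.compˣ) (r : Fin n → kˣ) (e0 : kˣ) :
    ∃ t : kˣ, (∀ i, r i * (t ^ 2)⁻¹ ≠ e0) ∧ ∃ z w : v.compˣ,
      (B + Matrix.diagonal (fun i => algebraMap (v.comp) L
        ((Fin.cons ρ (fun i => μ i * iuF v (r i * (t ^ 2)⁻¹)) :
          Fin (n + 1) → v.compˣ) i))).det = algebraMap (v.comp) L z ∧
      z = β * (∏ i, μ i) * iuF v (∏ i, r i) * w ^ 2 := by
  classical
  let F := v.comp
  have hβ10 : (β : F) + ρ ≠ 0 := by
    rw [hw1]
    exact mul_ne_zero β.ne_zero (pow_ne_zero 2 w1.ne_zero)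
  obtain ⟨la, hla⟩ : ∃ la : L →ₗ[F] F, ∀ c, la (algebraMap F L c) = c := by
    obtain ⟨la, hla⟩ := (Algebra.linearMap F L).exists_leftInverse_of_injective
      (LinearMap.ker_eq_bot.mpr (algebraMap F L).injective)
    exact ⟨la, fun c => LinearMap.congr_fun hla c⟩
  let κ : Fin n → Fˣ := fun i => (μ i * iuF v (r i))⁻¹
  obtain ⟨δC, hδC, hlim⟩ := Two2.det_limit B la
    (algebraMap F L ρ) (fun i => (κ i : F)) (fun i => (κ i).ne_zero)
    (mul_pos hε0 (norm_pos_iff.mpr hβ10))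
  obtain ⟨δD, hδD, hDD⟩ : ∃ δ : ℝ, 0 < δ ∧ ∀ i, δ ≤ ‖(iuF v (r i) : F)‖ / ‖(iuF v e0 : F)‖ := by
    rcases isEmpty_or_nonempty (Fin n) with hn | hn
    · exact ⟨1, one_pos, fun i => hn.elim i⟩
    · obtain ⟨i0, hi0⟩ := Finite.exists_min (fun i => ‖(iuF v (r i) : F)‖ / ‖(iuF v e0 : F)‖)
      exact ⟨_, div_pos (norm_pos_iff.mpr (iuF v (r i0)).ne_zero)
        (norm_pos_iff.mpr (iuF v e0).ne_zero), hi0⟩
  have he00 : 0 < ‖(iuF v e0 : F)‖ := norm_pos_iff.mpr (iuF v e0).ne_zero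
  obtain ⟨t, ht, ht1⟩ := exists_small v (lt_min hδC hδD)
  have htt : ‖(iuF v t : F) ^ 2‖ < min δC δD := by
    rw [norm_pow]
    refine lt_of_le_of_lt ?_ ht
    rw [sq]
    exact mul_le_of_le_one_left (norm_nonneg _) ht1.le
  have ht0 : (iuF v t : F) ^ 2 ≠ 0 := pow_ne_zero 2 (iuF v t).ne_zero
  refine ⟨t, ?_, ?_⟩
  · intro i hi
    have h1 : iuF v e0 * (iuF v t) ^ 2 = iuF v (r i) := by
      rw [← hi, map_mul, map_inv, map_pow, inv_mul_cancel_right]
    have h2 := congrArg (fun u : Fˣ => ‖(u : F)‖) h1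
    simp only [Units.val_mul, Units.val_pow_eq_pow_val, norm_mul] at h2
    have h3 := lt_of_lt_of_le htt (min_le_right _ _)
    have h4 := lt_of_lt_of_le h3 (hDD i)
    rw [lt_div_iff₀ he00, mul_comm, h2] at h4
    exact lt_irrefl _ h4
  · have hR2 : (fun i => algebraMap F L
        ((Fin.cons ρ (fun i => μ i * iuF v (r i * (t ^ 2)⁻¹)) : Fin (n + 1) → Fˣ) i)) =
        (Fin.cons (algebraMap F L ρ) fun i =>
          (algebraMap F L ((κ i : F) * (iuF v t : F) ^ 2))⁻¹ : Fin (n + 1) → L) := by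
      funext i
      refine Fin.cases ?_ (fun i => ?_) i
      · rfl
      · rw [Fin.cons_succ, Fin.cons_succ, ← map_inv₀]
        congr 1
        rw [map_mul, map_inv, map_pow]
        simp only [κ, Units.val_mul, Units.val_inv_eq_inv_val, Units.val_pow_eq_pow_val]
        rw [mul_inv, inv_inv, mul_assoc]
    have h1 := hlim ((iuF v t : F) ^ 2) ht0 (lt_of_lt_of_le htt (min_le_left _ _))
    rw [← hR2] at h1
    obtain ⟨z0, hz0⟩ := hQ.fix (B + Matrix.diagonal (fun i => algebraMap F L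
        ((Fin.cons ρ (fun i => μ i * iuF v (r i * (t ^ 2)⁻¹)) : Fin (n + 1) → Fˣ) i))).det (by
      rw [← Matrix.det_conjTranspose, Matrix.conjTranspose_add, hB,
        Matrix.diagonal_conjTranspose]
      congr 3
      funext i
      exact hQ.fix' _)
    rw [← hz0, hBβ, ← map_prod, ← map_mul, ← map_add, hla, hla] at h1
    set κp : Fˣ := ∏ i, κ i * iuF v t ^ 2 with hκp
    have hκpv : ∏ i, (κ i : F) * (iuF v t : F) ^ 2 = κp := by
      rw [hκp, Units.coe_prod]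
      rfl
    rw [hκpv] at h1
    have hβn : 0 < ‖(β : F) + ρ‖ := norm_pos_iff.mpr hβ10
    obtain ⟨w2, hw2⟩ := hsq (κp * z0 / (β + ρ)) (by
      have e1 : (κp : F) * z0 / (β + ρ) - 1 = (κp * z0 - (β + ρ)) / (β + ρ) := by
        rw [sub_div, div_self hβ10]
      rw [e1, norm_div, div_lt_iff₀ hβn]
      exact h1)
    have h2 : (κp : F) * z0 = β * (w1 : F) ^ 2 * (w2 : F) ^ 2 := by
      rw [← hw1, ← hw2, mul_div_cancel₀ _ hβ10]
    have hz00 : z0 ≠ 0 := by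
      rintro rfl
      rw [mul_zero] at h2
      exact mul_ne_zero (mul_ne_zero β.ne_zero (pow_ne_zero 2 w1.ne_zero))
        (pow_ne_zero 2 w2.ne_zero) h2.symm
    have h3 : κp * Units.mk0 z0 hz00 = β * w1 ^ 2 * w2 ^ 2 := Units.ext (by
      push_cast
      exact h2)
    refine ⟨Units.mk0 z0 hz00, w1 * w2 * (iuF v t ^ n)⁻¹, hz0.symm, ?_⟩
    have h4 : κp = ((∏ i, μ i) * iuF v (∏ i, r i))⁻¹ * (iuF v t ^ n) ^ 2 := by
      rw [hκp, Finset.prod_mul_distrib, Finset.prod_const, Finset.card_univ, Fintype.card_fin,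
        map_prod, ← Finset.prod_mul_distrib, ← Finset.prod_inv_distrib, ← pow_mul, ← pow_mul,
        mul_comm 2]
    have h6 : Units.mk0 z0 hz00 = κp⁻¹ * (β * w1 ^ 2 * w2 ^ 2) := by
      rw [← h3, inv_mul_cancel_left]
    rw [h6, h4, mul_inv, inv_inv]
    generalize iuF v t ^ n = s
    generalize iuF v (∏ i, r i) = x
    generalize ∏ i, μ i = y
    rw [mul_pow, mul_pow, inv_pow]
    simp only [mul_comm, mul_assoc, mul_left_comm]

theorem exists_herm (hk : (2 : k) ≠ 0) {d : kˣ} (hd : d ∉ LSF v) {L : Type} [Field L] 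
    [StarRing L] [Algebra (v.comp) L]
    (hQ : QuadL (v.comp) L (iuF v d : v.comp)) {n : ℕ}
    (Hm Hb : Matrix (Fin (n + 2)) (Fin (n + 2)) L) (hm : Hmᴴ = Hm) (hb : Hbᴴ = Hb)
    (hdm : Hm.det ≠ 0) (hdb : Hb.det ≠ 0) (c1 c2 : v.compˣ) :
    ∃ (e : Fin (n + 2) → kˣ) (Hr : Matrix (Fin (n + 2)) (Fin (n + 2)) L), Hrᴴ = Hr ∧
      Function.Injective e ∧
      (∃ U : Matrix (Fin (n + 2)) (Fin (n + 2)) L, IsUnit U ∧
        Hm⁻¹ * Hr * U = U * Matrix.diagonal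
          (fun i => algebraMap (v.comp) L (iuF v (e i) : v.comp))) ∧
      (∃ y : v.compˣ, Hr.det = Hm.det * algebraMap (v.comp) L y ∧
        y * c1 ∈ LN (iuF v d)) ∧
      (∃ y : v.compˣ, (Hb + Hr).det = algebraMap (v.comp) L y ∧
        y * c2 ∈ LN (iuF v d)) ∧
      ¬ IsSquare (algebraMap k (v.comp) ((e 0 : k)⁻¹ + 4⁻¹)) := by
  classical
  let F := v.comp
  have hinf : Infinite k := Hey.gff_infinite k
  have hinf' : Infinite v.comp := Infinite.of_injective _ (algebraMap k v.comp).injective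
  have hdns : ¬ IsSquare ((iuF v d : F)) := hd
  have h2L : (2 : L) ≠ 0 := by
    rw [← map_ofNat (algebraMap v.comp L) 2]
    exact (_root_.map_ne_zero _).mpr (H63.FB.two_ne_comp v hk)
  obtain ⟨P, μ, β, hPu, hP, hPβ⟩ := exists_diag_at h2L hQ Hm Hb hm hb hdm hdb
  -- the classes
  obtain ⟨a1, u1, hu1⟩ := exists_global v hk (β * (∏ i : Fin (n + 1), μ i.succ) * c2)
  obtain ⟨y0, hy0s, hy0⟩ := Two2.exists_nonsquare_coset (H929.E.indexTwo hk v) (iuF v d) hdns (iuF v a1 * c1)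
  obtain ⟨a0, u0, hu0⟩ := exists_global v hk y0
  have ha0s : ¬ IsSquare ((iuF v a0 : F)) := by
    rintro ⟨x, hx⟩
    apply hy0s
    refine ⟨x * u0, ?_⟩
    rw [hu0, Units.val_mul, Units.val_pow_eq_pow_val]
    rw [hx]
    ring
  have ha01 : iuF v a0 * iuF v a1 * c1 ∈ LN (iuF v d) := by
    refine sq_mul_mem_LN hy0 ⟨u0⁻¹, ?_⟩
    rw [hu0]
    have : u0 ^ 2 * u0⁻¹ ^ 2 = 1 := by rw [← mul_pow, mul_inv_cancel, one_pow]
    calc iuF v a0 * iuF v a1 * c1 = iuF v a0 * iuF v a1 * c1 * (u0 ^ 2 * u0⁻¹ ^ 2) := by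
          rw [this, mul_one]
      _ = _ := by simp only [mul_comm, mul_assoc, mul_left_comm]
  obtain ⟨r, hr, hrm⟩ := H929.E.exists_injective_choice (n + 1)
    (fun i => Set.range fun m : kˣ => (if i = 0 then a1 else 1) * m ^ 2) fun i => H929.E.infinite_sq _
  choose m hmr using hrm
  have hprod : ∏ i, r i = a1 * (∏ i, m i) ^ 2 := by
    have h1 : ∀ i, r i = (if i = 0 then a1 else 1) * m i ^ 2 := fun i => (hmr i).symm
    rw [Finset.prod_congr rfl fun i _ => h1 i, Finset.prod_mul_distrib, Finset.prod_pow]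
    congr 1
    rw [Finset.prod_ite_eq' Finset.univ (0 : Fin (n + 1)) (fun _ => a1)]
    simp
  obtain ⟨ε0, hε0, hsq⟩ := exists_sq_radius v hk
  obtain ⟨T, w1, hA, hw1⟩ := first_eig v hk hε0 hsq ha0s (μ 0) β
  have hB : (P * Hb * Pᴴ)ᴴ = P * Hb * Pᴴ := by
    rw [Matrix.conjTranspose_mul, Matrix.conjTranspose_mul, Matrix.conjTranspose_conjTranspose, hb,
      Matrix.mul_assoc]
  obtain ⟨t, htne, z, w, hz, hzw⟩ := second_eig v hε0 hsq hQ (P * Hb * Pᴴ) hB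
    (ρ := μ 0 * iuF v (a0 * T ^ 2)) hPβ hw1 (fun i => μ i.succ) r (a0 * T ^ 2)
  let e : Fin (n + 2) → kˣ := Fin.cons (a0 * T ^ 2) fun i => r i * (t ^ 2)⁻¹
  have hes : ∀ i : Fin (n + 1), e i.succ = r i * (t ^ 2)⁻¹ := fun i => rfl
  have hez : e 0 = a0 * T ^ 2 := rfl
  have heinj : Function.Injective e := by
    rw [Fin.cons_injective_iff]
    exact ⟨fun ⟨i, hi⟩ => htne i hi, fun i j hij => hr (mul_right_cancel hij)⟩
  obtain ⟨Hr, hHr, hPHr, hPh, hconj, hdet⟩ := exists_Hr hQ hPu hP hdm (fun i => iuF v (e i))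
  have hprode : ∏ i, e i = a0 * a1 * (T * (∏ i, m i) * (t ^ (n + 1))⁻¹) ^ 2 := by
    rw [Fin.prod_univ_succ, hez, Finset.prod_congr rfl fun i _ => hes i, Finset.prod_mul_distrib,
      hprod, Finset.prod_const, Finset.card_univ, Fintype.card_fin, inv_pow]
    have e1 : (t ^ 2) ^ (n + 1) = (t ^ (n + 1)) ^ 2 := by
      rw [← pow_mul, ← pow_mul, mul_comm]
    rw [e1, mul_pow, mul_pow, inv_pow]
    simp only [mul_comm, mul_assoc, mul_left_comm]
  refine ⟨e, Hr, hHr, heinj, ⟨Pᴴ, hPh, hconj⟩, ⟨∏ i, iuF v (e i), hdet, ?_⟩, ?_, hA⟩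
  · refine sq_mul_mem_LN ha01 ⟨iuF v (T * (∏ i, m i) * (t ^ (n + 1))⁻¹), ?_⟩
    rw [← map_prod, hprode, map_mul, map_mul, map_pow]
    simp only [mul_comm, mul_assoc, mul_left_comm]
  · have hdet0 : P.det ≠ 0 := ((Matrix.isUnit_iff_isUnit_det _).mp hPu).ne_zero
    obtain ⟨νP, hνP, hνPm⟩ := norm_mem_LN h2L hQ hdet0
    have hνP0 : algebraMap F L νP ≠ 0 := (_root_.map_ne_zero _).mpr νP.ne_zero
    have h1 : P * (Hb + Hr) * Pᴴ = P * Hb * Pᴴ + Matrix.diagonal (fun i => algebraMap F L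
        ((Fin.cons (μ 0 * iuF v (a0 * T ^ 2)) (fun i : Fin (n + 1) => μ i.succ *
          iuF v (r i * (t ^ 2)⁻¹)) : Fin (n + 2) → Fˣ) i)) := by
      rw [Matrix.mul_add, Matrix.add_mul, hPHr]
      congr 2
      funext i
      refine Fin.cases ?_ (fun i => ?_) i
      · rfl
      · rfl
    have h2 : algebraMap F L νP * (Hb + Hr).det = algebraMap F L z := by
      rw [← hz, ← h1, Matrix.det_mul, Matrix.det_mul, Matrix.det_conjTranspose, hνP]
      ring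
    refine ⟨νP⁻¹ * z, ?_, ?_⟩
    · apply mul_left_cancel₀ hνP0
      rw [h2, ← map_mul, Units.val_mul, Units.val_inv_eq_inv_val,
        mul_inv_cancel_left₀ νP.ne_zero]
    · have h5 : νP⁻¹ ∈ LN (iuF v d) := Subgroup.inv_mem _ hνPm
      refine sq_mul_mem_LN h5 ⟨w * iuF v a1 * iuF v (∏ i, m i) * u1, ?_⟩
      have h7 : νP⁻¹ * z * c2 = νP⁻¹ * ((β * (∏ i : Fin (n + 1), μ i.succ) * c2) *
          iuF v (∏ i, r i) * w ^ 2) := by
        rw [hzw]
        simp only [mul_comm, mul_assoc, mul_left_comm]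
      rw [h7, hu1, hprod, map_mul, map_pow]
      generalize iuF v a1 = x
      generalize iuF v (∏ i, m i) = y
      rw [mul_pow, mul_pow, mul_pow, sq x]
      simp only [mul_comm, mul_assoc, mul_left_comm]

end Vale.Agent.P011.H167.Fp
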