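import Vale.Agent.P011.H167.FpB
import Vale.Agent.P011.H268.Nrd
import Vale.Agent.P011.H929.E.Model
import Vale.Agent.P011.H961.SplitWF

/-!
# Local prescription over function fields, part 3

The local prescription at a nonsplit place.
-/

open Module Matrix Polynomial TensorProduct Filter Topology

set_option linter.unusedSectionVars false

namespace Vale.Agent.P011.H167.Fp

open Vale.Agent.P011.H738 Vale.Agent.P011.H271 Vale.Agent.P011.H271.S3 Vale.Agent.P011.H182
open Vale.Agent.P011.H305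
open Vale.Agent.P011.T2 (QuadL)
open Vale.Agent.P011.Even (LN natDegree_prod_X_sub_C')
open Vale.Agent.P011.Arith (NF)
open Vale.Agent.P011.H63.FB (LSF iuF iuF_val mem_LN_iff isSquare_of_near exists_global TotSplitF)

section model

variable {k K D : Type} [Field k] [GFF k] [Field K] [StarRing K]
    [DivisionRing D] [StarRing D] [Algebra k K] [Algebra k D] [Algebra K D] [IsScalarTower k K D]
    {d : kˣ} {s : K} {n : ℕ}

/-- The local model at a nonsplit place, with its centre. -/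
theorem exists_model (hS : SetF k K D d s) (hdeg : finrank K D = n ^ 2) (v : Place k)
    (hv : d ∉ LSF v) :
    ∃ (L : Type) (_ : Field L) (_ : Algebra v.comp L) (_ : StarRing L)
      (ρ : v.comp ⊗[k] D ≃ₐ[v.comp] Matrix (Fin n) (Fin n) L)
      (G : Matrix (Fin n) (Fin n) L) (i : K →+* L),
      IsUnit G ∧ Gᴴ = G ∧
      (∀ T, G * ρ (hS.sig.baseChange v.comp T) = (ρ T)ᴴ * G) ∧
      (∀ a : k, i (algebraMap k K a) = algebraMap v.comp L (algebraMap k v.comp a)) ∧
      (∀ c : K, ρ ((1 : v.comp) ⊗ₜ algebraMap K D c) = Matrix.scalar (Fin n) (i c)) ∧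
      QuadL v.comp L (iuF v d : v.comp) := by
  obtain ⟨L, _, _, _, ρ, φ, G, hfix, -, hGu, hGs, hG, hφ, hφs, hφk⟩ :=
    H929.E.exists_model hS hdeg v hv
  refine ⟨L, inferInstance, inferInstance, inferInstance, ρ, G, φ, hGu, hGs, hG, hφk, hφ,
    fun x hx => ?_, fun e => (hfix _).mpr ⟨e, rfl⟩, φ s, (_root_.map_ne_zero φ).mpr hS.s_ne, ?_, ?_⟩
  · obtain ⟨e, he⟩ := (hfix x).mp hx
    exact ⟨e, he⟩
  · rw [← hφs, hS.star_s, map_neg]
  · rw [← map_pow, hS.sq, hφk]
    rfl

/-- The class of a sum near a given element of the completion. -/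
theorem class_open (hS : SetF k K D d s) (hn0 : 0 < n) (hdeg : finrank K D = n ^ 2) {Ω : Type}
    [Field Ω] [Algebra K Ω] (f : D →ₐ[K] Matrix (Fin n) (Fin n) Ω) (v : Place k)
    {L : Type} [Field L] [Algebra (v.comp) L]
    (ρ : v.comp ⊗[k] D ≃ₐ[v.comp] Matrix (Fin n) (Fin n) L) (i : K →+* L)
    (hik : ∀ a : k, i (algebraMap k K a) = algebraMap (v.comp) L
        (algebraMap k (v.comp) a))
    (hi : ∀ c : K, ρ ((1 : v.comp) ⊗ₜ algebraMap K D c) = Matrix.scalar (Fin n) (i c))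
    {N : ℕ} (B : Basis (Fin N) k D) (b : D) (T : v.comp ⊗[k] D)
    {φ : v.compˣ}
    (hφ : (ρ ((1 : v.comp) ⊗ₜ b) + ρ T).det = algebraMap (v.comp) L φ)
    {g : kˣ} (hg : φ * iuF v g ∈ LN (iuF v d)) :
    ∀ᶠ y in 𝓝 (fun j => (Algebra.TensorProduct.basis (v.comp) B).repr T j),
      ∀ r : D, (fun j => algebraMap k (v.comp) (B.repr r j)) = y → b + r ≠ 0 ∧
        ∀ ν : kˣ, (f (b + r)).det = algebraMap K Ω (algebraMap k K ν) →
          ν * g ∈ NF d ⊔ LSF v := by
  classical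
  let F := v.comp
  let BA := Algebra.TensorProduct.basis F B
  have := hS.fin
  have := hS.cen
  obtain ⟨ε0, hε0, hsq⟩ := exists_sq_radius v hS.two_ne
  obtain ⟨la, hla⟩ : ∃ la : L →ₗ[F] F, ∀ c, la (algebraMap F L c) = c := by
    obtain ⟨la, hla⟩ := (Algebra.linearMap F L).exists_leftInverse_of_injective
      (LinearMap.ker_eq_bot.mpr (algebraMap F L).injective)
    exact ⟨la, fun c => LinearMap.congr_fun hla c⟩
  let Φ : (Fin N → F) → F := fun y => la (ρ ((1 : F) ⊗ₜ b) + ∑ j, y j • ρ ((1 : F) ⊗ₜ B j)).det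
  have hΦ : Continuous Φ := cont_det la _ _
  have hsum : ∀ T : F ⊗[k] D, ∑ j, BA.repr T j • ρ ((1 : F) ⊗ₜ B j) = ρ T := by
    intro T
    conv_rhs => rw [← BA.sum_repr T]
    rw [map_sum]
    refine Finset.sum_congr rfl fun j _ => ?_
    rw [map_smul, Algebra.TensorProduct.basis_apply]
  have hΦT : Φ (fun j => BA.repr T j) = φ := by
    change la _ = _
    rw [hsum, hφ, hla]
  have hφ0 : (φ : F) ≠ 0 := φ.ne_zero
  have hΦ' : ContinuousAt (fun y => Φ y / φ) (fun j => BA.repr T j) :=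
    hΦ.continuousAt.div_const _
  have hev := hΦ'.eventually (Metric.ball_mem_nhds _ hε0)
  filter_upwards [hev] with y hy r hr
  change dist (Φ y / φ) (Φ (fun j => BA.repr T j) / φ) < ε0 at hy
  rw [hΦT, div_self hφ0, dist_eq_norm] at hy
  obtain ⟨u, hu⟩ := hsq _ hy
  have hsumr : ∑ j, y j • ρ ((1 : F) ⊗ₜ B j) = ρ ((1 : F) ⊗ₜ r) := by
    rw [← hr, ← hsum (1 ⊗ₜ r)]
    refine Finset.sum_congr rfl fun j _ => ?_
    congr 1
    rw [Algebra.TensorProduct.basis_repr_tmul, one_smul, Finsupp.mapRange_apply]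
  have hΦr : Φ y = la (ρ ((1 : F) ⊗ₜ (b + r))).det := by
    change la _ = _
    rw [hsumr, ← map_add, ← TensorProduct.tmul_add]
  have hy0 : Φ y = φ * (u : F) ^ 2 := by
    rw [← hu, mul_div_cancel₀ _ hφ0]
  refine ⟨?_, fun ν hν => ?_⟩
  · intro h0
    have : Nonempty (Fin n) := ⟨⟨0, hn0⟩⟩
    rw [h0, TensorProduct.tmul_zero, map_zero, Matrix.det_zero, map_zero, hy0] at hΦr
    exact mul_ne_zero hφ0 (pow_ne_zero 2 u.ne_zero) hΦr
  · let _ : Algebra K L := i.toAlgebra
    let gg : D →ₐ[K] Matrix (Fin n) (Fin n) L :=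
      { toFun := fun x => ρ ((1 : F) ⊗ₜ[k] x)
        map_one' := by rw [← Algebra.TensorProduct.one_def, map_one]
        map_mul' := fun x y => by
          rw [← map_mul, Algebra.TensorProduct.tmul_mul_tmul, one_mul]
        map_zero' := by rw [TensorProduct.tmul_zero, map_zero]
        map_add' := fun x y => by rw [TensorProduct.tmul_add, map_add]
        commutes' := fun c => hi c }
    have h1 : (ρ ((1 : F) ⊗ₜ (b + r))).det = algebraMap F L (algebraMap k F (ν : k)) := by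
      have h2 : (gg (b + r)).det = algebraMap K L (algebraMap k K (ν : k)) :=
        H268.det_compare hn0 hdeg f gg (b + r) hν
      have h3 : algebraMap K L (algebraMap k K (ν : k)) = i (algebraMap k K (ν : k)) := rfl
      rw [h3, hik] at h2
      exact h2
    rw [h1, hla, hy0] at hΦr
    have h4 : iuF v ν = φ * u ^ 2 := Units.ext (by
      rw [Units.val_mul, Units.val_pow_eq_pow_val, hΦr]
      rfl)
    rw [← mem_LN_iff v hS.two_ne, map_mul, h4]
    exact sq_mul_mem_LN hg ⟨u, by rw [mul_assoc, mul_assoc, mul_comm (u ^ 2)]⟩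

/-- The target over the completion. -/
theorem exists_target (hS : SetF k K D d s) (hn : 2 ≤ n) (hdeg : finrank K D = n ^ 2) {Ω : Type}
    [Field Ω] [Algebra K Ω] (f : D →ₐ[K] Matrix (Fin n) (Fin n) Ω) {N : ℕ} (B : Basis (Fin N) k D)
    {m b : D} (hm : star m = m) (hb : star b = b) (hm0 : m ≠ 0) (hb0 : b ≠ 0)
    (v : Place k) (hv : d ∉ LSF v) (g1 g2 : kˣ) :
    ∃ (e : Fin n → kˣ) (T : v.comp ⊗[k] D), Function.Injective e ∧
      hS.sig.baseChange (v.comp) T = T ∧
      LinearIndependent (v.comp)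
        (fun i : Fin n => (((1 : v.comp) ⊗ₜ m⁻¹) * T) ^ (i : ℕ)) ∧
      aeval (((1 : v.comp) ⊗ₜ m⁻¹) * T)
        (∏ i, (X - C (algebraMap k (v.comp) (e i : k)))) = 0 ∧
      (∃ i0, ¬ IsSquare (algebraMap k (v.comp) ((e i0 : k)⁻¹ + 4⁻¹))) ∧
      ∀ᶠ y in 𝓝 (fun j => (Algebra.TensorProduct.basis (v.comp) B).repr T j),
        ∀ r : D, (fun j => algebraMap k (v.comp) (B.repr r j)) = y →
          r ≠ 0 ∧ b + r ≠ 0 ∧
          (∀ ν : kˣ, (f r).det = algebraMap K Ω (algebraMap k K ν) →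
            ν * g1 ∈ NF d ⊔ LSF v) ∧
          ∀ ν : kˣ, (f (b + r)).det = algebraMap K Ω (algebraMap k K ν) →
            ν * g2 ∈ NF d ⊔ LSF v := by
  classical
  let F := v.comp
  obtain ⟨L, _, _, _, ρ, G, i, hGu, hGs, hG, hik, hi, hQ⟩ :=
    exists_model hS hdeg v hv
  have hσ : ∀ x, hS.sig x = star x := fun x => rfl
  have hGd : IsUnit G.det := (Matrix.isUnit_iff_isUnit_det G).mp hGu
  have hGG : G * G⁻¹ = 1 := Matrix.mul_nonsing_inv _ hGd
  have hGG' : G⁻¹ * G = 1 := Matrix.nonsing_inv_mul _ hGd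
  have hGis : (G⁻¹)ᴴ = G⁻¹ := by rw [Matrix.conjTranspose_nonsing_inv, hGs]
  have hunit : ∀ c : D, c ≠ 0 → ρ ((1 : F) ⊗ₜ c) * ρ ((1 : F) ⊗ₜ c⁻¹) = 1 := by
    intro c hc
    rw [← map_mul, Algebra.TensorProduct.tmul_mul_tmul, one_mul, mul_inv_cancel₀ hc,
      ← Algebra.TensorProduct.one_def, map_one]
  have hdet : ∀ c : D, c ≠ 0 → (ρ ((1 : F) ⊗ₜ c)).det ≠ 0 := by
    intro c hc hd0
    have h1 := congrArg Matrix.det (hunit c hc)
    rw [Matrix.det_mul, hd0, zero_mul, Matrix.det_one] at h1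
    exact zero_ne_one h1
  have hherm : ∀ c : D, star c = c →
      (G * ρ ((1 : F) ⊗ₜ c))ᴴ = G * ρ ((1 : F) ⊗ₜ c) := by
    intro c hc
    have h1 := hG ((1 : F) ⊗ₜ c)
    rw [LinearMap.baseChange_tmul, hσ, hc] at h1
    rw [Matrix.conjTranspose_mul, hGs, h1]
  have hdetG : ∀ c : D, c ≠ 0 → (G * ρ ((1 : F) ⊗ₜ c)).det ≠ 0 := fun c hc => by
    rw [Matrix.det_mul]
    exact mul_ne_zero hGd.ne_zero (hdet c hc)
  -- determinants of hermitian matrices
  have hfixdet : ∀ X : Matrix (Fin n) (Fin n) L, Xᴴ = X → X.det ≠ 0 →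
      ∃ y : Fˣ, algebraMap F L y = X.det := by
    intro X hX hX0
    obtain ⟨y, hy⟩ := hQ.fix X.det (by rw [← Matrix.det_conjTranspose, hX])
    have hy0 : y ≠ 0 := by
      rintro rfl
      rw [map_zero] at hy
      exact hX0 hy.symm
    exact ⟨Units.mk0 y hy0, hy⟩
  obtain ⟨δG, hδG⟩ := hfixdet G hGs hGd.ne_zero
  obtain ⟨δm, hδm⟩ := hfixdet _ (hherm m hm) (hdetG m hm0)
  obtain ⟨n', rfl⟩ : ∃ n', n = n' + 2 := ⟨n - 2, by omega⟩
  obtain ⟨e, Hr, hHr, he, ⟨U, hU, hUe⟩, ⟨y1, hy1, hy1'⟩, ⟨y2, hy2, hy2'⟩, hns⟩ :=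
    exists_herm v hS.two_ne hv hQ (G * ρ ((1 : F) ⊗ₜ m)) (G * ρ ((1 : F) ⊗ₜ b)) (hherm m hm) (hherm b hb)
      (hdetG m hm0) (hdetG b hb0) (δG⁻¹ * δm * iuF v g1) (δG⁻¹ * iuF v g2)
  have hρT : ρ (ρ.symm (G⁻¹ * Hr)) = G⁻¹ * Hr := ρ.apply_symm_apply _
  have hminv : (G * ρ ((1 : F) ⊗ₜ m))⁻¹ = ρ ((1 : F) ⊗ₜ m⁻¹) * G⁻¹ := by
    apply Matrix.inv_eq_right_inv
    rw [Matrix.mul_assoc, ← Matrix.mul_assoc (ρ ((1 : F) ⊗ₜ m)), hunit m hm0, Matrix.one_mul, hGG]
  have hdGinv : (G⁻¹).det = algebraMap F L (δG⁻¹ : Fˣ) := by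
    rw [Matrix.det_nonsing_inv, ← hδG, Ring.inverse_eq_inv', Units.val_inv_eq_inv_val, map_inv₀]
  refine ⟨e, ρ.symm (G⁻¹ * Hr), he, ?_, ?_, ?_, ⟨0, hns⟩, ?_⟩
  · apply ρ.injective
    apply hGu.mul_left_cancel
    rw [hG, hρT, Matrix.conjTranspose_mul, hGis, hHr, Matrix.mul_assoc, hGG', Matrix.mul_one,
      ← Matrix.mul_assoc, hGG, Matrix.one_mul]
  · have hY : ρ (((1 : F) ⊗ₜ m⁻¹) * ρ.symm (G⁻¹ * Hr)) = (G * ρ ((1 : F) ⊗ₜ m))⁻¹ * Hr := by
      rw [map_mul, hρT, hminv, Matrix.mul_assoc]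
    have h1 := (H929.E.of_conj_diagonal (e := fun i => algebraMap F L (iuF v (e i) : F)) (by
      intro a b hab
      apply he
      exact Units.ext ((algebraMap k F).injective ((algebraMap F L).injective hab))) hU hUe).1
    have h2 : LinearIndependent F
        (fun i : Fin (n' + 2) => ((G * ρ ((1 : F) ⊗ₜ m))⁻¹ * Hr) ^ (i : ℕ)) := by
      refine h1.restrict_scalars ?_
      intro x y hxy
      have h4 : algebraMap F L x = algebraMap F L y := by
        rw [Algebra.algebraMap_eq_smul_one, Algebra.algebraMap_eq_smul_one]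
        exact hxy
      exact (algebraMap F L).injective h4
    apply LinearIndependent.of_comp ρ.toLinearMap
    have h3 : (ρ.toLinearMap ∘ fun i : Fin (n' + 2) =>
        (((1 : F) ⊗ₜ m⁻¹) * ρ.symm (G⁻¹ * Hr)) ^ (i : ℕ)) =
        fun i : Fin (n' + 2) => ((G * ρ ((1 : F) ⊗ₜ m))⁻¹ * Hr) ^ (i : ℕ) := by
      funext i
      change ρ (_ ^ (i : ℕ)) = _
      rw [map_pow, hY]
    rw [h3]
    exact h2
  · have hY : ρ (((1 : F) ⊗ₜ m⁻¹) * ρ.symm (G⁻¹ * Hr)) = (G * ρ ((1 : F) ⊗ₜ m))⁻¹ * Hr := by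
      rw [map_mul, hρT, hminv, Matrix.mul_assoc]
    have h1 := (H929.E.of_conj_diagonal (e := fun i => algebraMap F L (iuF v (e i) : F)) (by
      intro a b hab
      apply he
      exact Units.ext ((algebraMap k F).injective ((algebraMap F L).injective hab))) hU hUe).2
    apply ρ.injective
    rw [map_zero]
    have h2 : ρ (aeval (((1 : F) ⊗ₜ m⁻¹) * ρ.symm (G⁻¹ * Hr))
        (∏ i, (X - C (algebraMap k F (e i : k))))) =
        aeval ((G * ρ ((1 : F) ⊗ₜ m))⁻¹ * Hr) (∏ i, (X - C (algebraMap k F (e i : k)))) := by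
      rw [← hY]
      exact (Polynomial.aeval_algHom_apply ρ.toAlgHom _ _).symm
    rw [h2, ← h1, ← Polynomial.aeval_map_algebraMap L, Polynomial.map_prod]
    congr 1
    refine Finset.prod_congr rfl fun i _ => ?_
    rw [Polynomial.map_sub, Polynomial.map_X, Polynomial.map_C]
    rfl
  · have k1 := class_open hS (by omega) hdeg f v ρ i hik hi B 0 (ρ.symm (G⁻¹ * Hr))
      (φ := δG⁻¹ * δm * y1) (g := g1) (by
        rw [TensorProduct.tmul_zero, map_zero, zero_add, hρT, Matrix.det_mul, hdGinv, hy1, ← hδm,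
          Units.val_mul, Units.val_mul, map_mul, map_mul]
        ring) (by
        have h5 : δG⁻¹ * δm * y1 * iuF v g1 = y1 * (δG⁻¹ * δm * iuF v g1) := by
          rw [mul_assoc, mul_comm, mul_assoc, mul_comm (iuF v g1)]
        rw [h5]
        exact hy1')
    have k2 := class_open hS (by omega) hdeg f v ρ i hik hi B b (ρ.symm (G⁻¹ * Hr))
      (φ := δG⁻¹ * y2) (g := g2) (by
        have h5 : ρ ((1 : F) ⊗ₜ b) + G⁻¹ * Hr = G⁻¹ * (G * ρ ((1 : F) ⊗ₜ b) + Hr) := by
          rw [Matrix.mul_add, ← Matrix.mul_assoc, hGG', Matrix.one_mul]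
        rw [hρT, h5, Matrix.det_mul, hdGinv, hy2, Units.val_mul, map_mul]) (by
        have h5 : δG⁻¹ * y2 * iuF v g2 = y2 * (δG⁻¹ * iuF v g2) := by
          rw [mul_assoc, mul_left_comm]
        rw [h5]
        exact hy2')
    filter_upwards [k1, k2] with y h1 h2 r hr
    obtain ⟨h3, h4⟩ := h1 r hr
    obtain ⟨h5, h6⟩ := h2 r hr
    rw [zero_add] at h3 h4
    exact ⟨h3, h5, h4, h6⟩

/-- Symmetric elements near a symmetric element of the completion. -/
theorem exists_sym_near (hS : SetF k K D d s) {N : ℕ} (B : Basis (Fin N) k D)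
    (v : Place k) (T : v.comp ⊗[k] D)
    (hT : hS.sig.baseChange (v.comp) T = T) {P : (Fin N → v.comp) → Prop}
    (hP : ∀ᶠ y in 𝓝 (fun j => (Algebra.TensorProduct.basis (v.comp) B).repr T j),
      P y) :
    ∃ (R : D) (δ : ℝ), 0 < δ ∧ star R = R ∧ ∀ r : D,
      (∀ j, v.abv (B.repr (r - R) j) < δ) →
      P (fun j => algebraMap k (v.comp) (B.repr r j)) := by
  classical
  let F := v.comp
  have hσ : ∀ x, hS.sig x = star x := fun x => rfl
  have hF2 : (2 : F) ≠ 0 := H63.FB.two_ne_comp v hS.two_ne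
  let BA := Algebra.TensorProduct.basis F B
  let c : Fin N → F := fun j => BA.repr T j
  obtain ⟨δ0, hδ0, hball⟩ := Metric.eventually_nhds_iff.mp hP
  let Ψ : (Fin N → F) → (Fin N → F) := fun y i =>
    (y i + ∑ j, y j * algebraMap k F (B.repr (star (B j)) i)) / 2
  have hΨ : Continuous Ψ := by
    refine continuous_pi fun i => ?_
    refine ((continuous_apply i).add ?_).div_const 2
    exact continuous_finsetSum _ fun j _ => (continuous_apply j).mul continuous_const
  have hΨc : Ψ c = c := by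
    funext i
    have h1 : BA.repr (hS.sig.baseChange F T) i =
        ∑ j, c j * algebraMap k F (B.repr (star (B j)) i) := by
      conv_lhs => rw [← BA.sum_repr T]
      rw [map_sum, map_sum, Finsupp.finsetSum_apply]
      refine Finset.sum_congr rfl fun j _ => ?_
      rw [map_smul, map_smul, Finsupp.smul_apply, smul_eq_mul, Algebra.TensorProduct.basis_apply,
        LinearMap.baseChange_tmul, hσ, Algebra.TensorProduct.basis_repr_tmul, one_smul,
        Finsupp.mapRange_apply]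
    rw [hT] at h1
    change (c i + ∑ j, c j * algebraMap k F (B.repr (star (B j)) i)) / 2 = c i
    rw [← h1]
    change (c i + c i) / 2 = c i
    rw [← two_mul, mul_div_cancel_left₀ _ hF2]
  obtain ⟨δ1, hδ1, h1⟩ := Metric.continuousAt_iff.mp (hΨ.continuousAt (x := c)) (δ0 / 2)
    (half_pos hδ0)
  choose x hx using fun j => dense_alg v (c j) hδ1
  let R' : D := ∑ j, x j • B j
  have hR' : ∀ j, B.repr R' j = x j := fun j => by rw [B.repr_sum_self]
  have hstar2 : ∀ (a : k) (z : D), star (a • z) = a • star z := fun a z => by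
    rw [← hσ, map_smul, hσ]
  refine ⟨(2 : k)⁻¹ • (R' + star R'), δ0 / 2, half_pos hδ0, ?_, fun r hr => ?_⟩
  · rw [hstar2, star_add, star_star, add_comm]
  · apply hball
    have h2 := h1 (x := fun j => algebraMap k F (x j)) (by
      rw [dist_pi_lt_iff hδ1]
      intro j
      rw [dist_comm, dist_eq_norm]
      exact hx j)
    rw [hΨc] at h2
    have h3 : Ψ (fun j => algebraMap k F (x j)) =
        fun j => algebraMap k F (B.repr ((2 : k)⁻¹ • (R' + star R')) j) := by
      funext i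
      have h4 : B.repr (star R') i = ∑ j, x j * B.repr (star (B j)) i := by
        rw [← hσ, map_sum, map_sum, Finsupp.finsetSum_apply]
        refine Finset.sum_congr rfl fun j _ => ?_
        rw [map_smul, map_smul, Finsupp.smul_apply, smul_eq_mul, hσ]
      rw [map_smul, map_add, Finsupp.smul_apply, Finsupp.add_apply, h4, hR', smul_eq_mul, map_mul,
        map_inv₀, map_ofNat, map_add, map_sum]
      change (_ + _) / 2 = _
      rw [div_eq_inv_mul]
      congr 2
      exact Finset.sum_congr rfl fun j _ => (map_mul _ _ _).symm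
    rw [h3] at h2
    refine lt_of_le_of_lt (dist_triangle _ (fun j => algebraMap k F
      (B.repr ((2 : k)⁻¹ • (R' + star R')) j)) _) ?_
    have h5 : dist (fun j => algebraMap k F (B.repr r j))
        (fun j => algebraMap k F (B.repr ((2 : k)⁻¹ • (R' + star R')) j)) < δ0 / 2 := by
      rw [dist_pi_lt_iff (half_pos hδ0)]
      intro j
      rw [dist_eq_norm, ← map_sub, norm_alg]
      have h6 := hr j
      rwa [map_sub, Finsupp.sub_apply] at h6
    have h7 : dist (fun j => algebraMap k F (B.repr ((2 : k)⁻¹ • (R' + star R')) j)) c <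
      δ0 / 2 := h2
    linarith

end model

section final

variable {k K D : Type} [Field k] [GFF k] [Field K] [StarRing K]
    [DivisionRing D] [StarRing D] [Algebra k K] [Algebra k D] [Algebra K D] [IsScalarTower k K D]
    {d : kˣ} {s : K} {n : ℕ}

/-- The prescription at a nonsplit finite place. -/
theorem fin_preF (hS : SetF k K D d s) (hn : 2 ≤ n) (hdeg : finrank K D = n ^ 2) {N : ℕ}
    (B : Basis (Fin N) k D) {Ω : Type} [Field Ω] [Algebra K Ω]
    (f : D →ₐ[K] Matrix (Fin n) (Fin n) Ω)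
    {m b : D} (hm : star m = m) (hb : star b = b) (hm0 : m ≠ 0) (hb0 : b ≠ 0)
    (v : Place k) (hv : d ∉ LSF v) (g1 g2 : kˣ) :
    ∃ (R : D) (δ : ℝ), 0 < δ ∧ star R = R ∧ ∀ r : D,
      (∀ j, v.abv (B.repr (r - R) j) < δ) →
      r ≠ 0 ∧ b + r ≠ 0 ∧
      (∀ ν : kˣ, (f r).det = algebraMap K Ω (algebraMap k K ν) →
        ν * g1 ∈ NF d ⊔ LSF v) ∧
      (∀ ν : kˣ, (f (b + r)).det = algebraMap K Ω (algebraMap k K ν) →
        ν * g2 ∈ NF d ⊔ LSF v) ∧
      LinearIndependent k (fun i : Fin n => (m⁻¹ * r) ^ (i : ℕ)) ∧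
      ∀ (E : Type) [Field E] [GFF E] [Algebra k E] (θ : E), finrank k E = n →
        (minpoly k θ).natDegree = n → aeval (m⁻¹ * r) (minpoly k θ) = 0 →
        TotSplitF E v ∧ ∃ w : Place E, Ab w v ∧
          ∀ c : Eˣ, (c : E) = θ⁻¹ + 4⁻¹ → c ∉ LSF w := by
  classical
  let F := v.comp
  obtain ⟨e, T, he, hTs, hli, hz, ⟨i0, hns⟩, hev⟩ :=
    exists_target hS hn hdeg f B hm hb hm0 hb0 v hv g1 g2
  obtain ⟨η, hη, hsp⟩ := H961.exists_place_nonsquareF hS.two_ne v e he i0 hns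
  let BA := Algebra.TensorProduct.basis F B
  let g : D →+* F ⊗[k] D := (Algebra.TensorProduct.includeRight : D →ₐ[k] F ⊗[k] D).toRingHom
  have hgx : ∀ x, g x = 1 ⊗ₜ x := fun x => rfl
  have hTc : ∑ j, BA.repr T j • g (B j) = T := by
    conv_rhs => rw [← BA.sum_repr T]
    refine Finset.sum_congr rfl fun j _ => ?_
    rw [Algebra.TensorProduct.basis_apply, hgx]
  have hev2 := near_left (F := F) (A := F ⊗[k] D) B BA g
    (fun a x => by
      rw [hgx, hgx, TensorProduct.tmul_smul, ← algebraMap_smul F a ((1 : F) ⊗ₜ[k] x)])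
    m⁻¹ (fun j => BA.repr T j) (n := n) (q := ∏ i, (X - C (algebraMap k F (e i : k))))
    (by rw [hTc]; exact hli)
    (monic_prod_of_monic _ _ fun i _ => monic_X_sub_C _) (natDegree_prod_X_sub_C' _)
    (by rw [hTc]; exact hz) hη
  obtain ⟨R, δ, hδ, hR, h⟩ := exists_sym_near hS B v T hTs (hev.and hev2)
  refine ⟨R, δ, hδ, hR, fun r hr => ?_⟩
  obtain ⟨h1, h2⟩ := h r hr
  obtain ⟨a1, a2, a3, a4⟩ := h1 r rfl
  obtain ⟨b1, b2⟩ := h2 r rfl
  refine ⟨a1, a2, a3, a4, b1, fun E _ _ _ θ hE hmin hz => hsp E θ hE hmin fun i => ?_⟩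
  have hint : IsIntegral k θ := by
    have h7 : FiniteDimensional k E := FiniteDimensional.of_finrank_pos (by omega)
    exact Algebra.IsIntegral.isIntegral θ
  have h5 := b2 _ (minpoly.monic hint) hmin hz i
  have h6 : algebraMap k F ((minpoly k θ).coeff i) -
      (∏ i, (X - C (algebraMap k F (e i : k)))).coeff i =
      algebraMap k F ((minpoly k θ - ∏ i, (X - C (e i : k))).coeff i) := by
    have h7 : (∏ i, (X - C (algebraMap k F (e i : k)))) =
        (∏ i, (X - C (e i : k))).map (algebraMap k F) := by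
      rw [Polynomial.map_prod]
      refine Finset.prod_congr rfl fun i _ => ?_
      rw [Polynomial.map_sub, Polynomial.map_X, Polynomial.map_C]
    rw [h7, coeff_map, coeff_sub, map_sub]
  rw [h6, norm_alg] at h5
  exact h5

end final

end Vale.Agent.P011.H167.Fp
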