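import Vale.Agent.P011.H167.WeylInv

/-!
Families of quadratic polynomials `h² B_j + h A_j + C_j` over `F_q[t]`, `q` odd, with leading
vectors in general position: a character which is not trivial on `Q • {deg < Y}^κ`,
`Y ≤ 2 l - O(1)`, has a large exponential sum for fewer than `|κ|` of the indices `j`.
-/

open Polynomial Module

set_option linter.unusedSectionVars false

noncomputable section

namespace Vale.Agent.P011.H167

variable {F : Type*} [Field F] [Fintype F]

theorem mul_mem_degreeLT {n m : ℕ} {p q : F[X]} (hp : p ∈ degreeLT F n) (hq : q.natDegree ≤ m) :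
    p * q ∈ degreeLT F (n + m) := by
  by_cases hp0 : p = 0
  · rw [hp0, zero_mul]
    exact zero_mem _
  by_cases hq0 : q = 0
  · rw [hq0, mul_zero]
    exact zero_mem _
  have := natDegree_lt_of_mem hp0 hp
  apply mem_degreeLT_of_natDegree
  rw [natDegree_mul hp0 hq0]
  omega

variable {κ ι : Type*} [Fintype κ] [DecidableEq κ] [Fintype ι]

/-- The determinant of the vectors `B (e i)`. -/
def bMat (B : ι → κ → F[X]) (e : κ ↪ ι) : Matrix κ κ F[X] := Matrix.of fun i k => B (e i) k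

/-- The inverse theorem for a family in general position. -/
theorem card_large_qSum_lt (h2 : (2 : F) ≠ 0) (B : ι → κ → F[X])
    (hB : ∀ e : κ ↪ ι, (bMat B e).det ≠ 0) {ε : ℝ} (hε : 0 < ε) :
    ∃ (Q : F[X]) (c : ℕ), Q ≠ 0 ∧ ∀ l Y : ℕ, Y + c ≤ 2 * l → ∀ (A C : ι → κ → F[X])
      (χ : AddChar (κ → F[X]) ℂ), (∃ x : κ → F[X], (∀ k, x k ∈ degreeLT F Y) ∧ χ (Q • x) ≠ 1) →
      ∀ S : Finset ι, (∀ j ∈ S, ε * (Fintype.card F : ℝ) ^ l ≤ ‖qSum F χ (B j) (A j) (C j) l‖) →
        S.card < Fintype.card κ := by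
  classical
  have hq1 : (1 : ℝ) < Fintype.card F := by exact_mod_cast Fintype.one_lt_card
  obtain ⟨r, hr⟩ : ∃ r : ℕ, 1 < ε ^ 2 * (Fintype.card F : ℝ) ^ (r + 1) := by
    obtain ⟨r, hr⟩ := pow_unbounded_of_one_lt (1 / ε ^ 2) hq1
    refine ⟨r, ?_⟩
    rw [div_lt_iff₀ (by positivity)] at hr
    calc (1 : ℝ) < (Fintype.card F : ℝ) ^ r * ε ^ 2 := hr
      _ = ε ^ 2 * (Fintype.card F : ℝ) ^ r := mul_comm _ _
      _ ≤ _ := mul_le_mul_of_nonneg_left (pow_le_pow_right₀ hq1.le (by omega)) (by positivity)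
  obtain ⟨D, hD⟩ : ∃ D, D = ∏ e : κ ↪ ι, (bMat B e).det := ⟨_, rfl⟩
  have hD0 : D ≠ 0 := by
    rw [hD, Finset.prod_ne_zero_iff]
    exact fun e _ => hB e
  obtain ⟨a, ha⟩ : ∃ a, a = ∑ e : κ ↪ ι, ∑ k : κ, ∑ i : κ, ((bMat B e).adjugate k i).natDegree :=
    ⟨_, rfl⟩
  have hale : ∀ (e : κ ↪ ι) (k i : κ), ((bMat B e).adjugate k i).natDegree ≤ a := by
    intro e k i
    rw [ha]
    refine le_trans ?_ (Finset.single_le_sum
      (f := fun e => ∑ k : κ, ∑ i : κ, ((bMat B e).adjugate k i).natDegree)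
      (fun _ _ => Nat.zero_le _) (Finset.mem_univ e))
    refine le_trans ?_ (Finset.single_le_sum
      (f := fun k => ∑ i : κ, ((bMat B e).adjugate k i).natDegree)
      (fun _ _ => Nat.zero_le _) (Finset.mem_univ k))
    exact Finset.single_le_sum (f := fun i => ((bMat B e).adjugate k i).natDegree)
      (fun _ _ => Nat.zero_le _) (Finset.mem_univ i)
  refine ⟨univPoly F r * D, (univPoly F r).natDegree + (2 * r + 1) + D.natDegree + a,
    mul_ne_zero (univPoly_ne_zero r) hD0, ?_⟩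
  rintro l Y hY A C χ ⟨x, hx, hχ⟩ S hS
  by_contra hcon
  push Not at hcon
  have hemb : Nonempty (κ ↪ S) := by
    apply Function.Embedding.nonempty_of_card_le
    rw [Fintype.card_coe]
    exact hcon
  obtain ⟨e'⟩ := hemb
  obtain ⟨e, he⟩ : ∃ e : κ ↪ ι, e = e'.trans (Function.Embedding.subtype _) := ⟨_, rfl⟩
  have heS : ∀ i, e i ∈ S := by
    intro i
    rw [he]
    exact (e' i).2
  obtain ⟨D', hD'⟩ : (bMat B e).det ∣ D := by
    rw [hD]
    exact Finset.dvd_prod_of_mem (fun e => (bMat B e).det) (Finset.mem_univ e)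
  have hD'0 : D' ≠ 0 := by
    rintro rfl
    rw [mul_zero] at hD'
    exact hD0 hD'
  have hD'deg : D'.natDegree ≤ D.natDegree := by
    rw [hD', natDegree_mul (hB e) hD'0]
    omega
  have hexp : (univPoly F r * D) • x = ∑ i : κ,
      ((Matrix.vecMul x (bMat B e).adjugate) i * D' * univPoly F r) • B (e i) := by
    have h3 : (bMat B e).det • x = ∑ i : κ, (Matrix.vecMul x (bMat B e).adjugate) i • B (e i) := by
      have h4 : Matrix.vecMul (Matrix.vecMul x (bMat B e).adjugate) (bMat B e) =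
          (bMat B e).det • x := by
        rw [Matrix.vecMul_vecMul, Matrix.adjugate_mul, Matrix.vecMul_smul, Matrix.vecMul_one]
      rw [← h4, Matrix.vecMul_eq_sum]
      rfl
    rw [hD', show univPoly F r * ((bMat B e).det * D') = (D' * univPoly F r) * (bMat B e).det by
      ring, mul_smul, h3, Finset.smul_sum]
    refine Finset.sum_congr rfl fun i _ => ?_
    rw [smul_smul]
    congr 1
    ring
  apply hχ
  rw [hexp]
  refine Finset.sum_induction _ (fun v => χ v = 1)
    (fun v w hv hw => by rw [AddChar.map_add_eq_mul, hv, hw, one_mul])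
    (AddChar.map_zero_eq_one χ) fun i _ => ?_
  have hmem : (Matrix.vecMul x (bMat B e).adjugate) i * D' ∈
      degreeLT F (Y + a + D.natDegree) := by
    refine mul_mem_degreeLT ?_ hD'deg
    rw [Matrix.vecMul, dotProduct]
    refine Submodule.sum_mem _ fun k _ => ?_
    exact mul_mem_degreeLT (hx k) (hale e k i)
  exact char_eq_one_of_qSum h2 hε hr χ (B (e i)) (A (e i)) (C (e i)) (hS _ (heS i))
    (by omega) _ hmem

/-- The averaged form: the sum over the family of the normalised exponential sums is at most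
`|κ| + ε |ι|` at all characters which are not trivial on `Q • {deg < Y}^κ`. -/
theorem sum_qSum_le (h2 : (2 : F) ≠ 0) (B : ι → κ → F[X])
    (hB : ∀ e : κ ↪ ι, (bMat B e).det ≠ 0) {ε : ℝ} (hε : 0 < ε) :
    ∃ (Q : F[X]) (c : ℕ), Q ≠ 0 ∧ ∀ l Y : ℕ, Y + c ≤ 2 * l → ∀ (A C : ι → κ → F[X])
      (χ : AddChar (κ → F[X]) ℂ), (∃ x : κ → F[X], (∀ k, x k ∈ degreeLT F Y) ∧ χ (Q • x) ≠ 1) →
      ∑ j, ‖qSum F χ (B j) (A j) (C j) l‖ ≤
        (Fintype.card κ + ε * Fintype.card ι) * (Fintype.card F : ℝ) ^ l := by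
  classical
  obtain ⟨Q, c, hQ, h⟩ := card_large_qSum_lt h2 B hB hε
  refine ⟨Q, c, hQ, fun l Y hY A C χ hχ => ?_⟩
  obtain ⟨S, hS⟩ : ∃ S : Finset ι, S = Finset.univ.filter
    fun j => ε * (Fintype.card F : ℝ) ^ l ≤ ‖qSum F χ (B j) (A j) (C j) l‖ := ⟨_, rfl⟩
  have h1 : S.card < Fintype.card κ := h l Y hY A C χ hχ S fun j hj => by
    rw [hS, Finset.mem_filter] at hj
    exact hj.2
  have hq : (0 : ℝ) < (Fintype.card F : ℝ) ^ l := by
    have : (0 : ℝ) < Fintype.card F := by exact_mod_cast Fintype.card_pos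
    positivity
  have htriv : ∀ j, ‖qSum F χ (B j) (A j) (C j) l‖ ≤ (Fintype.card F : ℝ) ^ l := by
    intro j
    rw [qSum]
    refine (norm_sum_le _ _).trans ?_
    simp_rw [norm_char F]
    rw [Finset.sum_const, Finset.card_univ, card_degreeLT, nsmul_eq_mul, mul_one]
    push_cast
    exact le_rfl
  rw [← Finset.sum_filter_add_sum_filter_not Finset.univ
    (fun j => ε * (Fintype.card F : ℝ) ^ l ≤ ‖qSum F χ (B j) (A j) (C j) l‖), ← hS, add_mul]
  refine add_le_add ?_ ?_
  · calc ∑ j ∈ S, ‖qSum F χ (B j) (A j) (C j) l‖ ≤ ∑ _j ∈ S, (Fintype.card F : ℝ) ^ l :=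
          Finset.sum_le_sum fun j _ => htriv j
      _ = S.card * (Fintype.card F : ℝ) ^ l := by rw [Finset.sum_const, nsmul_eq_mul]
      _ ≤ Fintype.card κ * (Fintype.card F : ℝ) ^ l := by
          refine mul_le_mul_of_nonneg_right ?_ hq.le
          exact_mod_cast h1.le
  · calc _ ≤ ∑ _j ∈ Finset.univ.filter (fun j : ι => ¬ ε * (Fintype.card F : ℝ) ^ l ≤
            ‖qSum F χ (B j) (A j) (C j) l‖), ε * (Fintype.card F : ℝ) ^ l := by
          refine Finset.sum_le_sum fun j hj => ?_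
          rw [Finset.mem_filter] at hj
          exact (not_le.mp hj.2).le
      _ = (Finset.univ.filter (fun j : ι => ¬ ε * (Fintype.card F : ℝ) ^ l ≤
            ‖qSum F χ (B j) (A j) (C j) l‖)).card * (ε * (Fintype.card F : ℝ) ^ l) := by
          rw [Finset.sum_const, nsmul_eq_mul]
      _ ≤ Fintype.card ι * (ε * (Fintype.card F : ℝ) ^ l) := by
          refine mul_le_mul_of_nonneg_right ?_ (by positivity)
          exact_mod_cast Finset.card_filter_le _ _
      _ = _ := by ring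

end Vale.Agent.P011.H167
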