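import Vale.Agent.P011.H167.LfE
import Vale.Agent.P011.H929.E.Herm
import Vale.Agent.P011.H929.E.Model
import Vale.Agent.P011.H63.FBase

/-!
# Landherr's theorem over function fields, rank one

Symmetric elements of a division algebra with an involution of the second kind over a global
function field are classified by their reduced norms.
-/

open Module Polynomial TensorProduct Matrix

set_option linter.unusedSectionVars false

namespace Vale.Agent.P011.H167.Lf

open Vale.Agent.P011.H738 Vale.Agent.P011.H271 Vale.Agent.P011.H182 Vale.Agent.P011.H305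
  Vale.Agent.P011.H158.N4
open Vale.Agent.P011.Arith (NF)
open Vale.Agent.P011.Even (LN)
open Vale.Agent.P011.H63.FB (LSF iuF iuF_val mem_LN_iff)

variable {k K D : Type} [Field k] [GFF k] [Field K] [StarRing K]
    [DivisionRing D] [StarRing D] [Algebra k K] [Algebra k D] [Algebra K D] [IsScalarTower k K D]
    {d : kˣ} {s : K} {n : ℕ} {Ω : Type} [Field Ω] [Algebra K Ω]

/-- Rank one hermitian forms with the same discriminant class are isometric over the completion
at a nonsplit place. -/
theorem tensor_finF (hS : SetF k K D d s) (hdeg : finrank K D = n ^ 2)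
    (f : D →ₐ[K] Matrix (Fin n) (Fin n) Ω) (v : Place k) (hv : d ∉ LSF v) {e e' : D}
    (he : star e = e) (he' : star e' = e') {ν ν' : kˣ}
    (hν : (f e).det = algebraMap K Ω (algebraMap k K ν))
    (hν' : (f e').det = algebraMap K Ω (algebraMap k K ν')) (hN : ν * ν' ∈ NF d ⊔ LSF v) :
    ∃ T : v.comp ⊗[k] D, hS.sig.baseChange v.comp T * (1 ⊗ₜ e) * T = 1 ⊗ₜ e' := by
  obtain ⟨L, _, _, _, ρ, φ, G, hfix, -, hGu, hGs, hG, hφ, hφs, hφk⟩ :=
    H929.E.exists_model hS hdeg v hv
  obtain ⟨g, hg, hgφ⟩ := exists_emb ρ φ hφ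
  have h2 := hS.two_ne
  have h2L : (2 : L) ≠ 0 := by
    rw [← map_ofNat (algebraMap v.comp L) 2]
    exact (_root_.map_ne_zero _).mpr (H63.FB.two_ne_comp v h2)
  have hs2 : φ s ^ 2 = algebraMap v.comp L (iuF v d) := by
    rw [← map_pow, hS.sq, hφk]
    rfl
  have hss : star (φ s) = -φ s := by rw [← hφs, hS.star_s, map_neg]
  have hd : ∀ {x : D} {c : kˣ}, (f x).det = algebraMap K Ω (algebraMap k K c) →
      (ρ (1 ⊗ₜ x)).det = algebraMap v.comp L (algebraMap k v.comp c) := by
    intro x c h
    rw [← hg, det_model hS hdeg f φ g hgφ h, hφk]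
  have hG0 : G.det ≠ 0 := ((Matrix.isUnit_iff_isUnit_det G).mp hGu).ne_zero
  have hne : ∀ c : kˣ, algebraMap v.comp L (algebraMap k v.comp c) ≠ 0 := fun c =>
    (_root_.map_ne_zero _).mpr ((_root_.map_ne_zero _).mpr c.ne_zero)
  have hherm : ∀ {x : D}, star x = x → (G * ρ (1 ⊗ₜ x))ᴴ = G * ρ (1 ⊗ₜ x) := by
    intro x hx
    have h1 := hG (1 ⊗ₜ x)
    rw [LinearMap.baseChange_tmul, hS.sig_apply, hx] at h1
    rw [Matrix.conjTranspose_mul, hGs, ← h1]
  obtain ⟨x, y, hxy⟩ := (mem_LN_iff v h2 d (ν * ν')).mpr hN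
  have hst : ∀ a : v.comp, star (algebraMap v.comp L a) = algebraMap v.comp L a := fun a =>
    (hfix _).mpr ⟨a, rfl⟩
  obtain ⟨t, ht⟩ := H929.E.hermitian_class (H929.E.indexTwo h2 v) h2L hfix (d := iuF v d) hv
    hs2 hss (G * ρ (1 ⊗ₜ e)) (G * ρ (1 ⊗ₜ e')) (hherm he) (hherm he')
    (by rw [Matrix.det_mul, hd hν]; exact mul_ne_zero hG0 (hne _))
    (by rw [Matrix.det_mul, hd hν']; exact mul_ne_zero hG0 (hne _))
    ⟨(algebraMap v.comp L x + algebraMap v.comp L y * φ s) /
      algebraMap v.comp L (algebraMap k v.comp ν), by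
      rw [Matrix.det_mul, Matrix.det_mul, hd hν, hd hν', star_div₀, star_add, star_mul', hst,
        hst, hst, hss]
      have h3 : algebraMap v.comp L (algebraMap k v.comp ν) *
          algebraMap v.comp L (algebraMap k v.comp ν') =
          (algebraMap v.comp L x + algebraMap v.comp L y * φ s) *
          (algebraMap v.comp L x + algebraMap v.comp L y * -φ s) := by
        have h4 := congrArg (algebraMap v.comp L) hxy
        rw [iuF_val, Units.val_mul, map_mul, map_mul] at h4
        rw [h4, map_sub, map_mul, map_pow, map_pow, ← hs2]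
        ring
      have h5 := hne ν
      rw [div_mul_div_comm, ← h3]
      field_simp⟩
  refine ⟨ρ.symm t, ρ.injective ?_⟩
  apply hGu.mul_left_cancel
  rw [map_mul, map_mul, AlgEquiv.apply_symm_apply, ← ht, ← Matrix.mul_assoc, ← Matrix.mul_assoc,
    hG, AlgEquiv.apply_symm_apply]
  simp only [Matrix.mul_assoc]

/-- The local isometry. -/
theorem loc_fin {N : ℕ} (hS : SetF k K D d s) (hdeg : finrank K D = n ^ 2) (B : Basis (Fin N) k D)
    (f : D →ₐ[K] Matrix (Fin n) (Fin n) Ω) (v : Place k) (hv : d ∉ LSF v) {e e' : D}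
    (he : star e = e) (he' : star e' = e') {ν ν' : kˣ}
    (hν : (f e).det = algebraMap K Ω (algebraMap k K ν))
    (hν' : (f e').det = algebraMap K Ω (algebraMap k K ν')) (hN : ν * ν' ∈ NF d ⊔ LSF v) :
    LocF B v e e' := by
  obtain ⟨T, hT⟩ := tensor_finF hS hdeg f v hv he he' hν hν' hN
  exact locF_of_tensor B v hS.sig (fun x => rfl) T hT

/-- A local square is a square in the completion. -/
theorem not_LSF {v : Place k} (hv : ¬ SqAt (d : k) v) : d ∉ LSF v := by
  rintro ⟨x, hx⟩
  exact hv ⟨x, by rw [hx, sq]⟩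

/-- **Landherr's theorem in rank one** (local form): symmetric elements whose reduced norms are in
the same class of local norms at every nonsplit place are isometric. -/
theorem landF_loc (hS : SetF k K D d s) (hdeg : finrank K D = n ^ 2)
    (f : D →ₐ[K] Matrix (Fin n) (Fin n) Ω) {c e : D} (hc : star c = c) (he : star e = e)
    (hc0 : c ≠ 0) (he0 : e ≠ 0) {ν ν' : kˣ}
    (hν : (f c).det = algebraMap K Ω (algebraMap k K ν))
    (hν' : (f e).det = algebraMap K Ω (algebraMap k K ν'))
    (hN : ∀ v : Place k, d ∉ LSF v → ν * ν' ∈ NF d ⊔ LSF v) :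
    ∃ t : D, t ≠ 0 ∧ e = t * c * star t := by
  have := hS.fin
  have hfk : FiniteDimensional k K := FiniteDimensional.of_finrank_pos (by
    rw [hS.rank]; norm_num)
  have : FiniteDimensional k D := Module.Finite.trans K D
  obtain ⟨t, ht, h⟩ := global_rank_one hS (finBasis k D) hc he hc0 he0 fun v hv =>
    loc_fin hS hdeg (finBasis k D) f v (not_LSF hv) hc he hν hν' (hN v (not_LSF hv))
  exact ⟨star t, star_ne_zero.mpr ht, by rw [star_star]; exact h⟩

/-- **Landherr's theorem in rank one**: symmetric elements whose reduced norms are in the same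
class modulo norms from the centre are isometric. -/
theorem landF (hS : SetF k K D d s) (hdeg : finrank K D = n ^ 2)
    (f : D →ₐ[K] Matrix (Fin n) (Fin n) Ω) {c e : D} (hc : star c = c) (he : star e = e)
    (hc0 : c ≠ 0) (he0 : e ≠ 0) {ν ν' : kˣ}
    (hν : (f c).det = algebraMap K Ω (algebraMap k K ν))
    (hν' : (f e).det = algebraMap K Ω (algebraMap k K ν')) (hN : ν * ν' ∈ NF d) :
    ∃ t : D, t ≠ 0 ∧ e = t * c * star t :=
  landF_loc hS hdeg f hc he hc0 he0 hν hν' fun _ _ => Subgroup.mem_sup_left hN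

/-- **Landherr's theorem in rank one**, in terms of the reduced norms: the reduced norms of `c`
and `e` differ by a norm from the centre. -/
theorem landF' (hS : SetF k K D d s) (hdeg : finrank K D = n ^ 2)
    (f : D →ₐ[K] Matrix (Fin n) (Fin n) Ω) {c e : D} (hc : star c = c) (he : star e = e)
    (hc0 : c ≠ 0) (he0 : e ≠ 0) {z : K}
    (hz : (f e).det = (f c).det * algebraMap K Ω (z * star z)) :
    ∃ t : D, t ≠ 0 ∧ e = t * c * star t := by
  obtain ⟨ν, hν⟩ := exists_nrd_unit hS hdeg f hc hc0
  obtain ⟨ν', hν'⟩ := exists_nrd_unit hS hdeg f he he0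
  refine landF hS hdeg f hc he hc0 he0 hν hν' ?_
  obtain ⟨a, b, rfl⟩ := hS.span' z
  have h1 : (algebraMap k K ν' : K) = algebraMap k K ν *
      ((algebraMap k K a + algebraMap k K b * s) * star (algebraMap k K a + algebraMap k K b * s)) := by
    apply (algebraMap K Ω).injective
    rw [← hν', hz, hν, ← map_mul]
  have hst : ∀ a : k, star (algebraMap k K a) = algebraMap k K a := fun a =>
    (hS.fix _).mpr ⟨a, rfl⟩
  have h2 : (ν' : k) = ν * (a ^ 2 - d * b ^ 2) := by
    apply (algebraMap k K).injective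
    rw [h1, star_add, star_mul', hst, hst, hS.star_s, map_mul, map_sub, map_mul, map_pow, map_pow,
      ← hS.sq]
    ring
  refine ⟨(ν : k) * a, ν * b, ?_⟩
  rw [Units.val_mul, h2]
  ring

end Vale.Agent.P011.H167.Lf
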