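import Vale.Agent.P011.H167.LfA

/-!
# Landherr's theorem over function fields, part 2

Inverses with integral coordinates, from a Bezout relation between a polynomial and its conjugate.
-/

open Module Polynomial

set_option linter.unusedSectionVars false

namespace Vale.Agent.P011.H167.Lf

open Vale.Agent.P011.H738 Vale.Agent.P011.H271 Vale.Agent.P011.H182 Vale.Agent.P011.H305
  Vale.Agent.P011.H929.FF Vale.Agent.P011.H158.N4

section main

variable {k K D : Type} [Field k] [Field K] [StarRing K]
    [DivisionRing D] [StarRing D] [Algebra k K] [Algebra k D] [Algebra K D] [IsScalarTower k K D]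
    {d : kˣ} {s : K} {N : ℕ} {B : Basis (Fin N) k D}

theorem KI.neg {v : Place k} {e : K} (h : KI v s e) : KI v s (-e) := by
  obtain ⟨a, b, rfl, ha, hb⟩ := h
  exact ⟨-a, -b, by rw [map_neg, map_neg]; ring, by rwa [AbsoluteValue.map_neg],
    by rwa [AbsoluteValue.map_neg]⟩

/-- The elements of `K` with integral coordinates. -/
def KR (hS : SetF k K D d s) (v : Place k) (hd : v.abv (d : k) ≤ 1) : Subring K where
  carrier := {c | KI v s c}
  mul_mem' := fun h h' => KI.mul hS hd h h'
  one_mem' := by
    have := ki_of (K := K) (s := s) (v := v) (a := 1) (by rw [map_one])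
    rwa [map_one] at this
  add_mem' := fun h h' => KI.add h h'
  zero_mem' := by
    have := ki_of (K := K) (s := s) (v := v) (a := 0) (by rw [map_zero]; exact zero_le_one)
    rwa [map_zero] at this
  neg_mem' := fun h => KI.neg h

theorem ig_of_ki {v : Place k} (hB : Gd B v.abv) (hsI : Ig B v.abv (algebraMap K D s))
    {c : K} (hc : KI v s c) : Ig B v.abv (algebraMap K D c) := by
  obtain ⟨x, y, rfl, hx, hy⟩ := hc
  have e : algebraMap K D (algebraMap k K x + algebraMap k K y * s) =
      x • (1 : D) + y • algebraMap K D s := by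
    rw [map_add, map_mul, ← IsScalarTower.algebraMap_apply, ← IsScalarTower.algebraMap_apply,
      Algebra.smul_def, Algebra.smul_def, mul_one]
  rw [e]
  exact Gd.add hB.na (Gd.smul hx hB.one) (Gd.smul hy hsI)

theorem ig_aeval (hS : SetF k K D d s) {v : Place k} {hd : v.abv (d : k) ≤ 1} (hB : Gd B v.abv)
    (hsI : Ig B v.abv (algebraMap K D s)) {a : D} (ha : Ig B v.abv a) (p : (KR hS v hd)[X]) :
    Ig B v.abv (Polynomial.aeval a (p.map (KR hS v hd).subtype)) := by
  rw [Polynomial.aeval_eq_sum_range]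
  refine Gd.sum hB.na _ fun i _ => ?_
  rw [Polynomial.coeff_map, Algebra.smul_def]
  exact hB.mul' (ig_of_ki hB hsI (p.coeff i).2) (ig_pow hB ha i)

/-- a polynomial with coefficients in a subring comes from the subring -/
theorem exists_lift {R : Subring K} {p : K[X]} (h : ∀ i, p.coeff i ∈ R) :
    ∃ q : R[X], q.map R.subtype = p := by
  have h1 : p ∈ Polynomial.lifts R.subtype := by
    rw [Polynomial.lifts_iff_coeff_lifts]
    intro i
    exact ⟨⟨_, h i⟩, rfl⟩
  exact h1

/-- The key step: the inverse of `a + μ` is integral. -/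
theorem inv_integral [GFF k] (hS : SetF k K D d s) {v : Place k}
    (hns : ¬ SqAt (d : k) v) (hd : v.abv (d : k) = 1) (hB : Gd B v.abv)
    (hsI : Ig B v.abv (algebraMap K D s)) {a : D} (ha : Ig B v.abv a) {m A A' : K[X]}
    (hroot : aeval a m = 0) (hrel : A * m + A' * m.map (starRingEnd K) = 1)
    (hmc : ∀ i, KI v s (m.coeff i)) (hAc : ∀ i, KI v s (A.coeff i))
    (hAc' : ∀ i, KI v s (A'.coeff i)) {μ : k} (hμ : v.abv μ ≤ 1) :
    Ig B v.abv (a + algebraMap k D μ)⁻¹ := by
  -- evaluation of integral polynomials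
  have hneg : -algebraMap k K μ ∈ KR hS v hd.le := Subring.neg_mem _ (ki_of hμ)
  have heval : ∀ p : K[X], (∀ i, KI v s (p.coeff i)) →
      KI v s (p.eval (-algebraMap k K μ)) := by
    intro p hp
    have : p.eval (-algebraMap k K μ) ∈ KR hS v hd.le := by
      rw [Polynomial.eval_eq_sum_range]
      exact Subring.sum_mem _ fun i _ => Subring.mul_mem _ (hp i) (Subring.pow_mem _ hneg i)
    exact this
  obtain ⟨c, hcd⟩ : ∃ c : K, c = m.eval (-algebraMap k K μ) := ⟨_, rfl⟩
  have hcI : KI v s c := hcd ▸ heval m hmc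
  have hstarμ : star (-algebraMap k K μ) = -algebraMap k K μ := by
    rw [star_neg, hS.star_algebraMap]
  have hcbar : (m.map (starRingEnd K)).eval (-algebraMap k K μ) = star c := by
    have e : (-algebraMap k K μ) = starRingEnd K (-algebraMap k K μ) := hstarμ.symm
    conv_lhs => rw [e]
    rw [Polynomial.eval_map_apply, ← hcd]
    rfl
  -- the value is not small
  have hcn : ¬ KS v s c := by
    intro hks
    apply not_ks_one hS (v := v)
    have e := congrArg (fun f => Polynomial.eval (-algebraMap k K μ) f) hrel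
    simp only [Polynomial.eval_add, Polynomial.eval_mul, Polynomial.eval_one] at e
    rw [← hcd, hcbar] at e
    rw [← e]
    exact (KS.mul hS hd.le (heval A hAc) hks).add (KS.mul hS hd.le (heval A' hAc') (hks.star hS))
  obtain ⟨u, hu, hu1⟩ := unit_of_not_small hS hd hns hcI hcn
  have hu0 : u ≠ 0 := by
    rintro rfl
    rw [map_zero] at hu1
    exact zero_ne_one hu1
  have huK : algebraMap k K u ≠ 0 := (_root_.map_ne_zero _).mpr hu0
  have hc0 : c ≠ 0 := by
    rintro rfl
    rw [mul_zero] at hu
    exact huK hu.symm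
  have hcinv : KI v s c⁻¹ := by
    have e : c⁻¹ = algebraMap k K u⁻¹ * star c := by
      rw [map_inv₀, ← hu]
      have : star c ≠ 0 := star_ne_zero.mpr hc0
      field_simp
    rw [e]
    refine KI.mul hS hd.le (ki_of (by rw [map_inv₀, hu1, inv_one])) ?_
    obtain ⟨x, y, hxy, hx, hy⟩ := hcI
    refine ⟨x, -y, ?_, hx, by rwa [AbsoluteValue.map_neg]⟩
    rw [hxy, star_add, star_mul', hS.star_s, hS.star_algebraMap, hS.star_algebraMap, map_neg]
    ring
  -- the quotient polynomial
  obtain ⟨m₀, hm₀⟩ := exists_lift (R := KR hS v hd.le) hmc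
  obtain ⟨q₀, hq₀⟩ : ∃ q₀ : (KR hS v hd.le)[X],
      q₀ = m₀ /ₘ (X - C ⟨-algebraMap k K μ, hneg⟩) := ⟨_, rfl⟩
  have hq : q₀.map (KR hS v hd.le).subtype = m /ₘ (X - C (-algebraMap k K μ)) := by
    rw [hq₀, Polynomial.map_divByMonic _ (Polynomial.monic_X_sub_C _), hm₀]
    simp
  have hdiv : m = (X - C (-algebraMap k K μ)) * (m /ₘ (X - C (-algebraMap k K μ))) + C c := by
    conv_lhs => rw [← Polynomial.modByMonic_add_div m (X - C (-algebraMap k K μ)),
      Polynomial.modByMonic_X_sub_C_eq_C_eval]
    rw [hcd]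
    ring
  have hQ : Ig B v.abv (aeval a (m /ₘ (X - C (-algebraMap k K μ)))) := by
    rw [← hq]
    exact ig_aeval hS hB hsI ha q₀
  have hval : (a + algebraMap k D μ) * aeval a (m /ₘ (X - C (-algebraMap k K μ))) =
      -algebraMap K D c := by
    have e := congrArg (Polynomial.aeval a) hdiv
    rw [hroot, map_add, map_mul, map_sub, Polynomial.aeval_X, Polynomial.aeval_C,
      Polynomial.aeval_C, map_neg, sub_neg_eq_add, ← IsScalarTower.algebraMap_apply] at e
    exact eq_neg_of_add_eq_zero_left e.symm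
  have hinv : (a + algebraMap k D μ)⁻¹ =
      -(aeval a (m /ₘ (X - C (-algebraMap k K μ))) * algebraMap K D c⁻¹) := by
    rw [eq_comm]
    apply eq_inv_of_mul_eq_one_right
    rw [mul_neg, ← mul_assoc, hval, neg_mul, neg_neg, ← map_mul, mul_inv_cancel₀ hc0, map_one]
  rw [hinv]
  exact Gd.neg (hB.mul' hQ (ig_of_ki hB hsI hcinv))

end main

end Vale.Agent.P011.H167.Lf
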