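import Vale.Agent.P011.H167.LfB

/-!
# Landherr's theorem over function fields, part 3

The choice of a global element approximating given local ones whose inverse is integral outside a
finite set of places.
-/

open Module Polynomial

set_option linter.unusedSectionVars false

namespace Vale.Agent.P011.H167.Lf

open Vale.Agent.P011.H738 Vale.Agent.P011.H271 Vale.Agent.P011.H182 Vale.Agent.P011.H305
  Vale.Agent.P011.H158.N4
open Vale.Agent.P011.H929.FF (two_K)

variable {k K D : Type} [Field k] [GFF k] [Field K] [StarRing K]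
    [DivisionRing D] [StarRing D] [Algebra k K] [Algebra k D] [Algebra K D] [IsScalarTower k K D]
    {d : kˣ} {s : K} {N : ℕ}

theorem finite_not_ig (B : Basis (Fin N) k D) (x : D) : {v : Place k | ¬ Ig B v.abv x}.Finite := by
  refine (Set.finite_iUnion fun i => finite_big (B.repr x i)).subset fun v hv => ?_
  simp only [Set.mem_ofPred_eq, Ig, not_forall] at hv
  obtain ⟨i, hi⟩ := hv
  exact Set.mem_iUnion.mpr ⟨i, hi⟩

/-- finitely many bad places -/
theorem exists_fin_bad (B : Basis (Fin N) k D) (d : kˣ) (L : Set D)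
    (hL : L.Finite) : ∃ S : Set (Place k), S.Finite ∧ ∀ v ∉ S,
      v.abv (d : k) = 1 ∧ Gd B v.abv ∧ ∀ x ∈ L, Ig B v.abv x := by
  refine ⟨{v | ¬ v.abv (d : k) = 1} ∪ ({v | ¬ Gd B v.abv} ∪ ⋃ x ∈ L, {v | ¬ Ig B v.abv x}),
    (finite_not_unit d.ne_zero).union ((finite_bad B).union
      (hL.biUnion fun x _ => finite_not_ig B x)), fun v hv => ?_⟩
  simp only [Set.mem_union, not_or, Set.mem_iUnion, Set.mem_ofPred_eq, not_exists, not_not] at hv
  exact ⟨hv.1, hv.2.1, fun x hx => hv.2.2 x hx⟩

theorem finite_not_poly (hS : SetF k K D d s) (p : K[X]) :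
    {v : Place k | ¬ ∀ i, KI v s (p.coeff i)}.Finite := by
  have h1 : (⋃ i ∈ (p.support : Set ℕ), {v : Place k | ¬ KI v s (p.coeff i)}).Finite :=
    (Finset.finite_toSet _).biUnion fun i _ => finite_not_ki hS _
  refine h1.subset fun v hv => ?_
  by_contra hc
  apply hv
  intro i
  by_cases hi : i ∈ p.support
  · by_contra hcon
    exact hc (Set.mem_biUnion (x := i) hi hcon)
  · rw [Polynomial.notMem_support_iff.mp hi]
    exact ⟨0, 0, by simp, by rw [map_zero]; exact zero_le_one,
      by rw [map_zero]; exact zero_le_one⟩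

/-- The global element. -/
theorem exists_global (hS : SetF k K D d s) (B : Basis (Fin N) k D)
    (L : Set D) (hL : L.Finite) (tv : Place k → D) (δv : Place k → ℝ) (hδv : ∀ p, 0 < δv p) :
    ∃ t : D, t ≠ 0 ∧ ∃ S : Set (Place k), S.Finite ∧
      (∀ v ∈ S, na B v.abv (t - tv v) < δv v) ∧
      (∀ v ∉ S, v.abv (d : k) = 1 ∧ Gd B v.abv ∧ (∀ x ∈ L, Ig B v.abv x) ∧
        (¬ SqAt (d : k) v → ∃ l : k, l ≠ 0 ∧ Ig B v.abv (l⁻¹ • t) ∧ Ig B v.abv (l • t⁻¹))) := by
  classical
  obtain ⟨Sg, hSg⟩ : ∃ S : D, S = algebraMap K D s := ⟨_, rfl⟩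
  have hLL : (L ∪ {Sg}).Finite := hL.union (by simp)
  obtain ⟨S, hSf, hSgood⟩ := exists_fin_bad B d (L ∪ {Sg}) hLL
  have hs0 : s ≠ 0 := hS.s_ne
  have _ := hS.fin
  -- the approximation in `D`
  obtain ⟨τ, hτ⟩ := approxD B hSf tv (δ := fun p => δv p / 3)
    (fun p => by have := hδv p; positivity)
  -- the shift
  have hC0 : ∀ p : Place k, 0 < na B p.abv Sg + 1 := fun p => by
    have := na_nonneg B p.abv Sg
    linarith
  have hΔ := infinite_small hSf (δ := fun p => δv p / 3 / (na B p.abv Sg + 1))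
    fun p => div_pos (by have := hδv p; positivity) (hC0 p)
  obtain ⟨c, ⟨δ, ⟨-, hδ⟩, rfl⟩, hmin⟩ := exists_shift (two_K hS) hS.star_s hs0 τ
    (hΔ.image ((algebraMap k K).injective.injOn)) (by
      rintro _ ⟨δ, -, rfl⟩
      exact hS.star_algebraMap δ)
  obtain ⟨s0, hs0d⟩ : ∃ s0 : D, s0 = τ + algebraMap K D (algebraMap k K δ * s) := ⟨_, rfl⟩
  rw [← hs0d] at hmin
  have hts0 : s0 = τ + δ • Sg := by
    rw [hs0d, map_mul, ← hSg, ← IsScalarTower.algebraMap_apply, Algebra.smul_def]
  obtain ⟨A, A', hrel⟩ := coprime_conj hmin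
  -- the second finite set
  obtain ⟨T, hTf, hT⟩ : ∃ T : Set (Place k), T.Finite ∧ ∀ v ∉ T,
      Ig B v.abv s0 ∧ ∀ q ∈ ({minpoly K s0, A, A'} : Set K[X]), ∀ i, KI v s (q.coeff i) := by
    have h1 : (⋃ q ∈ ({minpoly K s0, A, A'} : Set K[X]), {v : Place k |
        ¬ ∀ i, KI v s (q.coeff i)}).Finite :=
      (by simp : ({minpoly K s0, A, A'} : Set K[X]).Finite).biUnion
        fun q _ => finite_not_poly hS q
    refine ⟨_, (finite_not_ig B s0).union h1, fun v hv => ?_⟩
    rw [Set.mem_union, not_or] at hv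
    refine ⟨not_not.mp hv.1, fun q hq => ?_⟩
    by_contra hcon
    exact hv.2 (Set.mem_biUnion hq hcon)
  -- the scalar
  have hQ : (S ∪ T).Finite := hSf.union hTf
  choose b hb using fun p : Place k => exists_abv_gt p (na B p.abv s0 + 1)
  obtain ⟨μ, hμ⟩ := approx hQ (fun p => if p ∈ S then 0 else b p)
    (δ := fun p => if p ∈ S then δv p / 3 / (na B p.abv (1 : D) + 1) else 1)
    (fun p => by
      have h1 := hδv p
      have h2 := na_nonneg B p.abv (1 : D)
      split_ifs
      · positivity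
      · exact one_pos)
  have hμS : ∀ v ∈ S, v.abv μ * na B v.abv (1 : D) < δv v / 3 := by
    intro v hv
    have h1 := hμ v (Or.inl hv)
    rw [if_pos hv, if_pos hv, sub_zero] at h1
    have h2 := na_nonneg B v.abv (1 : D)
    have h3 : 0 < na B v.abv (1 : D) + 1 := by linarith
    have h4 : v.abv μ * (na B v.abv (1 : D) + 1) < δv v / 3 := (lt_div_iff₀ h3).mp h1
    have h5 := v.abv.nonneg μ
    nlinarith
  have hμM : ∀ p ∈ T, p ∉ S → na B p.abv s0 < p.abv μ := by
    intro p hp hpS
    have h1 := hμ p (Or.inr hp)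
    rw [if_neg hpS, if_neg hpS] at h1
    have h2 : p.abv (b p) ≤ p.abv μ + p.abv (μ - b p) := by
      have := p.abv.add_le μ (-(μ - b p))
      rw [AbsoluteValue.map_neg] at this
      have e : μ + -(μ - b p) = b p := by ring
      rwa [e] at this
    have h3 := hb p
    linarith
  -- the element
  have hs0μ : s0 + algebraMap k D μ ≠ 0 := by
    intro h
    have h1 : s0 = algebraMap K D (-algebraMap k K μ) := by
      rw [map_neg, ← IsScalarTower.algebraMap_apply]
      exact eq_neg_of_add_eq_zero_left h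
    have h2 : (minpoly K s0).eval (-algebraMap k K μ) = 0 := by
      have h3 := minpoly.aeval K s0
      conv_lhs at h3 => rw [h1, Polynomial.aeval_algebraMap_apply, Polynomial.aeval_def]
      rw [map_eq_zero, Algebra.algebraMap_self] at h3
      rw [← h1] at h3
      exact h3
    have h4 : ((minpoly K s0).map (starRingEnd K)).eval (-algebraMap k K μ) = 0 := by
      have e : (-algebraMap k K μ) = starRingEnd K (-algebraMap k K μ) := by
        rw [map_neg]
        congr 1
        exact (hS.star_algebraMap μ).symm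
      conv_lhs => rw [e]
      rw [Polynomial.eval_map_apply, h2, map_zero]
    have h5 := congrArg (Polynomial.eval (-algebraMap k K μ)) hrel
    rw [Polynomial.eval_add, Polynomial.eval_mul, Polynomial.eval_mul, h2, h4, mul_zero, mul_zero,
      add_zero, Polynomial.eval_one] at h5
    exact zero_ne_one h5
  obtain ⟨t, htd⟩ : ∃ t : D, t = s0 + algebraMap k D μ := ⟨_, rfl⟩
  have ht0 : t ≠ 0 := htd ▸ hs0μ
  have ht' : t = s0 + μ • (1 : D) := by
    rw [htd, Algebra.algebraMap_eq_smul_one]
  refine ⟨t, ht0, S, hSf, ?_, ?_⟩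
  · intro v hv
    have e : t - tv v = (τ - tv v) + δ • Sg + μ • (1 : D) := by
      rw [ht', hts0]
      abel
    rw [e]
    have h1 := hτ v hv
    have h2 := hδ v hv
    have h3 := hμS v hv
    rw [lt_div_iff₀ (hC0 v)] at h2
    have h4 : v.abv δ * na B v.abv Sg ≤ v.abv δ * (na B v.abv Sg + 1) :=
      mul_le_mul_of_nonneg_left (by linarith) (v.abv.nonneg _)
    calc na B v.abv ((τ - tv v) + δ • Sg + μ • (1 : D))
        ≤ na B v.abv ((τ - tv v) + δ • Sg) + na B v.abv (μ • (1 : D)) := na_add_le _ _ _ _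
      _ ≤ na B v.abv (τ - tv v) + na B v.abv (δ • Sg) +
          na B v.abv (μ • (1 : D)) := add_le_add (na_add_le _ _ _ _) le_rfl
      _ < δv v := by rw [na_smul, na_smul]; linarith
  · intro v hv
    obtain ⟨hd, hB, hall⟩ := hSgood v hv
    refine ⟨hd, hB, fun x hx => hall x (Or.inl hx), fun hns => ?_⟩
    have hIS : Ig B v.abv (algebraMap K D s) := by rw [← hSg]; exact hall _ (Or.inr (by simp))
    by_cases hcase : μ ≠ 0 ∧ ∀ l, v.abv (B.repr (μ⁻¹ • s0) l) < 1
    · obtain ⟨hμ0, hcase⟩ := hcase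
      have e : μ⁻¹ • t = 1 + μ⁻¹ • s0 := by
        rw [ht', smul_add, smul_smul, inv_mul_cancel₀ hμ0, one_smul, add_comm]
      refine ⟨μ, hμ0, ?_, ?_⟩
      · rw [e]
        exact Gd.add hB.na hB.one fun l => (hcase l).le
      · have e' : μ • t⁻¹ = (1 + μ⁻¹ • s0)⁻¹ := by
          rw [← e, Algebra.smul_def, Algebra.smul_def, mul_inv_rev, ← map_inv₀,
            inv_inv, Algebra.commutes]
        rw [e']
        exact ig_inv_one_add hB hcase
    · have hvT : v ∉ T := by
        intro hvT
        have h1 := hμM v hvT hv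
        have h4 := na_nonneg B v.abv s0
        have hμ0 : μ ≠ 0 := by
          rintro rfl
          rw [map_zero] at h1
          linarith
        refine hcase ⟨hμ0, fun l => ?_⟩
        have h5 : v.abv (B.repr s0 l) < v.abv μ := (coord_le_na B v.abv s0 l).trans_lt h1
        rw [map_smul, Finsupp.smul_apply, smul_eq_mul, map_mul, map_inv₀]
        have hvμ : 0 < v.abv μ := v.abv.pos hμ0
        rw [mul_comm, ← div_eq_mul_inv]
        exact (div_lt_one₀ hvμ).mpr h5
      obtain ⟨hIs0, hpol⟩ := hT v hvT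
      have hvμ1 : v.abv μ ≤ 1 := by
        by_contra hlt
        rw [not_le] at hlt
        have hμ0 : μ ≠ 0 := by
          rintro rfl
          rw [map_zero] at hlt
          linarith
        refine hcase ⟨hμ0, fun l => ?_⟩
        rw [map_smul, Finsupp.smul_apply, smul_eq_mul, map_mul, map_inv₀]
        exact mul_lt_one_of_nonneg_of_lt_one_left (inv_nonneg.mpr (v.abv.nonneg _))
          (inv_lt_one_of_one_lt₀ hlt) (hIs0 l)
      refine ⟨1, one_ne_zero, ?_, ?_⟩
      · rw [inv_one, one_smul, ht']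
        exact Gd.add hB.na hIs0 (Gd.smul hvμ1 hB.one)
      · rw [one_smul, htd]
        exact inv_integral hS hns hd hB hIS hIs0 (minpoly.aeval K s0) hrel
          (hpol _ (by simp)) (hpol _ (by simp)) (hpol _ (by simp)) hvμ1

end Vale.Agent.P011.H167.Lf
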