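import Vale.Agent.P011.H167.LfC
import Vale.Agent.P011.H929.FFc

/-!
# Landherr's theorem over function fields, part 4

**The local-global principle for hermitian forms of rank one** over a division algebra with an
involution of the second kind whose centre is a quadratic extension of a global function field.
-/

open Module Polynomial

set_option linter.unusedSectionVars false

namespace Vale.Agent.P011.H167.Lf

open Vale.Agent.P011.H738 Vale.Agent.P011.H271 Vale.Agent.P011.H182 Vale.Agent.P011.H305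
  Vale.Agent.P011.H158.N4 Vale.Agent.P011.Hey
open Vale.Agent.P011.H929.FF (two_K star_delta delta_comm delta_sq star_k hasse_quad LN
  abv_le_one_of_pow abv_le_of_na)

variable {k K D : Type} [Field k] [GFF k] [Field K] [StarRing K]
    [DivisionRing D] [StarRing D] [Algebra k K] [Algebra k D] [Algebra K D] [IsScalarTower k K D]
    {d : kˣ} {s : K} {N : ℕ}

/-- The hermitian forms of rank one `e` and `e'` are isometric at the place `v`. -/
def LocF (B : Basis (Fin N) k D) (v : Place k) (e e' : D) : Prop :=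
  ∀ ε : ℝ, 0 < ε → ∃ t : D, na B v.abv (star t * e * t - e') < ε

open scoped IsMulCommutative in
/-- The field generated by an element. -/
theorem exists_gen (B : Basis (Fin N) k D) (γ : D) :
    ∃ (E : Type) (_ : Field E) (_ : GFF E) (_ : Algebra k E) (_ : Algebra.IsAlgebraic k E)
      (j : E →ₐ[k] D) (g : E), j g = γ ∧ ∀ x : E, ∃ p : k[X], x = aeval g p := by
  have _ : FiniteDimensional k D := Module.Finite.of_basis B
  have _ : IsMulCommutative (Algebra.adjoin k {γ}) := by
    apply IsMulCommutative.of_setLike_mul_comm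
    intro a ha b hb
    rw [Algebra.adjoin_singleton_eq_range_aeval] at ha hb
    obtain ⟨p, rfl⟩ := ha
    obtain ⟨q, rfl⟩ := hb
    change aeval γ p * aeval γ q = aeval γ q * aeval γ p
    rw [← map_mul, mul_comm, map_mul]
  let _ : Field (Algebra.adjoin k {γ}) := fieldOfFiniteDimensional k _
  refine ⟨Algebra.adjoin k {γ}, inferInstance, H63.gff_of_finite (k := k), inferInstance,
    Algebra.IsAlgebraic.of_finite k _,
    (Algebra.adjoin k {γ}).val, ⟨γ, Algebra.self_mem_adjoin_singleton k γ⟩, rfl, fun x => ?_⟩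
  have h1 : (x : D) ∈ (aeval γ : k[X] →ₐ[k] D).range := by
    rw [← Algebra.adjoin_singleton_eq_range_aeval]
    exact x.2
  obtain ⟨p, hp⟩ := h1
  refine ⟨p, Subtype.ext ?_⟩
  rw [← hp]
  change aeval γ p = (Algebra.adjoin k {γ}).val (aeval _ p)
  rw [← aeval_algHom_apply]
  rfl

/-- The local conditions at all places imply the global isometry. -/
theorem finish (hS : SetF k K D d s) (B : Basis (Fin N) k D) {e e' t : D}
    (he : star e = e) (he' : star e' = e') (h0 : e ≠ 0) (h0' : e' ≠ 0) (ht : t ≠ 0)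
    (H : ∀ (E : Type) [Field E] [GFF E] [Algebra k E] [Algebra.IsAlgebraic k E] (j : E →ₐ[k] D)
      (γ : E), γ ≠ 0 → j γ = e'⁻¹ * (star t * e * t) → ∀ P : Place E, LN (algebraMap k E d) γ P) :
    ∃ t' : D, t' ≠ 0 ∧ e' = star t' * e * t' := by
  obtain ⟨E, _, _, _, _, j, g, hg, hgen⟩ := exists_gen B (e'⁻¹ * (star t * e * t))
  have hst : star t ≠ 0 := star_ne_zero.mpr ht
  have hh0 : star t * e * t ≠ 0 := mul_ne_zero (mul_ne_zero hst h0) ht
  have hγ0 : e'⁻¹ * (star t * e * t) ≠ 0 := mul_ne_zero (inv_ne_zero h0') hh0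
  have hg0 : g ≠ 0 := by
    rintro rfl
    rw [map_zero] at hg
    exact hγ0 hg.symm
  have h2E : (2 : E) ≠ 0 := by
    rw [← map_ofNat (algebraMap k E) 2]
    exact (_root_.map_ne_zero _).mpr hS.two_ne
  have hdE : algebraMap k E d ≠ 0 := (_root_.map_ne_zero _).mpr d.ne_zero
  obtain ⟨x, y, hxy⟩ : ∃ x y : E, g = x ^ 2 - algebraMap k E d * y ^ 2 := by
    by_cases hsq : IsSquare (algebraMap k E d)
    · obtain ⟨r, hr⟩ := hsq
      have hr0 : r ≠ 0 := by
        rintro rfl
        rw [mul_zero] at hr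
        exact hdE hr
      refine ⟨(g + 1) / 2, (g - 1) / (2 * r), ?_⟩
      rw [hr]
      field_simp
      ring
    · exact hasse_quad h2E hdE hsq (H E j g hg0 hg)
  -- conjugation by `e'`
  have hstk : ∀ a : k, star (algebraMap k D a) = algebraMap k D a := fun a => by
    rw [Algebra.algebraMap_eq_smul_one, star_k hS, star_one]
  have hconj : ∀ z : E, star (j z) * e' = e' * j z := by
    intro z
    obtain ⟨p, rfl⟩ := hgen z
    rw [← aeval_algHom_apply, hg]
    induction p using Polynomial.induction_on' with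
    | add p q hp hq => rw [map_add, star_add, add_mul, mul_add, hp, hq]
    | monomial n a =>
      rw [aeval_monomial, star_mul, hstk, star_pow]
      have h1 : star (e'⁻¹ * (star t * e * t)) * e' = e' * (e'⁻¹ * (star t * e * t)) := by
        rw [star_mul, star_inv₀, he', star_mul, star_mul, star_star, he, mul_assoc,
          inv_mul_cancel₀ h0', mul_one, ← mul_assoc e', mul_inv_cancel₀ h0', one_mul, mul_assoc]
      have h2 : ∀ n : ℕ, star (e'⁻¹ * (star t * e * t)) ^ n * e' =
          e' * (e'⁻¹ * (star t * e * t)) ^ n := by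
        intro n
        induction n with
        | zero => rw [pow_zero, pow_zero, one_mul, mul_one]
        | succ n ih => rw [pow_succ', mul_assoc, ih, ← mul_assoc, h1, pow_succ', mul_assoc]
      rw [mul_assoc, Algebra.commutes a e', ← mul_assoc, h2, mul_assoc,
        Algebra.commutes a]
  obtain ⟨S, hSd⟩ : ∃ S : D, S = algebraMap K D s := ⟨_, rfl⟩
  have hSc : ∀ z : D, S * z = z * S := fun z => by rw [hSd]; exact Algebra.commutes s z
  have hSS : S * S = algebraMap k D d := by
    rw [hSd, ← map_mul, ← sq, hS.sq, ← IsScalarTower.algebraMap_apply]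
  have hSst : star S = -S := by rw [hSd]; exact star_delta hS
  obtain ⟨c, hc⟩ : ∃ c : D, c = j x + j y * S := ⟨_, rfl⟩
  have hjc : j x * j y = j y * j x := by rw [← map_mul, mul_comm, map_mul]
  have hkey : star c * e' * c = star t * e * t := by
    have h1 : star c * e' = e' * (j x - j y * S) := by
      rw [hc, star_add, star_mul, hSst, add_mul, hconj, neg_mul, neg_mul, mul_assoc, hconj,
        ← sub_eq_add_neg, hSc, mul_sub, mul_assoc]
    have h2 : (j x - j y * S) * (j x + j y * S) = j g := by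
      have e1 : (j x - j y * S) * (j x + j y * S) =
          j x * j x - j y * j y * (S * S) := by
        calc (j x - j y * S) * (j x + j y * S)
            = j x * j x + j x * j y * S - j y * (S * j x) - j y * (S * j y) * S := by
              noncomm_ring
          _ = j x * j x + j x * j y * S - j y * (j x * S) - j y * (j y * S) * S := by
              rw [hSc, hSc]
          _ = j x * j x + (j x * j y - j y * j x) * S - j y * j y * (S * S) := by noncomm_ring
          _ = _ := by rw [hjc, sub_self, zero_mul, add_zero]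
      rw [e1, hSS, hxy, map_sub, map_mul, map_pow, map_pow, AlgHom.commutes, sq, sq,
        Algebra.commutes]
    rw [h1, mul_assoc, hc, h2, hg, ← mul_assoc, mul_inv_cancel₀ h0', one_mul]
  have hc0 : c ≠ 0 := by
    rintro h
    rw [h, mul_zero] at hkey
    exact hh0 hkey.symm
  refine ⟨t * c⁻¹, mul_ne_zero ht (inv_ne_zero hc0), ?_⟩
  have hsc0 : star c ≠ 0 := star_ne_zero.mpr hc0
  calc e' = (star c)⁻¹ * (star c * e' * c) * c⁻¹ := by
        rw [mul_assoc (star c), inv_mul_cancel_left₀ hsc0, mul_inv_cancel_right₀ hc0]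
    _ = (star c)⁻¹ * (star t * e * t) * c⁻¹ := by rw [hkey]
    _ = star (t * c⁻¹) * e * (t * c⁻¹) := by
        rw [star_mul, star_inv₀]
        simp only [mul_assoc]

/-- Closeness of `e'⁻¹ * (star x * e * x)` to one. -/
theorem exists_target (hS : SetF k K D d s) (B : Basis (Fin N) k D) (v : Place k) {e e' : D}
    (h0' : e' ≠ 0) (h : LocF B v e e')
    {η : ℝ} (hη : 0 < η) :
    ∃ (t₀ : D) (δ : ℝ), 0 < δ ∧ ∀ x : D, na B v.abv (x - t₀) < δ →
      na B v.abv (e'⁻¹ * (star x * e * x) - 1) < η := by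
  obtain ⟨C, hC, hCm⟩ := na_linear B v.abv (LinearMap.mulLeft k e'⁻¹)
  obtain ⟨t₀, ht₀⟩ := h (η / (2 * C)) (by positivity)
  obtain ⟨σ, hσ⟩ : ∃ σ : D →ₗ[k] D, ∀ x, σ x = star x :=
    ⟨{ toFun := star, map_add' := star_add, map_smul' := fun c x => star_k hS c x }, fun _ => rfl⟩
  obtain ⟨δ, hδ, hδx⟩ := form_cont B v.abv σ e t₀ (ε := η / (2 * C)) (by positivity)
  refine ⟨t₀, δ, hδ, fun x hx => ?_⟩
  have h1 := hδx x hx
  rw [hσ, hσ] at h1
  have e1 : e'⁻¹ * (star x * e * x) - 1 = LinearMap.mulLeft k e'⁻¹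
      ((star x * e * x - star t₀ * e * t₀) + (star t₀ * e * t₀ - e')) := by
    rw [sub_add_sub_cancel, LinearMap.mulLeft_apply, mul_sub, inv_mul_cancel₀ h0']
  rw [e1]
  refine (hCm _).trans_lt ?_
  have h2 := na_add_le B v.abv (star x * e * x - star t₀ * e * t₀) (star t₀ * e * t₀ - e')
  calc C * na B v.abv ((star x * e * x - star t₀ * e * t₀) + (star t₀ * e * t₀ - e'))
      < C * (η / (2 * C) + η / (2 * C)) := by
        refine mul_lt_mul_of_pos_left (h2.trans_lt ?_) hC
        linarith
    _ = η := by field_simp; ring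

/-- scaling by an element of the ground field -/
theorem scale (hS : SetF k K D d s) {e e' t : D} {l : k} (hl : l ≠ 0) :
    e'⁻¹ * (star (l⁻¹ • t) * e * (l⁻¹ • t)) * algebraMap k D l ^ 2 =
      e'⁻¹ * (star t * e * t) := by
  have h1 : star (l⁻¹ • t) = l⁻¹ • star t := star_k hS _ _
  rw [h1, smul_mul_assoc, smul_mul_assoc, mul_smul_comm, mul_smul_comm, mul_smul_comm, smul_smul,
    smul_mul_assoc, ← map_pow, ← Algebra.commutes, ← Algebra.smul_def, smul_smul]
  have h2 : l⁻¹ * l⁻¹ * l ^ 2 = 1 := by field_simp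
  rw [h2, one_smul]

/-- **The local-global principle for rank one hermitian forms.** -/
theorem global_rank_one (hS : SetF k K D d s) (B : Basis (Fin N) k D) {e e' : D}
    (he : star e = e) (he' : star e' = e') (h0 : e ≠ 0) (h0' : e' ≠ 0)
    (hF : ∀ v : Place k, ¬ SqAt (d : k) v → LocF B v e e') :
    ∃ t : D, t ≠ 0 ∧ e' = star t * e * t := by
  classical
  -- the constants
  have hC := fun q : Place k => na_mul B q.abv
  choose C hC1 hCm using hC
  choose π hπ0 hπ1 using fun v : Place k => exists_abv_lt v one_pos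
  -- the targets
  have htar : ∀ v : Place k, ∃ (t₀ : D) (δ : ℝ), 0 < δ ∧ (¬ SqAt (d : k) v →
      ∀ x : D, na B v.abv (x - t₀) < δ →
      na B v.abv (e'⁻¹ * (star x * e * x) - 1) < v.abv (π v) / C v) := by
    intro v
    by_cases hv : SqAt (d : k) v
    · exact ⟨0, 1, one_pos, fun h => absurd hv h⟩
    · obtain ⟨t₀, δ, hδ, h⟩ := exists_target hS B v h0' (hF v hv)
        (div_pos (v.abv.pos (hπ0 v)) (lt_of_lt_of_le one_pos (hC1 v)))
      exact ⟨t₀, δ, hδ, fun _ => h⟩
  choose tv δv hδv htv using htar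
  obtain ⟨t, ht0, S, hSf, hnear, hgood⟩ := exists_global hS B {e, e⁻¹, e', e'⁻¹} (by simp)
    tv δv hδv
  refine finish hS B he he' h0 h0' ht0 ?_
  intro E _ _ _ _ j γ hγ0 hγ P
  obtain ⟨v, c, hc0, hc⟩ := H63.exists_below (k := k) P
  by_cases hns : SqAt (d : k) v
  · left
    obtain ⟨α, hα⟩ := hns
    obtain ⟨φ, hφ⟩ := H63.exists_compHom v P hc0 hc
    exact ⟨φ α, by rw [← map_pow, hα, hφ]⟩
  · right
    by_cases hv : v ∈ S
    · -- near
      refine ⟨γ, 1, 0, hγ0, by ring, Or.inr ?_⟩
      have h1 := htv v hns t (hnear v hv)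
      have e1 : j (γ - 1) = e'⁻¹ * (star t * e * t) - 1 := by rw [map_sub, map_one, hγ]
      have h4 := abv_le_of_na B hc0 hc j (hC1 v) (hCm v) (c := π v) (hπ0 v) (x := γ - 1) (by
          rw [e1, mul_comm, ← le_div_iff₀ (lt_of_lt_of_le one_pos (hC1 _))]
          exact h1.le)
      refine lt_of_le_of_lt h4 ?_
      rw [hc]
      exact Real.rpow_lt_one (AbsoluteValue.nonneg _ _) (hπ1 v) hc0
    · obtain ⟨hd, hB, hL, hl⟩ := hgood v hv
      obtain ⟨l, hl0, hu, hu'⟩ := hl hns
      have hl' : algebraMap k D l ≠ 0 := (_root_.map_ne_zero _).mpr hl0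
      have hlE : algebraMap k E l ≠ 0 := (_root_.map_ne_zero _).mpr hl0
      have he1 : Ig B v.abv e := hL _ (by simp)
      have he2 : Ig B v.abv e⁻¹ := hL _ (by simp)
      have he3 : Ig B v.abv e' := hL _ (by simp)
      have he4 : Ig B v.abv e'⁻¹ := hL _ (by simp)
      have hst : ∀ x : D, Ig B v.abv x → Ig B v.abv (star x) := fun x hx => hB.star (star_k hS) hx
      have huI := hB.mul' he4 (hB.mul' (hB.mul' (hst _ hu) he1) hu)
      have huI' := hB.mul' (hB.mul' (hB.mul' hu' he2) (hst _ hu')) he3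
      have hT0 : l⁻¹ • t ≠ 0 := smul_ne_zero (inv_ne_zero hl0) ht0
      have hT : l • t⁻¹ = (l⁻¹ • t)⁻¹ := by
        rw [eq_comm]
        apply inv_eq_of_mul_eq_one_right
        rw [smul_mul_assoc, mul_smul_comm, smul_smul, inv_mul_cancel₀ hl0, one_smul,
          mul_inv_cancel₀ ht0]
      rw [hT] at huI'
      have hsc := scale hS (e := e) (e' := e') (t := t) hl0
      obtain ⟨T, hTd⟩ : ∃ T : D, T = l⁻¹ • t := ⟨_, rfl⟩
      rw [← hTd] at hT0 huI huI' hsc
      have hsT : star T ≠ 0 := star_ne_zero.mpr hT0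
      have hprod : e'⁻¹ * (star T * e * T) * (T⁻¹ * e⁻¹ * star T⁻¹ * e') = 1 := by
        rw [star_inv₀]
        calc e'⁻¹ * (star T * e * T) * (T⁻¹ * e⁻¹ * (star T)⁻¹ * e')
            = e'⁻¹ * (star T * (e * (T * T⁻¹) * e⁻¹) * (star T)⁻¹) * e' := by
              simp only [mul_assoc]
          _ = 1 := by
              rw [mul_inv_cancel₀ hT0, mul_one, mul_inv_cancel₀ h0, mul_one,
                mul_inv_cancel₀ hsT, mul_one, inv_mul_cancel₀ h0']
      obtain ⟨y, hy⟩ : ∃ y : E, y = γ * (algebraMap k E l ^ 2)⁻¹ := ⟨_, rfl⟩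
      have hy0 : y ≠ 0 := by rw [hy]; exact mul_ne_zero hγ0 (inv_ne_zero (pow_ne_zero 2 hlE))
      have hyl : y * algebraMap k E l ^ 2 = γ := by
        rw [hy, inv_mul_cancel_right₀ (pow_ne_zero 2 hlE)]
      have hjy : j y = e'⁻¹ * (star T * e * T) := by
        have h1 := congrArg j hyl
        rw [map_mul, map_pow, AlgHom.commutes, hγ, ← hsc] at h1
        exact mul_right_cancel₀ (pow_ne_zero 2 hl') h1
      have hjy' : j y⁻¹ = T⁻¹ * e⁻¹ * star T⁻¹ * e' := by
        rw [map_inv₀, hjy]
        exact inv_eq_of_mul_eq_one_right hprod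
      have hpow : ∀ z : E, Ig B v.abv (j z) → ∀ n : ℕ, Ig B v.abv (j (z ^ (n + 1))) := by
        intro z hz n
        rw [map_pow]
        exact ig_pow hB hz _
      have h5 := abv_le_one_of_pow B hc0 hc j (hpow y (by rw [hjy]; exact huI))
      have h6 := abv_le_one_of_pow B hc0 hc j (hpow y⁻¹ (by rw [hjy']; exact huI'))
      rw [map_inv₀, inv_le_one₀ (AbsoluteValue.pos _ hy0)] at h6
      refine ⟨y, (algebraMap k E l)⁻¹, 0, hy0, ?_, Or.inl ⟨by rw [hc, hd, Real.one_rpow],
        le_antisymm h5 h6⟩⟩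
      rw [hy]
      field_simp
      ring

end Vale.Agent.P011.H167.Lf
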