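import Vale.Agent.P011.H167.LfD
import Vale.Agent.P011.H268.Nrd

/-!
# Landherr's theorem over function fields, part 5

From a solution over the completion to approximate solutions over `k`; the local isometry from a
hermitian model over the completion.
-/

open Module Polynomial TensorProduct Matrix

set_option linter.unusedSectionVars false

namespace Vale.Agent.P011.H167.Lf

open Vale.Agent.P011.H738 Vale.Agent.P011.H271 Vale.Agent.P011.H182 Vale.Agent.P011.H305
  Vale.Agent.P011.H158.N4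

section density

variable {k D : Type} [Field k] [DivisionRing D] [StarRing D] [Algebra k D]

theorem coord_form {F : Type} [Field F] [Algebra k F] {N : ℕ} (B : Basis (Fin N) k D)
    (σ : D →ₗ[k] D) (hσ : ∀ x, σ x = star x) (e : D) (c : Fin N → F) (j : Fin N) :
    (Algebra.TensorProduct.basis F B).repr
      (σ.baseChange F (∑ i, c i ⊗ₜ B i) * (1 ⊗ₜ e) * (∑ i, c i ⊗ₜ B i)) j =
      ∑ i, ∑ l, c i * c l * algebraMap k F (B.repr (star (B i) * e * B l) j) := by
  rw [map_sum, Finset.sum_mul, Finset.sum_mul, map_sum, Finsupp.finsetSum_apply]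
  refine Finset.sum_congr rfl fun i _ => ?_
  rw [Finset.mul_sum, map_sum, Finsupp.finsetSum_apply]
  refine Finset.sum_congr rfl fun l _ => ?_
  rw [LinearMap.baseChange_tmul, hσ, Algebra.TensorProduct.tmul_mul_tmul,
    Algebra.TensorProduct.tmul_mul_tmul, mul_one, Algebra.TensorProduct.basis_repr_tmul]
  rw [Finsupp.smul_apply, Finsupp.mapRange_apply, smul_eq_mul]

/-- A solution over the completion gives approximate solutions. -/
theorem locF_of_tensor {N : ℕ} (B : Basis (Fin N) k D) (v : Place k)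
    (σ : D →ₗ[k] D) (hσ : ∀ x, σ x = star x) {e e' : D} (T : v.comp ⊗[k] D)
    (hT : σ.baseChange v.comp T * (1 ⊗ₜ e) * T = 1 ⊗ₜ e') : LocF B v e e' := by
  intro ε hε
  let F := v.comp
  have hδ : 0 < ε / (N + 1) := by positivity
  let B' := Algebra.TensorProduct.basis F B
  let c : Fin N → F := fun i => B'.repr T i
  have hTc : T = ∑ i, c i ⊗ₜ B i := by
    rw [← B'.sum_repr T]
    refine Finset.sum_congr rfl fun i _ => ?_
    rw [Algebra.TensorProduct.basis_apply, TensorProduct.smul_tmul', smul_eq_mul, mul_one]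
  let Φ : Fin N → (Fin N → F) → F := fun j c =>
    ∑ i, ∑ l, c i * c l * algebraMap k F (B.repr (star (B i) * e * B l) j)
  have hΦ : ∀ j, Continuous (Φ j) := by
    intro j
    refine continuous_finsetSum _ fun i _ => continuous_finsetSum _ fun l _ => ?_
    exact ((continuous_apply i).mul (continuous_apply l)).mul continuous_const
  have hΦc : ∀ j, Φ j c = algebraMap k F (B.repr e' j) := by
    intro j
    have h1 := coord_form B σ hσ e c j
    rw [← hTc, hT, Algebra.TensorProduct.basis_repr_tmul] at h1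
    rw [Finsupp.smul_apply, Finsupp.mapRange_apply, one_smul] at h1
    exact h1.symm
  have hopen : IsOpen {c' : Fin N → F | ∀ j, ‖Φ j c' - algebraMap k F (B.repr e' j)‖ <
      ε / (N + 1)} := by
    rw [Set.ofPred_forall]
    exact isOpen_iInter_of_finite fun j =>
      isOpen_lt ((hΦ j).sub continuous_const).norm continuous_const
  have hmem : c ∈ {c' : Fin N → F | ∀ j, ‖Φ j c' - algebraMap k F (B.repr e' j)‖ <
      ε / (N + 1)} := by
    intro j
    rw [hΦc j, sub_self, norm_zero]
    exact hδ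
  obtain ⟨r, hr, hball⟩ := Metric.isOpen_iff.mp hopen c hmem
  choose y hy using fun i => dense_alg v (c i) hr
  have hy' : (fun i => algebraMap k F (y i)) ∈ Metric.ball c r := by
    rw [Metric.mem_ball, dist_pi_lt_iff hr]
    intro i
    rw [dist_comm, dist_eq_norm]
    exact hy i
  have hfin := hball hy'
  refine ⟨∑ i, y i • B i, ?_⟩
  have h0 : ∀ j, v.abv (B.repr (star (∑ i, y i • B i) * e * (∑ i, y i • B i) - e') j) <
      ε / (N + 1) := by
    intro j
    have h1 := hfin j
    have h2 : Φ j (fun i => algebraMap k F (y i)) =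
        algebraMap k F (B.repr (star (∑ i, y i • B i) * e * (∑ i, y i • B i)) j) := by
      have h3 := coord_form (F := F) B σ hσ e (fun i => algebraMap k F (y i)) j
      have h4 : ∑ i, algebraMap k F (y i) ⊗ₜ[k] B i = (1 : F) ⊗ₜ[k] (∑ i, y i • B i) := by
        rw [TensorProduct.tmul_sum]
        refine Finset.sum_congr rfl fun i _ => ?_
        rw [TensorProduct.tmul_smul, TensorProduct.smul_tmul', Algebra.algebraMap_eq_smul_one]
      rw [h4, LinearMap.baseChange_tmul, hσ, Algebra.TensorProduct.tmul_mul_tmul,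
        Algebra.TensorProduct.tmul_mul_tmul, mul_one, mul_one,
        Algebra.TensorProduct.basis_repr_tmul, Finsupp.smul_apply, Finsupp.mapRange_apply,
        one_smul] at h3
      exact h3.symm
    rw [h2, ← map_sub, norm_alg] at h1
    rw [map_sub, Finsupp.sub_apply]
    exact h1
  have h1 := na_le_of_coord B v.abv (fun i => (h0 i).le)
  refine h1.trans_lt ?_
  have h2 : (0 : ℝ) < N + 1 := by positivity
  rw [mul_div_assoc', div_lt_iff₀ h2]
  nlinarith

end density

section model

variable {k K D : Type} [Field k] [GFF k] [Field K] [StarRing K]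
    [DivisionRing D] [StarRing D] [Algebra k K] [Algebra k D] [Algebra K D] [IsScalarTower k K D]
    {d : kˣ} {s : K} {n : ℕ}

/-- The embedding of `D` in a matrix algebra over the completion of `K`, as a map of algebras
over `K`. -/
theorem exists_emb {v : Place k} {L : Type} [Field L] [Algebra v.comp L]
    (ρ : v.comp ⊗[k] D ≃ₐ[v.comp] Matrix (Fin n) (Fin n) L) (φ : K →+* L)
    (hφ : ∀ c : K, ρ (1 ⊗ₜ algebraMap K D c) = algebraMap L _ (φ c)) :
    ∃ g : D →+* Matrix (Fin n) (Fin n) L, (∀ x, g x = ρ (1 ⊗ₜ x)) ∧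
      ∀ c : K, g (algebraMap K D c) = algebraMap L _ (φ c) := by
  refine ⟨(ρ : v.comp ⊗[k] D →+* Matrix (Fin n) (Fin n) L).comp
    (Algebra.TensorProduct.includeRight : D →ₐ[k] v.comp ⊗[k] D).toRingHom, fun x => rfl, hφ⟩

/-- Reduced norms in a model. -/
theorem det_model (hS : SetF k K D d s) (hdeg : finrank K D = n ^ 2) {Ω : Type} [Field Ω]
    [Algebra K Ω] (f : D →ₐ[K] Matrix (Fin n) (Fin n) Ω) {L : Type} [Field L] (φ : K →+* L)
    (g : D →+* Matrix (Fin n) (Fin n) L) (hg : ∀ c : K, g (algebraMap K D c) = algebraMap L _ (φ c))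
    {x : D} {c : K} (h : (f x).det = algebraMap K Ω c) : (g x).det = φ c := by
  have := hS.fin
  have := hS.cen
  have hn0 : 0 < n := by
    rcases Nat.eq_zero_or_pos n with h0 | h0
    · rw [h0] at hdeg
      exact absurd hdeg (finrank_pos (R := K) (M := D)).ne'
    · exact h0
  let _ : Algebra K L := φ.toAlgebra
  let g' : D →ₐ[K] Matrix (Fin n) (Fin n) L := { g with commutes' := fun c => hg c }
  exact H268.det_compare hn0 hdeg f g' x h

/-- The local isometry from a hermitian model. -/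
theorem locF_of_model (hS : SetF k K D d s) (hdeg : finrank K D = n ^ 2) {N : ℕ}
    (B : Basis (Fin N) k D) {Ω : Type} [Field Ω] [Algebra K Ω]
    (f : D →ₐ[K] Matrix (Fin n) (Fin n) Ω) {v : Place k} (σ : D →ₗ[k] D) (hσ : ∀ x, σ x = star x)
    {L : Type} [Field L] [Algebra v.comp L] [StarRing L]
    (ρ : v.comp ⊗[k] D ≃ₐ[v.comp] Matrix (Fin n) (Fin n) L) (φ : K →+* L)
    (G : Matrix (Fin n) (Fin n) L) (hGu : IsUnit G) (hGs : Gᴴ = G)
    (hG : ∀ T, G * ρ (σ.baseChange v.comp T) = (ρ T)ᴴ * G)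
    (hφ : ∀ c : K, ρ (1 ⊗ₜ algebraMap K D c) = algebraMap L _ (φ c))
    (hφk : ∀ c : k, φ (algebraMap k K c) = algebraMap v.comp L (algebraMap k v.comp c))
    (hcls : ∀ G H : Matrix (Fin n) (Fin n) L, Gᴴ = G → Hᴴ = H → G.det ≠ 0 → H.det ≠ 0 →
      (∃ z : L, z ≠ 0 ∧ H.det = G.det * (z * star z)) →
      ∃ t : Matrix (Fin n) (Fin n) L, tᴴ * G * t = H)
    {e e' : D} (he : star e = e) (he' : star e' = e') {ν ν' : kˣ}
    (hν : (f e).det = algebraMap K Ω (algebraMap k K ν))
    (hν' : (f e').det = algebraMap K Ω (algebraMap k K ν'))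
    (hN : ∃ z : L, z ≠ 0 ∧ algebraMap v.comp L (algebraMap k v.comp ν') =
      algebraMap v.comp L (algebraMap k v.comp ν) * (z * star z)) : LocF B v e e' := by
  obtain ⟨g, hg, hgφ⟩ := exists_emb ρ φ hφ
  have hd : ∀ {x : D} {c : kˣ}, (f x).det = algebraMap K Ω (algebraMap k K c) →
      (ρ (1 ⊗ₜ x)).det = algebraMap v.comp L (algebraMap k v.comp c) := by
    intro x c h
    rw [← hg, det_model hS hdeg f φ g hgφ h, hφk]
  have hG0 : G.det ≠ 0 := ((Matrix.isUnit_iff_isUnit_det G).mp hGu).ne_zero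
  have hne : ∀ c : kˣ, algebraMap v.comp L (algebraMap k v.comp c) ≠ 0 := fun c =>
    (_root_.map_ne_zero _).mpr ((_root_.map_ne_zero _).mpr c.ne_zero)
  have hherm : ∀ {x : D}, star x = x → (G * ρ (1 ⊗ₜ x))ᴴ = G * ρ (1 ⊗ₜ x) := by
    intro x hx
    have h1 := hG (1 ⊗ₜ x)
    rw [LinearMap.baseChange_tmul, hσ, hx] at h1
    rw [Matrix.conjTranspose_mul, hGs, ← h1]
  obtain ⟨z, hz0, hz⟩ := hN
  obtain ⟨t, ht⟩ := hcls (G * ρ (1 ⊗ₜ e)) (G * ρ (1 ⊗ₜ e')) (hherm he) (hherm he')
    (by rw [Matrix.det_mul, hd hν]; exact mul_ne_zero hG0 (hne _))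
    (by rw [Matrix.det_mul, hd hν']; exact mul_ne_zero hG0 (hne _))
    ⟨z, hz0, by rw [Matrix.det_mul, Matrix.det_mul, hd hν, hd hν', hz]; ring⟩
  refine locF_of_tensor B v σ hσ (ρ.symm t) (ρ.injective ?_)
  apply hGu.mul_left_cancel
  rw [map_mul, map_mul, AlgEquiv.apply_symm_apply, ← ht, ← Matrix.mul_assoc, ← Matrix.mul_assoc,
    hG, AlgEquiv.apply_symm_apply]
  simp only [Matrix.mul_assoc]

end model

section unit

variable {k K D : Type} [Field k] [Field K] [StarRing K]
    [DivisionRing D] [StarRing D] [Algebra k K] [Algebra k D] [Algebra K D] [IsScalarTower k K D]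
    {d : kˣ} {s : K} {n : ℕ}

/-- Reduced norms of symmetric elements are in `k`. -/
theorem exists_nrd_unit (hS : SetF k K D d s) (hdeg : finrank K D = n ^ 2) {Ω : Type}
    [Field Ω] [Algebra K Ω] (f : D →ₐ[K] Matrix (Fin n) (Fin n) Ω) {x : D} (hx : star x = x)
    (hx0 : x ≠ 0) : ∃ ν : kˣ, (f x).det = algebraMap K Ω (algebraMap k K ν) := by
  have := hS.fin
  have := hS.cen
  have hn0 : 0 < n := by
    rcases Nat.eq_zero_or_pos n with h0 | h0
    · rw [h0] at hdeg
      exact absurd hdeg (finrank_pos (R := K) (M := D)).ne'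
    · exact h0
  obtain ⟨ν, hν⟩ := H268.exists_nrd hn0 hdeg f x
  have h1 := H268.star_nrd hn0 hdeg (fun c => H929.FF.star_alg hS c) f hx hν
  obtain ⟨ν', rfl⟩ := (hS.fix ν).mp h1
  have hν0 : ν' ≠ 0 := by
    rintro rfl
    rw [map_zero, map_zero] at hν
    have h2 : f x * f x⁻¹ = 1 := by rw [← map_mul, mul_inv_cancel₀ hx0, map_one]
    have h3 := congrArg Matrix.det h2
    rw [Matrix.det_mul, hν, zero_mul, Matrix.det_one] at h3
    exact zero_ne_one h3
  exact ⟨Units.mk0 ν' hν0, hν⟩

end unit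

end Vale.Agent.P011.H167.Lf
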