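import Vale.Agent.P011.Hey.Final

/-! # Divisors over a global function field in the letters of places (helper167) -/

namespace Vale.Agent.P011.H167.Ni

open Vale.Agent.P011.H167.Ab Vale.Agent.P011.H167.Ab.LSys

section abs

variable {D : Type} [Field D] {ι : Type} {L : ι → Type} [∀ v, SemilatticeSup (L v)]
  {n p : ℕ} {S : LSys D ι L n p}

variable (S) in
/-- the local order of an element -/
def io (v : ι) (x : Dˣ) : ℤ := S.ind v (S.act v (S.std v) x)

theorem io_mul (v : ι) (x y : Dˣ) : io S v (x * y) = io S v x + io S v y := by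
  have h1 := S.ind_act v (S.act v (S.std v) x) y
  rw [io, io, io, S.act_mul]
  have h2 := S.ind_std v
  omega

theorem io_one (v : ι) : io S v 1 = 0 := by
  rw [io, S.act_one, S.ind_std]

theorem io_inv (v : ι) (x : Dˣ) : io S v x⁻¹ = -io S v x := by
  have h := io_mul (S := S) v x x⁻¹
  rw [mul_inv_cancel, io_one] at h
  omega

theorem io_pi (v : ι) : io S v (S.pi v) = -n := by
  rw [io, S.ind_pi, S.ind_std]
  ring

theorem io_zpow (v : ι) (x : Dˣ) (j : ℤ) : io S v (x ^ j) = j * io S v x := by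
  induction j using Int.induction_on with
  | zero => rw [zpow_zero, io_one]; ring
  | succ i ih => rw [zpow_add_one, io_mul, ih]; ring
  | pred i ih => rw [zpow_sub_one, io_mul, ih, io_inv]; ring

theorem act_eq_iff (v : ι) (x y : Dˣ) :
    S.act v (S.std v) x = S.act v (S.std v) y ↔ S.act v (S.std v) (x * y⁻¹) = S.std v := by
  rw [S.act_mul]
  constructor
  · intro h
    rw [h, S.act_inv]
  · intro h
    rw [← h, S.act_inv', h]

theorem io_eq_zero_of (v : ι) {x : Dˣ} (h : S.act v (S.std v) x = S.std v) : io S v x = 0 := by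
  rw [io, h, S.ind_std]

theorem deg_tw' (N : Fam S) (v : ι) (z : Dˣ) :
    (N.tw v z).deg = N.deg + S.e v * io S v z := by
  rw [Fam.deg_tw, S.ind_act, io]
  ring

section rr

variable (hfin : ∀ N : Fam S, (N.H0 : Set D).Finite) {v0 : ι} {m : ℕ}
  (hgood : ((fstd S).tw v0 ((S.pi v0)⁻¹ ^ m)).Good)

include hfin hgood

/-- families of large degree are equivalent to effective families -/
theorem exists_mul : ∃ d0 : ℤ, ∀ N : Fam S, d0 ≤ N.deg → ∃ x : Dˣ, fstd S ≤ N.mul x ∧
    (N.mul x).deg = N.deg := by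
  have hp : (1 : ℝ) < p := by exact_mod_cast S.one_lt
  have hpn : (1 : ℝ) < (p : ℝ) ^ n := one_lt_pow₀ hp S.n_pos.ne'
  set N0 := (fstd S).tw v0 ((S.pi v0)⁻¹ ^ m) with hN0
  refine ⟨N0.deg + 1, fun N hN => ?_⟩
  have h1 := Fam.card_ge hfin hgood N
  have h2 : 1 < (Nat.card N.H0 : ℝ) := by
    refine lt_of_lt_of_le ?_ h1
    have h4 : (1 : ℝ) ≤ Nat.card N0.H0 := by exact_mod_cast Fam.card_pos hfin N0
    have h5 : (1 : ℝ) < ((p : ℝ) ^ n) ^ (N.deg - N0.deg) :=
      one_lt_zpow₀ hpn (by omega)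
    calc (1 : ℝ) < ((p : ℝ) ^ n) ^ (N.deg - N0.deg) := h5
      _ = 1 * ((p : ℝ) ^ n) ^ (N.deg - N0.deg) := (one_mul _).symm
      _ ≤ _ := mul_le_mul_of_nonneg_right h4 (by linarith)
  obtain ⟨x, hx⟩ := Fam.exists_ne_zero hfin h2
  rw [Fam.mem_H0_iff, Fam.mul_le_iff] at hx
  exact ⟨x⁻¹, hx, Fam.deg_mul hfin hgood N x⁻¹⟩

/-- the classes are generated by the places of small degree -/
theorem exists_cls : ∃ B : ℕ, ∀ N : Fam S, ∃ x : Dˣ, ∀ v, v ≠ v0 → B < S.e v →
    S.act v (N v) x = S.std v := by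
  obtain ⟨d0, hd0⟩ := exists_mul hfin hgood
  have hne : 0 < (S.e v0 : ℤ) * n := by
    have := S.e_pos v0
    have := S.n_pos
    positivity
  refine ⟨(d0 + S.e v0 * n).toNat, fun N => ?_⟩
  set c : ℤ := (S.e v0 : ℤ) * n with hc
  set j : ℤ := (d0 - N.deg) / c + 1 with hj
  set N1 := N.tw v0 ((S.pi v0) ^ (-j)) with hN1
  have hdeg : N1.deg = N.deg + c * j := by
    rw [hN1, deg_tw', io_zpow, io_pi, hc]
    ring
  have h1 : d0 - N.deg < c * j := by
    have := Int.lt_ediv_add_one_mul_self (d0 - N.deg) hne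
    rw [hj]
    linarith
  have h2 : c * j ≤ d0 - N.deg + c := by
    have := Int.ediv_mul_le (d0 - N.deg) hne.ne'
    rw [hj]
    linarith
  obtain ⟨x, hx, hxd⟩ := hd0 N1 (by omega)
  refine ⟨x, fun v hv hB => ?_⟩
  have h3 : 0 ≤ (N1.mul x).deg := by
    have := Fam.deg_mono hx
    rwa [Fam.deg_fstd] at this
  have h4 := Fam.eff_std_of_lt hx (d := (N1.mul x).deg.toNat) (Int.toNat_of_nonneg h3).symm
    (v := v) (by
      refine lt_of_le_of_lt ?_ hB
      rw [hxd, hdeg]
      apply Int.toNat_le_toNat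
      omega)
  rw [Fam.mul_at, hN1, Fam.tw_at_ne _ hv] at h4
  exact h4

end rr

open Classical in
variable (S) in
/-- the family of a local element at the places of `T` -/
noncomputable def lc (T : Finset ι) (a : Dˣ) : Fam S where
  at' v := if v ∈ T then S.act v (S.std v) a else S.std v
  fin := by
    refine T.finite_toSet.subset fun v hv => ?_
    by_contra h
    have h' : v ∉ T := h
    exact hv (if_neg h')

theorem lc_at {T : Finset ι} {v : ι} (hv : v ∈ T) (a : Dˣ) :
    lc S T a v = S.act v (S.std v) a := by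
  classical
  exact if_pos hv

theorem lc_ne {T : Finset ι} {v : ι} (hv : v ∉ T) (a : Dˣ) : lc S T a v = S.std v := by
  classical
  exact if_neg hv

theorem deg_lc (T : Finset ι) (a : Dˣ) : (lc S T a).deg = ∑ v ∈ T, (S.e v : ℤ) * io S v a := by
  rw [Fam.deg_eq_sum (lc S T a) (T := T) fun v hv => lc_ne hv a]
  refine Finset.sum_congr rfl fun v hv => ?_
  rw [lc_at hv, io]

theorem lc_unit {T : Finset ι} {u : Dˣ} (hu : ∀ v, v ∉ T → S.act v (S.std v) u = S.std v) :
    lc S T u = (fstd S).mul u := by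
  ext v
  by_cases hv : v ∈ T
  · rw [lc_at hv]; rfl
  · rw [lc_ne hv]
    exact (hu v hv).symm

section cl

variable (hfin : ∀ N : Fam S, (N.H0 : Set D).Finite) {v0 : ι} {m : ℕ}
  (hgood : ((fstd S).tw v0 ((S.pi v0)⁻¹ ^ m)).Good)
  (heff : ∀ d : ℕ, Finite {N : Fam S // fstd S ≤ N ∧ N.deg = d})

include hfin hgood

theorem deg_lc_unit {T : Finset ι} {u : Dˣ}
    (hu : ∀ v, v ∉ T → S.act v (S.std v) u = S.std v) : (lc S T u).deg = 0 := by
  rw [lc_unit hu, Fam.deg_mul hfin hgood, Fam.deg_fstd]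

include heff

/-- finiteness of the classes of degree zero supported on `T` -/
theorem finite_cls (T : Finset ι) (hv0 : v0 ∈ T) : ∃ F : Set Dˣ, F.Finite ∧
    ∀ a : Dˣ, (lc S T a).deg = 0 → ∃ b ∈ F, ∃ u : Dˣ,
      (∀ v, v ∉ T → S.act v (S.std v) u = S.std v) ∧
      ∀ v ∈ T, S.act v (S.std v) a = S.act v (S.std v) (b * u) := by
  classical
  obtain ⟨d0, hd0⟩ := exists_mul hfin hgood
  have hne : 0 < (S.e v0 : ℤ) * n := by
    have := S.e_pos v0
    have := S.n_pos
    positivity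
  set c : ℤ := (S.e v0 : ℤ) * n with hc
  set z : Dˣ := (S.pi v0) ^ (-((d0.toNat : ℤ))) with hz
  have hdeg : ∀ N : Fam S, N.deg = 0 → (N.tw v0 z).deg = c * d0.toNat := by
    intro N hN
    rw [deg_tw', hz, io_zpow, io_pi, hN, hc]
    ring
  have hle : d0 ≤ c * d0.toNat := by
    have h1 : (d0.toNat : ℤ) ≤ c * d0.toNat := le_mul_of_one_le_left (by positivity) (by omega)
    have h2 := Int.self_le_toNat d0
    omega
  have hx : ∀ a : {a : Dˣ // (lc S T a).deg = 0}, ∃ x : Dˣ,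
      fstd S ≤ ((lc S T a.1).tw v0 z).mul x ∧
      (((lc S T a.1).tw v0 z).mul x).deg = ((c * d0.toNat).toNat : ℕ) := by
    intro a
    obtain ⟨x, hx, hxd⟩ := hd0 ((lc S T a.1).tw v0 z) (by rw [hdeg _ a.2]; exact hle)
    refine ⟨x, hx, ?_⟩
    rw [hxd, hdeg _ a.2]
    exact (Int.toNat_of_nonneg (mul_nonneg hne.le (by positivity))).symm
  choose x hx hxd using hx
  have := heff (c * d0.toNat).toNat
  let g : {a : Dˣ // (lc S T a).deg = 0} → {N : Fam S // fstd S ≤ N ∧
    N.deg = ((c * d0.toNat).toNat : ℕ)} := fun a => ⟨_, hx a, hxd a⟩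
  let r : Set.range g → {a : Dˣ // (lc S T a).deg = 0} := fun e => e.2.choose
  have hr : ∀ e : Set.range g, g (r e) = e.1 := fun e => e.2.choose_spec
  refine ⟨Set.range fun e => (r e : Dˣ), Set.finite_range _, fun a ha => ?_⟩
  set b := r ⟨g ⟨a, ha⟩, ⟨_, rfl⟩⟩ with hb
  have hgb : g b = g ⟨a, ha⟩ := hr _
  have hfam : ((lc S T b.1).tw v0 z).mul (x b) = ((lc S T a).tw v0 z).mul (x ⟨a, ha⟩) :=
    congrArg Subtype.val hgb
  refine ⟨b.1, ⟨_, rfl⟩, x b * (x ⟨a, ha⟩)⁻¹, fun v hv => ?_, fun v hv => ?_⟩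
  · have h1 : S.act v (((lc S T b.1).tw v0 z) v) (x b) =
        S.act v (((lc S T a).tw v0 z) v) (x ⟨a, ha⟩) := by
      have := congrArg (fun N : Fam S => N v) hfam
      exact this
    have hvv : v ≠ v0 := fun h => hv (h ▸ hv0)
    rw [Fam.tw_at_ne _ hvv, Fam.tw_at_ne _ hvv, lc_ne hv, lc_ne hv, act_eq_iff] at h1
    exact h1
  · have h1 : S.act v (((lc S T b.1).tw v0 z) v) (x b) =
        S.act v (((lc S T a).tw v0 z) v) (x ⟨a, ha⟩) := by
      have := congrArg (fun N : Fam S => N v) hfam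
      exact this
    by_cases hvv : v = v0
    · subst hvv
      rw [Fam.tw_at_self, Fam.tw_at_self, lc_at hv, lc_at hv, ← S.act_mul, ← S.act_mul,
        ← S.act_mul, ← S.act_mul] at h1
      symm
      rw [act_eq_iff] at h1 ⊢
      rw [← h1]
      congr 1
      apply Units.ext
      push_cast
      field_simp
    · rw [Fam.tw_at_ne _ hvv, Fam.tw_at_ne _ hvv, lc_at hv, lc_at hv, ← S.act_mul,
        ← S.act_mul] at h1
      symm
      rw [act_eq_iff] at h1 ⊢
      rw [← h1]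
      congr 1
      apply Units.ext
      push_cast
      field_simp

end cl

end abs

end Vale.Agent.P011.H167.Ni
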