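import Vale.Agent.P011.H167.NiA
import Vale.Agent.P011.H73.Sp1

/-! # Divisors over a global function field in the letters of places, II (helper167) -/

namespace Vale.Agent.P011.H167.Ni

open Module Vale.Agent.P011.H738 Vale.Agent.P011.H271 Vale.Agent.P011.H167.Ab
open Vale.Agent.P011.H167.Ab.LSys Vale.Agent.P011.Hey

noncomputable section

variable (K : Type) [Field K] [GFF K]

/-- the system of the field -/
def sy : LSys K (Place K) (Lv 1) 1 (ringChar K) := (splk K).sys one_pos (H279.locFacts K 1)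

theorem sy_fin (N : LSys.Fam (sy K)) : (N.H0 : Set K).Finite :=
  sys_hfin (splk K) one_pos (H279.locFacts K 1) N

theorem sy_good (v0 : Place K) :
    ∃ m, ((fstd (sy K)).tw v0 (((sy K).pi v0)⁻¹ ^ m)).Good :=
  H308.sys_hgood (splk K) one_pos (H279.locFacts K 1) v0

theorem sy_eff (d : ℕ) : Finite {N : LSys.Fam (sy K) // fstd (sy K) ≤ N ∧ N.deg = d} :=
  LSys.eff_finite (S := sy K) (fun B => H279.hpl K B)
    (sys_lf (splk K) one_pos (H279.locFacts K 1)) d

variable {K}

theorem sy_mem (v : Place K) (x : K) : x ∈ (sy K).M v ((sy K).std v) ↔ v.abv x ≤ 1 := by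
  change (∀ i, (splk K).g v x i ∈ std (cO v) v.comp 1) ↔ _
  have h1 : ∀ i : Fin 1, (splk K).g v x i = fun _ => algebraMap K v.comp x := by
    intro i
    funext j
    change Matrix.scalar (Fin 1) (algebraMap K v.comp x) i j = _
    rw [Subsingleton.elim j i, Matrix.scalar_apply, Matrix.diagonal_apply_eq]
  constructor
  · intro h
    have h2 := mem_stdv.1 (h 0) 0
    rw [h1] at h2
    exact alg_mem_cO.1 h2
  · intro h i
    rw [h1, mem_stdv]
    intro j
    exact alg_mem_cO.2 h

theorem sy_act_std (v : Place K) (x : Kˣ) :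
    (sy K).act v ((sy K).std v) x = (sy K).std v ↔ v.abv (x : K) = 1 := by
  have hle : ∀ y : Kˣ, (sy K).act v ((sy K).std v) y ≤ (sy K).std v ↔ v.abv (y : K) ≤ 1 :=
    fun y => by rw [← (sy K).mem_iff, sy_mem]
  constructor
  · intro h
    refine le_antisymm ((hle x).1 h.le) ?_
    have h2 : (sy K).act v ((sy K).std v) x⁻¹ ≤ (sy K).std v := by
      conv_lhs => rw [← h]
      rw [(sy K).act_inv]
    have h3 := (hle x⁻¹).1 h2
    rw [Units.val_inv_eq_inv_val, map_inv₀] at h3
    exact (inv_le_one₀ (v.abv.pos x.ne_zero)).1 h3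
  · intro h
    refine le_antisymm ((hle x).2 h.le) ?_
    have h3 : v.abv ((x⁻¹ : Kˣ) : K) ≤ 1 := by
      rw [Units.val_inv_eq_inv_val, map_inv₀, h, inv_one]
    have h4 := (sy K).act_mono v x _ _ ((hle x⁻¹).2 h3)
    rwa [(sy K).act_inv'] at h4

theorem sy_act_eq (v : Place K) (x y : Kˣ) :
    (sy K).act v ((sy K).std v) x = (sy K).act v ((sy K).std v) y ↔
      v.abv (x : K) = v.abv (y : K) := by
  rw [act_eq_iff, sy_act_std, Units.val_mul, map_mul, Units.val_inv_eq_inv_val, map_inv₀,
    mul_inv_eq_one₀ (v.abv.pos y.ne_zero).ne']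

theorem one_lt_qq (v : Place K) : (1 : ℝ) < qq v := by
  have := (H279.locFacts K 1).qq_eq v
  rw [this]
  have h1 := (H279.locFacts K 1).char_gt
  have h2 := (H279.locFacts K 1).dg_pos v
  exact_mod_cast Nat.one_lt_pow h2.ne' h1

theorem abv_io (v : Place K) (a : Kˣ) : v.abv (a : K) = (ringChar K : ℝ) ^
    (((sy K).e v : ℤ) * io (sy K) v a) := by
  have h1 := ml_spec v a.ne_zero
  set m := ml v (a : K) with hm
  have hq : (qq v : ℝ) ≠ 0 := by have := one_lt_qq v; positivity
  have hu : v.abv ((a * (sy K).pi v ^ m : Kˣ) : K) = 1 := by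
    have h2 : (((sy K).pi v : Kˣ) : K) = unif v := rfl
    rw [Units.val_mul, map_mul, Units.val_zpow_eq_zpow_val, map_zpow₀, h2, abv_unif, h1,
      inv_zpow, mul_inv_cancel₀ (zpow_ne_zero _ hq)]
  have h3 := io_eq_zero_of v ((sy_act_std v _).2 hu)
  rw [io_mul, io_zpow, io_pi] at h3
  have h4 : io (sy K) v a = m := by push_cast at h3; linarith
  have h5 : (qq v : ℝ) = (ringChar K : ℝ) ^ ((sy K).e v) := by
    have := (H279.locFacts K 1).qq_eq v
    rw [this]
    push_cast
    rfl
  rw [h4, h1, h5, ← zpow_natCast, ← zpow_mul]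

variable (K) in
/-- **the ideal classes are generated by finitely many places** -/
theorem exists_div : ∃ T : Set (Place K), T.Finite ∧ ∀ f : Place K → Kˣ,
    {w : Place K | w.abv (f w : K) ≠ 1}.Finite →
      ∃ t : Kˣ, ∀ w, w ∉ T → w.abv (t : K) = w.abv (f w : K) := by
  obtain ⟨v0⟩ := nonempty_place K
  obtain ⟨m, hgood⟩ := sy_good K v0
  obtain ⟨B, hB⟩ := exists_cls (sy_fin K) hgood
  refine ⟨{v0} ∪ {v | dg v ≤ B}, (Set.finite_singleton v0).union (H279.hpl K B),
    fun f hf => ?_⟩
  let N : LSys.Fam (sy K) :=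
    ⟨fun v => (sy K).act v ((sy K).std v) (f v), by
      refine hf.subset fun v hv => ?_
      intro h
      exact hv ((sy_act_std v _).2 h)⟩
  obtain ⟨x, hx⟩ := hB N
  refine ⟨x⁻¹, fun w hw => ?_⟩
  simp only [Set.mem_union, Set.mem_singleton_iff, Set.mem_ofPred_eq, not_or, not_le] at hw
  have h1 : (sy K).act w ((sy K).act w ((sy K).std w) (f w)) x = (sy K).std w :=
    hx w hw.1 hw.2
  rw [← (sy K).act_mul, sy_act_std, Units.val_mul, map_mul] at h1
  rw [Units.val_inv_eq_inv_val, map_inv₀]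
  exact (eq_inv_of_mul_eq_one_left h1).symm

/-- the degree at `T` -/
theorem prod_abv (T : Finset (Place K)) (a : Kˣ) : ∏ w ∈ T, w.abv (a : K) =
    (ringChar K : ℝ) ^ (lc (sy K) T a).deg := by
  have h0 : (ringChar K : ℝ) ≠ 0 := by
    have := (H279.locFacts K 1).char_gt
    positivity
  rw [deg_lc, Finset.prod_congr rfl fun (w : Place K) _ => abv_io w a]
  classical
  induction T using Finset.induction_on with
  | empty => simp
  | insert b T hb ih => rw [Finset.prod_insert hb, Finset.sum_insert hb, zpow_add₀ h0, ih]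

/-- **the product formula** -/
theorem prod_one {T : Finset (Place K)} {u : Kˣ} (hu : ∀ w, w ∉ T → w.abv (u : K) = 1) :
    ∏ w ∈ T, w.abv (u : K) = 1 := by
  obtain ⟨v0⟩ := nonempty_place K
  obtain ⟨m, hgood⟩ := sy_good K v0
  rw [prod_abv, deg_lc_unit (sy_fin K) hgood fun w hw => (sy_act_std w _).2 (hu w hw), zpow_zero]

/-- **finiteness of the classes of degree zero** -/
theorem exists_cls_fin {T : Finset (Place K)} (hT : T.Nonempty) : ∃ F : Set Kˣ, F.Finite ∧
    ∀ a : Kˣ, ∏ w ∈ T, w.abv (a : K) = 1 → ∃ b ∈ F, ∃ u : Kˣ,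
      (∀ w, w ∉ T → w.abv (u : K) = 1) ∧ ∀ w ∈ T, w.abv (a : K) = w.abv (b * u : K) := by
  obtain ⟨v0, hv0⟩ := hT
  obtain ⟨m, hgood⟩ := sy_good K v0
  obtain ⟨F, hF, h⟩ := finite_cls (sy_fin K) hgood (sy_eff K) T hv0
  refine ⟨F, hF, fun a ha => ?_⟩
  have h1 : (1 : ℝ) < ringChar K := by exact_mod_cast (H279.locFacts K 1).char_gt
  rw [prod_abv] at ha
  have h2 : (lc (sy K) T a).deg = 0 :=
    (zpow_right_injective₀ (by linarith) h1.ne') (ha.trans (zpow_zero _).symm)
  obtain ⟨b, hb, u, hu, hu'⟩ := h a h2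
  refine ⟨b, hb, u, fun w hw => (sy_act_std w _).1 (hu w hw), fun w hw => ?_⟩
  have := (sy_act_eq w _ _).1 (hu' w hw)
  rwa [Units.val_mul] at this

/-- there are places outside every finite set -/
theorem exists_notMem_place (T : Finset (Place K)) : ∃ q : Place K, q ∉ T := by
  classical
  by_contra hcon
  push Not at hcon
  obtain ⟨v0⟩ := nonempty_place K
  choose π hπ using fun v : Place K => H73.Sp.exists_lt_one v
  obtain ⟨x, hx⟩ := H73.Sp.approx_set T.finite_toSet (fun v => (π v : K))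
    (fun v => v.abv (π v : K)) fun v => v.abv.pos (π v).ne_zero
  have h1 : ∀ v : Place K, v.abv x = v.abv (π v : K) := by
    intro v
    have e : x = (π v : K) + (x - π v) := by ring
    have := H73.Sp.add_eq_left v (x := (π v : K)) (y := x - π v) (hx v (hcon v))
    rwa [← e] at this
  have h0 : x ≠ 0 := by
    intro h
    have := h1 v0
    rw [h, map_zero] at this
    exact (v0.abv.pos (π v0).ne_zero).ne this
  have h2 := prod_one (T := T) (u := Units.mk0 x h0) fun w hw => absurd (hcon w) hw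
  have h3 : ∏ w ∈ T, w.abv ((Units.mk0 x h0 : Kˣ) : K) < 1 := by
    have h4 := Finset.prod_lt_prod_of_nonempty (s := T)
      (f := fun w : Place K => w.abv ((Units.mk0 x h0 : Kˣ) : K)) (g := fun _ => 1)
      (fun w _ => w.abv.pos h0) (fun w _ => by
        change w.abv x < 1
        rw [h1]
        exact hπ w) ⟨v0, hcon v0⟩
    rwa [Finset.prod_const_one] at h4
  exact h3.ne h2

/-- **finiteness of the residue classes** -/
theorem exists_res_fin (T : Finset (Place K)) {ε : ℝ} (hε : 0 < ε) : ∃ F : Set K, F.Finite ∧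
    ∀ x : K, (∀ w ∈ T, w.abv x ≤ 1) → ∃ y ∈ F, ∀ w ∈ T, w.abv (x - y) ≤ ε := by
  classical
  obtain ⟨q, hq⟩ := exists_notMem_place T
  obtain ⟨C, hC⟩ := place_strong q T hq hε
  refine ⟨{x : K | ∀ v : Place K, v.abv x ≤ if v = q then C else 1},
    place_finite_le _ ?_, fun x hx => ?_⟩
  · refine (Set.finite_singleton q).subset fun v hv => ?_
    by_contra h
    have h' : v ≠ q := h
    simp only [Set.mem_ofPred_eq, if_neg h'] at hv
    exact lt_irrefl _ hv
  · obtain ⟨y, h1, h2, h3⟩ := hC (fun v => if v ∈ T then x else 0) (by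
      refine T.finite_toSet.subset fun v hv => ?_
      by_contra h
      have h' : v ∉ T := h
      simp only [Set.mem_ofPred_eq, if_neg h', map_zero] at hv
      linarith)
    refine ⟨y, fun v => ?_, fun w hw => ?_⟩
    · by_cases hv : v = q
      · rw [if_pos hv]
        rw [if_neg hq, zero_sub, AbsoluteValue.map_neg] at h3
        rw [hv]
        exact h3
      · rw [if_neg hv]
        have h4 := h2 v hv
        by_cases hvT : v ∈ T
        · rw [if_pos hvT] at h4
          have e : y = x + -(x - y) := by ring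
          rw [e]
          refine (v.nonarch _ _).trans (max_le (hx v hvT) ?_)
          rwa [AbsoluteValue.map_neg]
        · rwa [if_neg hvT, zero_sub, AbsoluteValue.map_neg] at h4
    · have h4 := h1 w hw
      rwa [if_pos hw] at h4

end

end Vale.Agent.P011.H167.Ni
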