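import Mathlib.GroupTheory.Index
import Mathlib.GroupTheory.QuotientGroup.Basic
import Mathlib.Algebra.BigOperators.Group.Finset.Basic
import Mathlib.Tactic

/-! # The norm index, abstractly (helper167) -/

namespace Vale.Agent.P011.H167.Ni

open Finset

/-- the statement of the lemma of Herbrand for modules of rank one -/
def HerbS : Prop := ∀ (A : Type) [CommGroup A] (s : A ≃* A) (p : ℕ), p.Prime →
  (∀ a, (s ^ p) a = a) → ∀ (φ : A →* Multiplicative ℤ), (∀ a, φ (s a) = φ a) →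
  ∀ a0 : A, φ a0 ≠ 1 → Finite φ.ker → ∀ N δ : A →* A,
  (∀ a, N a = ∏ i ∈ range p, (s ^ i) a) → (∀ a, δ a = s a / a) →
  N.range.relIndex δ.ker = p * δ.range.relIndex N.ker

variable {X : Type} [CommGroup X]

/-- **the norm index**, abstractly -/
theorem abs_index (HA : HerbS) (s : X ≃* X) {p : ℕ} (hp : p.Prime) (hs : ∀ a, (s ^ p) a = a)
    (N δ : X →* X) (hN : ∀ a, N a = ∏ i ∈ range p, (s ^ i) a) (hδ : ∀ a, δ a = s a / a)
    (B : Subgroup X) (hB : B.map s.toMonoidHom = B) (φ : X →* Multiplicative ℤ)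
    (hφ : ∀ a, φ (s a) = φ a) (hφB : ∀ b ∈ B, φ b = 1) (a0 : X) (h0 : φ a0 ≠ 1)
    (F : Set X) (hF : F.Finite) (hfin : ∀ a, φ a = 1 → ∃ b ∈ F, a / b ∈ B)
    (h1 : ∀ a, N a ∈ B → a ∈ δ.range ⊔ B) (h2 : ∀ a, δ a ∈ B → a ∈ δ.ker ⊔ B) :
    (N.range ⊔ B).relIndex δ.ker = p := by
  let π : X →* X ⧸ B := QuotientGroup.mk' B
  have hπ : Function.Surjective π := QuotientGroup.mk'_surjective B
  have hπB : ∀ x, π x = 1 ↔ x ∈ B := fun x => QuotientGroup.eq_one_iff x
  let s' : (X ⧸ B) ≃* (X ⧸ B) := QuotientGroup.congr B B s hB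
  have hs' : ∀ x, s' (π x) = π (s x) := fun x => rfl
  have hsi : ∀ (i : ℕ) x, (s' ^ i) (π x) = π ((s ^ i) x) := by
    intro i
    induction i with
    | zero => intro x; rfl
    | succ i ih =>
      intro x
      rw [pow_succ', pow_succ', MulAut.mul_apply, MulAut.mul_apply, ih, hs']
  have hsB : ∀ x, x ∈ B → s x ∈ B := fun x hx => by
    have : s x ∈ B.map s.toMonoidHom := ⟨x, hx, rfl⟩
    rwa [hB] at this
  have hsiB : ∀ (i : ℕ) x, x ∈ B → (s ^ i) x ∈ B := by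
    intro i
    induction i with
    | zero => intro x hx; exact hx
    | succ i ih =>
      intro x hx
      rw [pow_succ', MulAut.mul_apply]
      exact hsB _ (ih x hx)
  have hNB : B ≤ B.comap N := by
    intro x hx
    rw [Subgroup.mem_comap, hN]
    exact B.prod_mem fun i _ => hsiB i x hx
  have hδB : B ≤ B.comap δ := by
    intro x hx
    rw [Subgroup.mem_comap, hδ]
    exact B.div_mem (hsB x hx) hx
  let N' : (X ⧸ B) →* (X ⧸ B) := QuotientGroup.map B B N hNB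
  let δ' : (X ⧸ B) →* (X ⧸ B) := QuotientGroup.map B B δ hδB
  have hN' : ∀ x, N' (π x) = π (N x) := fun x => rfl
  have hδ' : ∀ x, δ' (π x) = π (δ x) := fun x => rfl
  let φ' : (X ⧸ B) →* Multiplicative ℤ := QuotientGroup.lift B φ hφB
  have hφ' : ∀ x, φ' (π x) = φ x := fun x => rfl
  have hfin' : Finite φ'.ker := by
    refine Set.Finite.subset (hF.image π) ?_
    intro y hy
    obtain ⟨x, rfl⟩ := hπ y
    have hx : φ x = 1 := hy
    obtain ⟨b, hb, hxb⟩ := hfin x hx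
    refine ⟨b, hb, ?_⟩
    rw [← hπB, map_div, div_eq_one] at hxb
    exact hxb.symm
  have key := HA (X ⧸ B) s' p hp (fun a => by
    obtain ⟨x, rfl⟩ := hπ a
    rw [hsi, hs]) φ' (fun a => by
    obtain ⟨x, rfl⟩ := hπ a
    rw [hs', hφ', hφ', hφ]) (π a0) (by rw [hφ']; exact h0) hfin' N' δ' (fun a => by
    obtain ⟨x, rfl⟩ := hπ a
    rw [hN', hN, map_prod]
    exact Finset.prod_congr rfl fun i _ => (hsi i x).symm) (fun a => by
    obtain ⟨x, rfl⟩ := hπ a
    rw [hδ', hδ, map_div, hs'])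
  have e1 : δ'.range.relIndex N'.ker = 1 := by
    rw [Subgroup.relIndex_eq_one]
    intro y hy
    obtain ⟨x, rfl⟩ := hπ y
    rw [MonoidHom.mem_ker, hN', hπB] at hy
    obtain ⟨d, ⟨z, rfl⟩, b, hb, hx⟩ := Subgroup.mem_sup.1 (h1 x hy)
    refine ⟨π z, ?_⟩
    rw [hδ', ← hx, map_mul, (hπB b).2 hb, mul_one]
  have e2 : δ'.ker = δ.ker.map π := by
    ext y
    constructor
    · intro hy
      obtain ⟨x, rfl⟩ := hπ y
      rw [MonoidHom.mem_ker, hδ', hπB] at hy
      obtain ⟨d, hd, b, hb, hx⟩ := Subgroup.mem_sup.1 (h2 x hy)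
      refine ⟨d, hd, ?_⟩
      rw [← hx, map_mul, (hπB b).2 hb, mul_one]
    · rintro ⟨x, hx, rfl⟩
      have hx' : δ x = 1 := hx
      rw [MonoidHom.mem_ker, hδ', hx', map_one]
  have e3 : N'.range.comap π = N.range ⊔ B := by
    ext x
    rw [Subgroup.mem_comap, Subgroup.mem_sup]
    constructor
    · rintro ⟨y, hy⟩
      obtain ⟨z, rfl⟩ := hπ y
      rw [hN'] at hy
      refine ⟨N z, ⟨z, rfl⟩, (N z)⁻¹ * x, ?_, by group⟩
      rw [← hπB, map_mul, map_inv, hy, inv_mul_cancel]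
    · rintro ⟨_, ⟨z, rfl⟩, b, hb, rfl⟩
      exact ⟨π z, by rw [hN', map_mul, (hπB b).2 hb, mul_one]⟩
  rw [e1, mul_one, e2, ← Subgroup.relIndex_comap, e3] at key
  exact key

end Vale.Agent.P011.H167.Ni
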