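import Vale.Agent.P011.H167.NiB
import Vale.Agent.P011.H511.HasseApproxF

/-! # Norms and units outside a finite set of places (helper167) -/

namespace Vale.Agent.P011.H167.Ni

open Module Vale.Agent.P011.H738 Vale.Agent.P011.H271 Vale.Agent.P011.H973.PF Finset

section alg

variable {k E : Type} [Field k] [Field E] [Algebra k E] [FiniteDimensional k E] [IsGalois k E]
  {p : ℕ} {s : E ≃ₐ[k] E}

/-- a generator of the Galois group -/
structure Gn (p : ℕ) (s : E ≃ₐ[k] E) : Prop where
  prime : p.Prime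
  rank : finrank k E = p
  gen : ∀ t : E ≃ₐ[k] E, ∃ i, i < p ∧ t = s ^ i

theorem exists_gn (hp : p.Prime) (hE : finrank k E = p) : ∃ s : E ≃ₐ[k] E, Gn p s := by
  classical
  have hcard : Nat.card (E ≃ₐ[k] E) = p := by rw [IsGalois.card_aut_eq_finrank, hE]
  have : Fact p.Prime := ⟨hp⟩
  have hcyc : IsCyclic (E ≃ₐ[k] E) := isCyclic_of_prime_card hcard
  obtain ⟨s, hs⟩ := hcyc.exists_generator
  refine ⟨s, hp, hE, fun t => ?_⟩
  have ho : orderOf s = p := by rw [orderOf_eq_card_of_forall_mem_zpowers hs, hcard]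
  have h1 := (mem_powers_iff_mem_range_orderOf (x := s) (y := t)).1
    ((mem_powers_iff_mem_zpowers).2 (hs t))
  rw [ho, Finset.mem_image] at h1
  obtain ⟨i, hi, h⟩ := h1
  exact ⟨i, Finset.mem_range.1 hi, h.symm⟩

theorem Gn.inj (G : Gn p s) {i j : ℕ} (hi : i < p) (hj : j < p) (h : s ^ i = s ^ j) : i = j := by
  classical
  have hcard : Nat.card (E ≃ₐ[k] E) = p := by rw [IsGalois.card_aut_eq_finrank, G.rank]
  have hsurj : Function.Surjective fun i : Fin p => s ^ (i : ℕ) := fun t => by
    obtain ⟨i, hi, h⟩ := G.gen t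
    exact ⟨⟨i, hi⟩, h.symm⟩
  have hbij : Function.Bijective fun i : Fin p => s ^ (i : ℕ) := by
    rw [Nat.bijective_iff_surjective_and_card]
    exact ⟨hsurj, by rw [Nat.card_fin, hcard]⟩
  have := hbij.1 (a₁ := ⟨i, hi⟩) (a₂ := ⟨j, hj⟩) h
  exact Fin.mk.inj_iff.1 this

theorem Gn.order (G : Gn p s) : orderOf s = p := by
  have hcard : Nat.card (E ≃ₐ[k] E) = p := by rw [IsGalois.card_aut_eq_finrank, G.rank]
  have h1 : orderOf s ∣ p := by rw [← hcard]; exact orderOf_dvd_natCard s
  rcases (Nat.dvd_prime G.prime).1 h1 with h | h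
  · rw [orderOf_eq_one_iff] at h
    have := G.inj (i := 0) (j := 1) G.prime.pos G.prime.one_lt (by rw [h]; simp)
    omega
  · exact h

theorem Gn.pow (G : Gn p s) : s ^ p = 1 := by
  have := pow_orderOf_eq_one s
  rwa [G.order] at this

theorem Gn.norm (G : Gn p s) (x : E) :
    algebraMap k E (Algebra.norm k x) = ∏ i ∈ range p, (s ^ i) x := by
  classical
  rw [Algebra.norm_eq_prod_automorphisms]
  symm
  refine Finset.prod_bij (fun i _ => s ^ i) (fun i _ => Finset.mem_univ _) ?_ ?_ ?_
  · intro i hi j hj h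
    exact G.inj (Finset.mem_range.1 hi) (Finset.mem_range.1 hj) h
  · intro t _
    obtain ⟨i, hi, h⟩ := G.gen t
    exact ⟨i, Finset.mem_range.2 hi, h.symm⟩
  · intro i _
    rfl

theorem Gn.fixed (G : Gn p s) {x : E} (h : s x = x) : ∃ y : k, algebraMap k E y = x := by
  have h1 : ∀ i : ℕ, (s ^ i) x = x := by
    intro i
    induction i with
    | zero => rfl
    | succ i ih => rw [pow_succ, AlgEquiv.mul_apply, h, ih]
  have h2 : x ∈ Set.range (algebraMap k E) := by
    rw [IsGalois.mem_range_algebraMap_iff_fixed]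
    intro t
    obtain ⟨i, -, rfl⟩ := G.gen t
    exact h1 i
  exact h2

/-- Hilbert 90 -/
theorem Gn.h90 (G : Gn p s) {x : E} (hx : ∏ i ∈ range p, (s ^ i) x = 1) :
    ∃ b : E, b ≠ 0 ∧ s b = x * b := by
  classical
  let β : ℕ → E := fun i => ∏ m ∈ Finset.range i, (s ^ m) x
  have hβ : ∀ i, x * s (β i) = β (i + 1) := by
    intro i
    simp only [β]
    rw [Finset.prod_range_succ', map_prod, pow_zero, mul_comm]
    congr 1
    refine Finset.prod_congr rfl fun m _ => ?_
    rw [pow_succ']
    rfl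
  let T : E → E := fun z => ∑ i ∈ Finset.range p, β i * (s ^ i) z
  have hT : ∀ z, x * s (T z) = T z := by
    intro z
    let F : ℕ → E := fun i => β i * (s ^ i) z
    have h1 : x * s (T z) = ∑ i ∈ Finset.range p, F (i + 1) := by
      simp only [T, F]
      rw [map_sum, Finset.mul_sum]
      refine Finset.sum_congr rfl fun i _ => ?_
      rw [map_mul, ← mul_assoc, hβ, pow_succ']
      rfl
    have h2 : ∑ i ∈ Finset.range p, F (i + 1) + F 0 = ∑ i ∈ Finset.range p, F i + F p := by
      rw [← Finset.sum_range_succ', Finset.sum_range_succ]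
    have h3 : F 0 = F p := by
      simp only [F, β]
      rw [hx, G.pow, pow_zero, Finset.prod_range_zero]
    rw [h3] at h2
    rw [h1]
    exact add_right_cancel h2
  have hinj : Function.Injective fun i : Fin p =>
      (((s ^ (i : ℕ) : E ≃ₐ[k] E) : E →+* E) : E →* E) := by
    intro i j hij
    have h1 : (s ^ (i : ℕ)) = s ^ (j : ℕ) := by
      ext z
      exact DFunLike.congr_fun hij z
    exact Fin.ext (G.inj i.2 j.2 h1)
  have hli := (linearIndependent_monoidHom E E).comp _ hinj
  obtain ⟨z, hz⟩ : ∃ z, T z ≠ 0 := by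
    by_contra hcon
    push Not at hcon
    have h1 := Fintype.linearIndependent_iff.mp hli (fun i : Fin p => β i) (by
      funext z
      have h2 := hcon z
      simp only [T] at h2
      rw [Finset.sum_range] at h2
      simpa only [Function.comp_apply, MonoidHom.coe_coe, RingHom.coe_coe, AlgEquiv.coe_pow,
        Finset.sum_apply, Pi.smul_apply, smul_eq_mul, Pi.zero_apply] using h2) ⟨0, G.prime.pos⟩
    simp only [AlgEquiv.coe_pow, Finset.range_zero, Finset.prod_empty, one_ne_zero, β] at h1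
  refine ⟨(T z)⁻¹, inv_ne_zero hz, ?_⟩
  have h1 := hT z
  have h2 : s (T z) ≠ 0 := by simpa using hz
  rw [map_inv₀]
  field_simp
  rw [mul_comm]
  exact h1.symm

end alg

end Vale.Agent.P011.H167.Ni
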