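import Vale.Agent.P011.H167.NiD
import Vale.Agent.P011.H167.NiC

/-! # Units outside a finite set of places: cohomology (helper167) -/

set_option linter.unusedSectionVars false

namespace Vale.Agent.P011.H167.Ni

open Module Vale.Agent.P011.H738 Vale.Agent.P011.H271 Vale.Agent.P011.H973.PF Finset
open Vale.Agent.P011.H511.FF Vale.Agent.P011.Hey.H63

section

variable {k E : Type} [Field k] [Field E] [Algebra k E]

/-- the units outside `T` -/
def US {K : Type} [Field K] (T : Set (Place K)) : Subgroup Kˣ where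
  carrier := {u | ∀ w, w ∉ T → w.abv (u : K) = 1}
  one_mem' w _ := by rw [Units.val_one, map_one]
  mul_mem' {a b} ha hb w hw := by rw [Units.val_mul, map_mul, ha w hw, hb w hw, one_mul]
  inv_mem' {a} ha w hw := by rw [Units.val_inv_eq_inv_val, map_inv₀, ha w hw, inv_one]

theorem mem_US {K : Type} [Field K] {T : Set (Place K)} {u : Kˣ} :
    u ∈ US T ↔ ∀ w, w ∉ T → w.abv (u : K) = 1 := Iff.rfl

variable (E) in
/-- the places above `S` -/
def ov (S : Finset (Place k)) : Set (Place E) := {w | ∃ v ∈ S, Av' w v}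

theorem ov_finite [GFF k] [GFF E] [FiniteDimensional k E] (S : Finset (Place k)) :
    (ov E S).Finite := by
  have := H511.FF.above_finite (k := k) (K := E) S.finite_toSet
  exact this

theorem mem_ov_iff [GFF k] {S : Finset (Place k)} {w : Place E} {v : Place k} (h : Av' w v) :
    w ∈ ov E S ↔ v ∈ S := by
  constructor
  · rintro ⟨v', hv', h'⟩
    rwa [h.unique h']
  · intro hv
    exact ⟨v, hv, h⟩

theorem conj_mem_ov (s : E ≃ₐ[k] E) (S : Finset (Place k)) (w : Place E) :
    conjP s w ∈ ov E S ↔ w ∈ ov E S := by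
  constructor
  · rintro ⟨v, hv, h⟩
    exact ⟨v, hv, (conjP_av s w v).1 h⟩
  · rintro ⟨v, hv, h⟩
    exact ⟨v, hv, (conjP_av s w v).2 h⟩

/-- the finite set `S` is large -/
structure GoodS (E : Type) [Field E] [Algebra k E] (S : Finset (Place k)) : Prop where
  ne : S.Nonempty
  divE : ∀ f : Place E → Eˣ, {w : Place E | w.abv (f w : E) ≠ 1}.Finite →
    ∃ t : Eˣ, ∀ w, w ∉ ov E S → w.abv (t : E) = w.abv (f w : E)
  divk : ∀ f : Place k → kˣ, {v : Place k | v.abv (f v : k) ≠ 1}.Finite →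
    ∃ t : kˣ, ∀ v, v ∉ S → v.abv (t : k) = v.abv (f v : k)
  unr : ∀ v, v ∉ S → ∀ w : Place E, Av' w v → ∀ x : Eˣ, ∃ y : kˣ,
    w.abv (x : E) = w.abv (algebraMap k E y)
  loc : ∀ v, v ∉ S → ∀ c : k, v.abv c = 1 → LocN E c v

/-- transitivity on the places above a place -/
def Tr (s : E ≃ₐ[k] E) : Prop := ∀ (v : Place k) (w w' : Place E), Av' w v → Av' w' v →
  ∃ i : ℕ, ∀ x, w'.abv x = w.abv ((s ^ i) x)

/-- almost all places are unramified -/
def Un (k E : Type) [Field k] [Field E] [Algebra k E] : Prop :=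
  {v : Place k | ¬ ((∀ w : Place E, Av' w v → ∀ x : Eˣ, ∃ y : kˣ,
    w.abv (x : E) = w.abv (algebraMap k E y)) ∧ ∀ c : k, v.abv c = 1 → LocN E c v)}.Finite

theorem exists_good [GFF k] [GFF E] [FiniteDimensional k E] (hU : Un k E) :
    ∃ S0 : Finset (Place k), ∀ S, S0 ⊆ S → GoodS E S := by
  classical
  obtain ⟨T1, hT1, h1⟩ := exists_div E
  obtain ⟨S1, hS1, h2⟩ := exists_div k
  obtain ⟨v0⟩ := Hey.nonempty_place k
  choose be hbe using fun w : Place E => below_av (k := k) w
  have hfin : ({v0} ∪ be '' T1 ∪ S1 ∪ {v : Place k | ¬ ((∀ w : Place E, Av' w v → ∀ x : Eˣ,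
      ∃ y : kˣ, w.abv (x : E) = w.abv (algebraMap k E y)) ∧
        ∀ c : k, v.abv c = 1 → LocN E c v)}).Finite :=
    (((Set.finite_singleton v0).union (hT1.image be)).union hS1).union hU
  refine ⟨hfin.toFinset, fun S hS => ?_⟩
  have hmem : ∀ v, v ∉ S → v ≠ v0 ∧ v ∉ be '' T1 ∧ v ∉ S1 ∧
      ((∀ w : Place E, Av' w v → ∀ x : Eˣ,
        ∃ y : kˣ, w.abv (x : E) = w.abv (algebraMap k E y)) ∧
        ∀ c : k, v.abv c = 1 → LocN E c v) := by
    intro v hv
    have h3 : v ∉ hfin.toFinset := fun h => hv (hS h)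
    rw [Set.Finite.mem_toFinset] at h3
    simp only [Set.mem_union, Set.mem_singleton_iff, not_or, Set.mem_ofPred_eq, not_not] at h3
    exact ⟨h3.1.1.1, h3.1.1.2, h3.1.2, h3.2⟩
  refine ⟨⟨v0, ?_⟩, fun f hf => ?_, fun f hf => ?_, fun v hv => (hmem v hv).2.2.2.1,
    fun v hv => (hmem v hv).2.2.2.2⟩
  · by_contra h
    exact (hmem v0 h).1 rfl
  · obtain ⟨t, ht⟩ := h1 f hf
    refine ⟨t, fun w hw => ht w fun hwT => hw ?_⟩
    by_contra hcon
    have hb : be w ∉ S := fun h => hw ⟨be w, h, hbe w⟩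
    exact (hmem _ hb).2.1 ⟨w, hwT, rfl⟩
  · obtain ⟨t, ht⟩ := h2 f hf
    exact ⟨t, fun v hv => ht v (hmem v hv).2.2.1⟩

end

section coh

variable {k E : Type} [Field k] [GFF k] [Field E] [GFF E] [Algebra k E] [FiniteDimensional k E]
  [IsGalois k E] {p : ℕ} {s : E ≃ₐ[k] E} {S : Finset (Place k)}

/-- the inclusion of the base field -/
noncomputable def inc (k E : Type) [Field k] [Field E] [Algebra k E] : kˣ →* Eˣ :=
  Units.map (algebraMap k E).toMonoidHom

theorem inc_val (x : kˣ) : ((inc k E x : Eˣ) : E) = algebraMap k E (x : k) := rfl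

/-- partial norms -/
noncomputable def pnu (s : E ≃ₐ[k] E) (b : Eˣ) (j : ℕ) : Eˣ :=
  ∏ i ∈ range j, Units.map ((s ^ i : E ≃ₐ[k] E) : E →* E) b

theorem pnu_val (b : Eˣ) (j : ℕ) : ((pnu s b j : Eˣ) : E) = ∏ i ∈ range j, (s ^ i) (b : E) := by
  rw [pnu, Units.coe_prod]
  rfl

theorem pnu_succ (b : Eˣ) (j : ℕ) : (b : E) * s (pnu s b j : E) = pnu s b (j + 1) := by
  rw [pnu_val, pnu_val, Finset.prod_range_succ', map_prod, mul_comm, pow_zero]
  congr 1
  refine Finset.prod_congr rfl fun i _ => ?_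
  rw [pow_succ']
  rfl

/-- units which are norms are norms of units -/
theorem norm_unit (G : Gn p s) (hS : GoodS E S) (b : Eˣ)
    (hb : ∀ v, v ∉ S → v.abv (Algebra.norm k (b : E)) = 1) :
    ∃ t : Eˣ, ∀ w, w ∉ ov E S → w.abv ((b : E) * s (t : E) * (t : E)⁻¹) = 1 := by
  classical
  have hp : (range p).Nonempty := ⟨0, Finset.mem_range.2 G.prime.pos⟩
  choose j hj hmax using fun w : Place E => Finset.exists_max_image (range p)
    (fun j => w.abv (pnu s b j : E)) hp
  obtain ⟨t, ht⟩ := hS.divE (fun w => pnu s b (j w)) (by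
    refine (Set.Finite.biUnion (range p).finite_toSet fun i _ =>
      place_finite (pnu s b i).ne_zero).subset fun w hw => ?_
    exact Set.mem_biUnion (hj w) hw)
  refine ⟨t, fun w hw => ?_⟩
  have hw' : conjP s w ∉ ov E S := fun h => hw ((conj_mem_ov s S w).1 h)
  have e1 : w.abv (t : E) = w.abv (pnu s b (j w) : E) := ht w hw
  have e2 : w.abv (s (t : E)) = w.abv (s (pnu s b (j (conjP s w)) : E)) := ht (conjP s w) hw'
  have h1 : w.abv (pnu s b p : E) = 1 := by
    obtain ⟨v, hv⟩ := below_av (k := k) w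
    have hvS : v ∉ S := fun h => hw ⟨v, h, hv⟩
    rw [pnu_val, ← G.norm]
    exact (hv.eq_one _).2 (hb v hvS)
  have h0 : w.abv (pnu s b 0 : E) = 1 := by
    rw [pnu_val, Finset.prod_range_zero, map_one]
  have hle1 : w.abv (b : E) * w.abv (s (pnu s b (j (conjP s w)) : E)) ≤
      w.abv (pnu s b (j w) : E) := by
    rw [← map_mul, pnu_succ]
    have h2 := Finset.mem_range.1 (hj (conjP s w))
    rcases Nat.lt_or_ge (j (conjP s w) + 1) p with h | h
    · exact hmax w _ (Finset.mem_range.2 h)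
    · have h3 : j (conjP s w) + 1 = p := by omega
      rw [h3, h1, ← h0]
      exact hmax w _ (Finset.mem_range.2 G.prime.pos)
  have hle2 : w.abv (pnu s b (j w) : E) ≤
      w.abv (b : E) * w.abv (s (pnu s b (j (conjP s w)) : E)) := by
    obtain ⟨i, hi, he⟩ : ∃ i, i < p ∧ w.abv (pnu s b (j w) : E) =
        w.abv (b : E) * w.abv (s (pnu s b i : E)) := by
      rcases Nat.eq_zero_or_pos (j w) with h | h
      · refine ⟨p - 1, Nat.sub_lt G.prime.pos one_pos, ?_⟩
        have h3 : p - 1 + 1 = p := Nat.sub_add_cancel G.prime.pos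
        rw [← map_mul, pnu_succ, h3, h, h0, h1]
      · refine ⟨j w - 1, ?_, ?_⟩
        · have := Finset.mem_range.1 (hj w)
          omega
        · have h3 : j w - 1 + 1 = j w := Nat.sub_add_cancel h
          rw [← map_mul, pnu_succ, h3]
    rw [he]
    refine mul_le_mul_of_nonneg_left ?_ (w.abv.nonneg _)
    exact hmax (conjP s w) i (Finset.mem_range.2 hi)
  rw [map_mul, map_mul, map_inv₀, e1, e2, le_antisymm hle1 hle2,
    mul_inv_cancel₀ (w.abv.pos (pnu s b (j w)).ne_zero).ne']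

/-- Hilbert 90 for units -/
theorem h90_unit (G : Gn p s) (hT : Tr s) (hS : GoodS E S) {u : Eˣ} (hu : u ∈ US (ov E S))
    (hn : Algebra.norm k (u : E) = 1) :
    ∃ t ∈ US (ov E S), s (t : E) = (u : E) * (t : E) := by
  classical
  obtain ⟨b, hb0, hb⟩ := G.h90 (x := (u : E)) (by rw [← G.norm, hn, map_one])
  choose ab hab using fun v : Place k => exists_aboveF (E := E) v
  have hinj : Function.Injective ab := by
    intro v v' h
    have h3 := hab v'
    rw [← h] at h3
    exact (hab v).unique h3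
  have hval : ∀ w : Place E, w ∉ ov E S → w.abv (s b) = w.abv b := by
    intro w hw
    rw [hb, map_mul, hu w hw, one_mul]
  have hvali : ∀ (i : ℕ) (w : Place E), w ∉ ov E S → w.abv ((s ^ i) b) = w.abv b := by
    intro i
    induction i with
    | zero => intro w _; rfl
    | succ i ih =>
      intro w hw
      have h1 := ih (conjP s w) fun h => hw ((conj_mem_ov s S w).1 h)
      rw [conjP_abv, conjP_abv] at h1
      rw [pow_succ', AlgEquiv.mul_apply, h1, hval w hw]
  have habS : ∀ v, v ∉ S → ab v ∉ ov E S := fun v hv h => hv ((mem_ov_iff (hab v)).1 h)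
  have hf : ∀ v : Place k, ∃ y : kˣ, v ∉ S →
      (ab v).abv b = (ab v).abv (algebraMap k E y) := by
    intro v
    by_cases hv : v ∈ S
    · exact ⟨1, fun h => absurd hv h⟩
    · obtain ⟨y, hy⟩ := hS.unr v hv (ab v) (hab v) (Units.mk0 b hb0)
      exact ⟨y, fun _ => hy⟩
  choose f hf using hf
  let f' : Place k → kˣ := fun v => if v ∈ S then 1 else f v
  obtain ⟨a, ha⟩ := hS.divk f' (by
    refine ((place_finite hb0).preimage hinj.injOn).subset fun v hv => ?_
    by_cases hvS : v ∈ S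
    · simp only [f', if_pos hvS, Units.val_one, map_one, Set.mem_ofPred_eq, ne_eq,
        not_true] at hv
    · intro h
      apply hv
      change v.abv ((if v ∈ S then (1 : kˣ) else f v : kˣ) : k) = 1
      rw [if_neg hvS]
      have h' : (ab v).abv b = 1 := h
      rw [hf v hvS] at h'
      exact ((hab v).eq_one _).1 h')
  refine ⟨Units.mk0 b hb0 / inc k E a, fun w hw => ?_, ?_⟩
  · obtain ⟨v, hv⟩ := below_av (k := k) w
    have hvS : v ∉ S := fun h => hw ⟨v, h, hv⟩
    obtain ⟨i, hi⟩ := hT v (ab v) w (hab v) hv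
    have e1 : w.abv b = (ab v).abv b := by rw [hi, hvali i _ (habS v hvS)]
    have e2 : w.abv (algebraMap k E a) = (ab v).abv (algebraMap k E a) := by
      rw [hi, AlgEquiv.commutes]
    have e3 : (ab v).abv (algebraMap k E a) = (ab v).abv (algebraMap k E (f v)) := by
      have h4 := ha v hvS
      simp only [f', if_neg hvS] at h4
      obtain ⟨c, -, hc⟩ := ab_of_av (hab v)
      rw [hc, hc, h4]
    rw [Units.val_div_eq_div_val, Units.val_mk0, inc_val, map_div₀, e1, e2, e3, hf v hvS]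
    exact div_self ((ab v).abv.pos ((map_ne_zero _).2 (f v).ne_zero)).ne'
  · rw [Units.val_div_eq_div_val, Units.val_mk0, inc_val, map_div₀, AlgEquiv.commutes, hb,
      mul_div_assoc]

end coh

end Vale.Agent.P011.H167.Ni
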