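import Vale.Agent.P011.H167.NiE

/-! # The norm index of a cyclic extension of prime degree of a global function field
(helper167) -/

set_option linter.unusedSectionVars false

namespace Vale.Agent.P011.H167.Ni

open Module Vale.Agent.P011.H738 Vale.Agent.P011.H271 Vale.Agent.P011.H973.PF Finset
open Vale.Agent.P011.H511.FF Vale.Agent.P011.Hey.H63

section aux

variable {k E : Type} [Field k] [GFF k] [Field E] [GFF E] [Algebra k E] [FiniteDimensional k E]

/-- small above is small below -/
theorem exists_eps (S : Finset (Place k)) (δ : Place k → ℝ) (hδ : ∀ v, 0 < δ v) :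
    ∃ ε : ℝ, 0 < ε ∧ ε ≤ 1 ∧ ∀ v ∈ S, ∀ y : k,
      (∀ w : Place E, Av' w v → w.abv (algebraMap k E y) < ε) → v.abv y < δ v := by
  classical
  choose ab hab using fun v : Place k => exists_aboveF (E := E) v
  choose c hc hc' using fun v : Place k => ab_of_av (hab v)
  obtain ⟨m, hm, hm'⟩ := exists_lb S (fun v => δ v ^ c v) fun v _ => Real.rpow_pos_of_pos (hδ v) _
  refine ⟨min m 1, lt_min hm one_pos, min_le_right _ _, fun v hv y hy => ?_⟩
  have h1 := hy (ab v) (hab v)
  rw [hc'] at h1
  have h2 := h1.trans_le ((min_le_left _ _).trans (hm' v hv))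
  exact (Real.rpow_lt_rpow_iff (v.abv.nonneg _) (hδ v).le (hc v)).1 h2

/-- small below is small above -/
theorem exists_eta (S : Finset (Place k)) {δ : ℝ} (hδ : 0 < δ) :
    ∃ η : ℝ, 0 < η ∧ ∀ v ∈ S, ∀ y : k, v.abv y < η → ∀ w : Place E, Av' w v →
      w.abv (algebraMap k E y) < δ := by
  classical
  choose be hbe using fun w : Place E => below_av (k := k) w
  choose c hc hc' using fun w : Place E => ab_of_av (hbe w)
  obtain ⟨m, hm, hm'⟩ := exists_lb (ov_finite (E := E) S).toFinset (fun w => δ ^ (c w)⁻¹)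
    fun w _ => Real.rpow_pos_of_pos hδ _
  refine ⟨m, hm, fun v hv y hy w hw => ?_⟩
  obtain rfl := hw.unique (hbe w)
  have h1 := hy.trans_le (hm' w ((ov_finite S).mem_toFinset.2 ⟨_, hv, hw⟩))
  rw [hc']
  have h2 := Real.rpow_lt_rpow ((be w).abv.nonneg y) h1 (hc w)
  rwa [← Real.rpow_mul hδ.le, inv_mul_cancel₀ (hc w).ne', Real.rpow_one] at h2

/-- elements which are small at finitely many places -/
theorem exists_small_all {K : Type} [Field K] [GFF K] (T : Finset (Place K)) :
    ∃ x : Kˣ, ∀ w ∈ T, w.abv (x : K) < 1 := by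
  classical
  rcases T.eq_empty_or_nonempty with rfl | ⟨v0, hv0⟩
  · exact ⟨1, fun w hw => absurd hw (Finset.notMem_empty _)⟩
  choose π hπ using fun v : Place K => H73.Sp.exists_lt_one v
  obtain ⟨x, hx⟩ := H73.Sp.approx_set T.finite_toSet (fun v => (π v : K))
    (fun v => v.abv (π v : K)) fun v => v.abv.pos (π v).ne_zero
  have h1 : ∀ v ∈ T, v.abv x = v.abv (π v : K) := by
    intro v hv
    have e : x = (π v : K) + (x - π v) := by ring
    have := H73.Sp.add_eq_left v (x := (π v : K)) (y := x - π v) (hx v hv)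
    rwa [← e] at this
  have h0 : x ≠ 0 := by
    intro h
    have := h1 v0 hv0
    rw [h, map_zero] at this
    exact (v0.abv.pos (π v0).ne_zero).ne this
  refine ⟨Units.mk0 x h0, fun w hw => ?_⟩
  rw [Units.val_mk0, h1 w hw]
  exact hπ w

/-- an `S`-unit near one is one -/
theorem eq_one_of {S : Finset (Place k)} (hS : S.Nonempty) {x : Eˣ} (hx : x ∈ US (ov E S))
    (h1 : ∀ v ∈ S, ∀ w : Place E, Av' w v → w.abv ((x : E) - 1) < 1) : x = 1 := by
  classical
  by_contra hne
  have h0 : (x : E) - 1 ≠ 0 := by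
    intro h
    apply hne
    ext
    rw [sub_eq_zero] at h
    rw [h, Units.val_one]
  set T : Finset (Place E) := (ov_finite S).toFinset ∪ (place_finite h0).toFinset with hT
  obtain ⟨v, hv⟩ := hS
  obtain ⟨w0, hw0⟩ := exists_aboveF (E := E) v
  have h2 := prod_one (T := T) (u := Units.mk0 _ h0) fun w hw => by
    by_contra hcon
    apply hw
    rw [hT, Finset.mem_union]
    right
    rw [Set.Finite.mem_toFinset]
    exact hcon
  have hle : ∀ w : Place E, w.abv ((x : E) - 1) ≤ 1 := by
    intro w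
    by_cases hw : w ∈ ov E S
    · obtain ⟨v', hv', h'⟩ := hw
      exact (h1 v' hv' w h').le
    · rw [sub_eq_add_neg]
      refine (w.nonarch _ _).trans (max_le (hx w hw).le ?_)
      rw [AbsoluteValue.map_neg, map_one]
  have hlt : w0.abv ((x : E) - 1) < 1 := h1 v hv w0 hw0
  have hw0T : w0 ∈ T := by
    rw [hT, Finset.mem_union]
    left
    rw [Set.Finite.mem_toFinset]
    exact ⟨v, hv, hw0⟩
  have h3 : ∏ w ∈ T, w.abv ((Units.mk0 _ h0 : Eˣ) : E) < 1 := by
    rw [← Finset.mul_prod_erase T _ hw0T]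
    have h4 : ∏ w ∈ T.erase w0, w.abv ((Units.mk0 _ h0 : Eˣ) : E) ≤ 1 :=
      Finset.prod_le_one (fun w _ => w.abv.nonneg _) fun w _ => hle w
    have h5 : 0 ≤ ∏ w ∈ T.erase w0, w.abv ((Units.mk0 _ h0 : Eˣ) : E) :=
      Finset.prod_nonneg fun w _ => w.abv.nonneg _
    calc w0.abv ((Units.mk0 _ h0 : Eˣ) : E) * _ ≤ w0.abv ((Units.mk0 _ h0 : Eˣ) : E) * 1 :=
          mul_le_mul_of_nonneg_left h4 (w0.abv.nonneg _)
      _ = w0.abv ((x : E) - 1) := mul_one _
      _ < 1 := hlt
  exact h3.ne h2

end aux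

section

variable {k E : Type} [Field k] [GFF k] [Field E] [GFF E] [Algebra k E] [FiniteDimensional k E]
  [IsGalois k E] {p : ℕ} {s : E ≃ₐ[k] E} {S : Finset (Place k)}

/-- (V) a small cohomologically trivial neighbourhood of one -/
def LV (s : E ≃ₐ[k] E) : Prop := ∀ (S : Finset (Place k)) (ε : ℝ), 0 < ε → ∃ V : Subgroup Eˣ,
  (∀ x ∈ V, ∀ v ∈ S, ∀ w : Place E, Av' w v → w.abv ((x : E) - 1) < ε) ∧
  (∃ δ > 0, ∀ x : Eˣ, (∀ v ∈ S, ∀ w : Place E, Av' w v → w.abv ((x : E) - 1) < δ) → x ∈ V) ∧
  (∀ x ∈ V, Units.map (s : E →* E) x ∈ V) ∧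
  (∀ x : kˣ, inc k E x ∈ V → ∀ η > 0, ∃ y ∈ V, ∀ v ∈ S,
    v.abv ((x : k) / Algebra.norm k (y : E) - 1) < η) ∧
  (∀ a : Eˣ, Units.map (s : E →* E) a / a ∈ V → ∃ b : kˣ, a / inc k E b ∈ V)

variable (k E) in
/-- (X) norms near one are norms of elements near one -/
def LX : Prop := ∀ (S : Finset (Place k)) (ε : ℝ), 0 < ε → ∃ δ > 0, ∀ e0 : Eˣ,
  (∀ v ∈ S, v.abv (Algebra.norm k (e0 : E) - 1) < δ) → ∃ e1 : Eˣ,
    Algebra.norm k (e1 : E) = Algebra.norm k (e0 : E) ∧
      ∀ v ∈ S, ∀ w : Place E, Av' w v → w.abv ((e1 : E) - 1) < ε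

variable (k E) in
/-- (L) local norms are close to global norms -/
def LL : Prop := ∀ (S : Finset (Place k)) (x : kˣ), (∀ v ∈ S, LocN E (x : k) v) → ∀ ε > 0,
  ∃ e : Eˣ, ∀ v ∈ S, v.abv (Algebra.norm k (e : E) / (x : k) - 1) < ε

variable (k E) in
/-- (L2) elements near one are local norms -/
def LO : Prop := ∀ v : Place k, ∃ δ > 0, ∀ x : k, v.abv (x - 1) < δ → LocN E x v

variable (E) in
/-- the products of a unit outside `S` and an element which is a local norm at `S` -/
def HS (S : Finset (Place k)) : Subgroup kˣ where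
  carrier := {x | ∃ u ∈ US (S : Set (Place k)), ∀ v ∈ S, LocN E ((x / u : kˣ) : k) v}
  one_mem' := ⟨1, one_mem _, fun v _ => by
    rw [div_one, Units.val_one]
    have := LocN.of_norm (k := k) (1 : E) v
    rwa [map_one] at this⟩
  mul_mem' := by
    rintro a b ⟨u, hu, h⟩ ⟨u', hu', h'⟩
    refine ⟨u * u', mul_mem hu hu', fun v hv => ?_⟩
    have := (h v hv).mul (h' v hv)
    rwa [← Units.val_mul, div_mul_div_comm] at this
  inv_mem' := by
    rintro a ⟨u, hu, h⟩
    refine ⟨u⁻¹, inv_mem hu, fun v hv => ?_⟩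
    have := (h v hv).inv
    rwa [← Units.val_inv_eq_inv_val, inv_div, ← inv_div_inv] at this

/-- the automorphism of the units -/
noncomputable def sg (s : E ≃ₐ[k] E) : Eˣ ≃* Eˣ := Units.mapEquiv (s : E ≃* E)

theorem sg_val (x : Eˣ) : ((sg s x : Eˣ) : E) = s (x : E) := rfl

theorem sg_pow_val (i : ℕ) (x : Eˣ) : (((sg s ^ i) x : Eˣ) : E) = (s ^ i) (x : E) := by
  induction i generalizing x with
  | zero => rfl
  | succ i ih => rw [pow_succ, pow_succ, MulAut.mul_apply, AlgEquiv.mul_apply, ih, sg_val]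

/-- the norm -/
noncomputable def nm (p : ℕ) (s : E ≃ₐ[k] E) : Eˣ →* Eˣ :=
  ∏ i ∈ range p, (sg s ^ i : Eˣ ≃* Eˣ).toMonoidHom

theorem nm_apply (x : Eˣ) : nm p s x = ∏ i ∈ range p, (sg s ^ i) x := by
  rw [nm, MonoidHom.finsetProd_apply]
  rfl

theorem Gn.nm_val (G : Gn p s) (x : Eˣ) :
    ((nm p s x : Eˣ) : E) = algebraMap k E (Algebra.norm k (x : E)) := by
  rw [nm_apply, G.norm, Units.coe_prod]
  exact Finset.prod_congr rfl fun i _ => sg_pow_val i x

/-- the difference -/
noncomputable def dl (s : E ≃ₐ[k] E) : Eˣ →* Eˣ := (sg s).toMonoidHom / MonoidHom.id Eˣ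

theorem dl_apply (x : Eˣ) : dl s x = sg s x / x := rfl

theorem Gn.fix (G : Gn p s) {x : Eˣ} (h : sg s x = x) : ∃ y : kˣ, inc k E y = x := by
  obtain ⟨y, hy⟩ := G.fixed (x := (x : E)) (by rw [← sg_val, h])
  have hy0 : y ≠ 0 := by
    rintro rfl
    rw [map_zero] at hy
    exact x.ne_zero hy.symm
  exact ⟨Units.mk0 y hy0, Units.ext hy⟩

theorem sg_inc (y : kˣ) : sg s (inc k E y) = inc k E y := by
  ext
  rw [sg_val, inc_val, AlgEquiv.commutes]

/-- the degree at the places above `S` -/
noncomputable def ph (E : Type) [Field E] [GFF E] (T : Finset (Place E)) :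
    Eˣ →* Multiplicative ℤ where
  toFun a := Multiplicative.ofAdd (lc (sy E) T a).deg
  map_one' := by
    rw [deg_lc]
    simp only [io_one, mul_zero, Finset.sum_const_zero, ofAdd_zero]
  map_mul' a b := by
    rw [deg_lc, deg_lc, deg_lc, ← ofAdd_add, ← Finset.sum_add_distrib]
    congr 1
    refine Finset.sum_congr rfl fun w _ => ?_
    rw [io_mul, mul_add]

theorem ph_eq_iff (T : Finset (Place E)) (a b : Eˣ) : ph E T a = ph E T b ↔
    ∏ w ∈ T, w.abv (a : E) = ∏ w ∈ T, w.abv (b : E) := by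
  have h1 : (1 : ℝ) < ringChar E := by exact_mod_cast (H279.locFacts E 1).char_gt
  rw [prod_abv, prod_abv]
  constructor
  · intro h
    have h2 : (lc (sy E) T a).deg = (lc (sy E) T b).deg := Multiplicative.ofAdd.injective h
    rw [h2]
  · intro h
    have h2 := (zpow_right_injective₀ (by linarith) h1.ne') h
    change Multiplicative.ofAdd _ = Multiplicative.ofAdd _
    rw [h2]

theorem ph_one_iff (T : Finset (Place E)) (a : Eˣ) : ph E T a = 1 ↔
    ∏ w ∈ T, w.abv (a : E) = 1 := by
  rw [← map_one (ph E T), ph_eq_iff]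
  simp only [Units.val_one, map_one, Finset.prod_const_one]

theorem ph_sg (S : Finset (Place k)) (a : Eˣ) :
    ph E (ov_finite S).toFinset (sg s a) = ph E (ov_finite S).toFinset a := by
  classical
  rw [ph_eq_iff]
  set T := (ov_finite (E := E) S).toFinset with hT
  have hinj : Function.Injective (conjP s : Place E → Place E) := by
    intro w w' h
    refine place_ext' fun x => ?_
    obtain ⟨y, rfl⟩ := s.surjective x
    rw [← conjP_abv, ← conjP_abv, h]
  have himg : T.image (conjP s) = T := by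
    refine Finset.eq_of_subset_of_card_le ?_ ?_
    · intro w hw
      obtain ⟨w', hw', rfl⟩ := Finset.mem_image.1 hw
      rw [hT, Set.Finite.mem_toFinset] at hw' ⊢
      exact (conj_mem_ov s S w').2 hw'
    · rw [Finset.card_image_of_injective _ hinj]
  calc ∏ w ∈ T, w.abv ((sg s a : Eˣ) : E) = ∏ w ∈ T, (conjP s w).abv (a : E) := rfl
    _ = ∏ w ∈ T.image (conjP s), w.abv (a : E) :=
        (Finset.prod_image (f := fun w : Place E => w.abv (a : E))
          (fun x _ y _ h => hinj h)).symm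
    _ = _ := by rw [himg]

theorem norm_div_val (a b : Eˣ) : Algebra.norm k ((a / b : Eˣ) : E) =
    Algebra.norm k (a : E) / Algebra.norm k (b : E) := by
  have h : Algebra.norm k (b : E) ≠ 0 := Algebra.norm_ne_zero_iff.2 b.ne_zero
  rw [eq_div_iff h, ← map_mul, ← Units.val_mul, div_mul_cancel]

theorem mul_aux (A B C : Eˣ) : A * ((A / (B / C))⁻¹ * C) = B := by
  apply Units.ext
  push_cast
  field_simp

/-- **the norm index** -/
theorem index_HS (HA : HerbS) (G : Gn p s) (hT : Tr s) (hV : LV s) (hX : LX k E) (hL : LL k E)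
    (hO : LO k E) (hS : GoodS E S) : (HS E S).index = p := by
  classical
  have hp := G.prime
  -- radii
  choose δO hδO hO using hO
  obtain ⟨ε, hε, hε1, hεS⟩ := exists_eps (E := E) S δO hδO
  obtain ⟨V, V1, ⟨δ, hδ, V2⟩, V3, V4, V5⟩ := hV S ε hε
  obtain ⟨η, hη, hηS⟩ := exists_eta (E := E) S hδ
  set T := (ov_finite (E := E) S).toFinset with hTdef
  have hTmem : ∀ w, w ∈ T ↔ w ∈ ov E S := fun w => by rw [hTdef, Set.Finite.mem_toFinset]
  set U : Subgroup Eˣ := US (ov E S) with hU
  have hVU : ∀ x, x ∈ V → x ∈ U → x = 1 := fun x hxV hxU =>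
    eq_one_of hS.ne hxU fun v hv w hw => (V1 x hxV v hv w hw).trans_le hε1
  have hVs : ∀ x ∈ V, sg s x ∈ V := V3
  have hUs : ∀ x ∈ U, sg s x ∈ U := by
    intro x hx w hw
    exact hx (conjP s w) fun h => hw ((conj_mem_ov s S w).1 h)
  have hsp : ∀ a : Eˣ, (sg s ^ p) a = a := by
    intro a
    ext
    rw [sg_pow_val, G.pow]
    rfl
  -- decomposition of the elements of the base field
  have hdec : ∀ (x : kˣ) (v u : Eˣ), v ∈ V → u ∈ U → inc k E x = v * u →
      ∃ v' u' : kˣ, inc k E v' = v ∧ inc k E u' = u ∧ x = v' * u' ∧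
        u' ∈ US (S : Set (Place k)) ∧ ∀ w ∈ S, LocN E (v' : k) w := by
    intro x v u hv hu hx
    have h1 : sg s v * sg s u = v * u := by
      rw [← map_mul, ← hx, sg_inc]
    have h2 : sg s v / v = u / sg s u := by
      rw [div_eq_div_iff_mul_eq_mul, h1, mul_comm]
    have h3 : sg s v / v = 1 := hVU _ (V.div_mem (hVs v hv) hv) (by
      rw [h2]
      exact U.div_mem hu (hUs u hu))
    have h4 : sg s v = v := div_eq_one.1 h3
    have h5 : sg s u = u := by
      rw [h3] at h2
      exact (div_eq_one.1 h2.symm).symm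
    obtain ⟨v', hv'⟩ := G.fix h4
    obtain ⟨u', hu'⟩ := G.fix h5
    refine ⟨v', u', hv', hu', ?_, fun y hy => ?_, fun w hw => ?_⟩
    · have h6 : inc k E x = inc k E (v' * u') := by rw [map_mul, hv', hu', hx]
      apply Units.ext
      exact (algebraMap k E).injective (congrArg Units.val h6)
    · obtain ⟨W, hW⟩ := exists_aboveF (E := E) y
      have h6 := hu W fun h => hy ((mem_ov_iff hW).1 h)
      rw [← hu', inc_val] at h6
      exact (hW.eq_one _).1 h6
    · refine hO w _ (hεS w hw _ fun W hW => ?_)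
      have h6 := V1 v hv w hw W hW
      rw [← hv', inc_val] at h6
      rwa [map_sub, map_one]
  have hTne : T.Nonempty := by
    obtain ⟨v, hv⟩ := hS.ne
    obtain ⟨w, hw⟩ := exists_aboveF (E := E) v
    exact ⟨w, (hTmem w).2 ⟨v, hv, hw⟩⟩
  -- an element of nonzero degree
  obtain ⟨a0, ha0⟩ := exists_small_all T
  have ha0' : ph E T a0 ≠ 1 := by
    intro h
    rw [ph_one_iff] at h
    have h4 := Finset.prod_lt_prod_of_nonempty (s := T)
      (f := fun w : Place E => w.abv (a0 : E)) (g := fun _ => 1)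
      (fun w _ => w.abv.pos a0.ne_zero) ha0 hTne
    rw [Finset.prod_const_one] at h4
    exact h4.ne h
  -- finiteness
  obtain ⟨F1, hF1, hF1'⟩ := exists_cls_fin hTne
  have hε' : (0 : ℝ) < min δ 1 / 2 := by
    have := lt_min hδ one_pos
    linarith
  have hε1' : min δ 1 / 2 < 1 := by
    have := min_le_right δ 1
    linarith
  have hεδ : min δ 1 / 2 < δ := by
    have := min_le_left δ 1
    linarith
  obtain ⟨F2, hF2, hF2'⟩ := exists_res_fin T hε'
  set F : Set Eˣ := Set.image2 (fun b y => b * y) F1 {y : Eˣ | (y : E) ∈ F2} with hFdef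
  have hF : F.Finite := hF1.image2 _ (hF2.preimage Units.val_injective.injOn)
  have hfin : ∀ a, ph E T a = 1 → ∃ b ∈ F, a / b ∈ V ⊔ U := by
    intro a ha
    rw [ph_one_iff] at ha
    obtain ⟨b, hb, u, hu, hau⟩ := hF1' a ha
    have hx : ∀ w ∈ T, w.abv ((a / (b * u) : Eˣ) : E) = 1 := by
      intro w hw
      rw [Units.val_div_eq_div_val, map_div₀, hau w hw, Units.val_mul]
      exact div_self (w.abv.pos (mul_ne_zero b.ne_zero u.ne_zero)).ne'
    obtain ⟨y, hy, hxy⟩ := hF2' _ fun w hw => (hx w hw).le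
    have hy1 : ∀ w ∈ T, w.abv y = 1 := by
      intro w hw
      have e : y = ((a / (b * u) : Eˣ) : E) + -(((a / (b * u) : Eˣ) : E) - y) := by ring
      have h3 := H73.Sp.add_eq_left w (x := ((a / (b * u) : Eˣ) : E))
        (y := -(((a / (b * u) : Eˣ) : E) - y)) (by
          rw [AbsoluteValue.map_neg, hx w hw]
          exact (hxy w hw).trans_lt hε1')
      rw [← e, hx w hw] at h3
      exact h3
    have hy0 : y ≠ 0 := by
      obtain ⟨w, hw⟩ := hTne
      intro h
      have := hy1 w hw
      rw [h, map_zero] at this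
      exact zero_ne_one this
    have hV' : a / (b * u) / Units.mk0 y hy0 ∈ V := by
      refine V2 _ fun v hv w hw => ?_
      have hwT : w ∈ T := (hTmem w).2 ⟨v, hv, hw⟩
      have e : ((a / (b * u) / Units.mk0 y hy0 : Eˣ) : E) - 1 =
          (((a / (b * u) : Eˣ) : E) - y) / y := by
        rw [Units.val_div_eq_div_val (a / (b * u)), Units.val_mk0, sub_div, div_self hy0]
      rw [e, map_div₀, hy1 w hwT, div_one]
      exact (hxy w hwT).trans_lt hεδ
    have hU' : u ∈ U := fun w hw => hu w fun h => hw ((hTmem w).1 h)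
    refine ⟨b * Units.mk0 y hy0, ⟨b, hb, Units.mk0 y hy0, hy, rfl⟩, ?_⟩
    have e : a / (b * Units.mk0 y hy0) = (a / (b * u) / Units.mk0 y hy0) * u := by
      apply Units.ext
      push_cast
      field_simp
    rw [e]
    exact Subgroup.mul_mem_sup hV' hU'
  -- norms of units
  have hnorm1 : ∀ b : Eˣ, Algebra.norm k ((sg s b / b : Eˣ) : E) = 1 := by
    intro b
    apply (algebraMap k E).injective
    rw [map_one, G.norm, Units.val_div_eq_div_val, sg_val]
    have h1 : ∀ i, (s ^ i) (s (b : E) / (b : E)) = (s ^ (i + 1)) (b : E) / (s ^ i) (b : E) := by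
      intro i
      rw [map_div₀, ← AlgEquiv.mul_apply, ← pow_succ]
    rw [Finset.prod_congr rfl fun i _ => h1 i]
    have h2 : ∀ n : ℕ, ∏ i ∈ range n, (s ^ (i + 1)) (b : E) / (s ^ i) (b : E) =
        (s ^ n) (b : E) / b := by
      intro n
      induction n with
      | zero => rw [Finset.prod_range_zero, pow_zero, AlgEquiv.one_apply, div_self b.ne_zero]
      | succ n ih =>
        have h3 : (s ^ n) (b : E) ≠ 0 := (map_ne_zero (s ^ n : E ≃ₐ[k] E)).2 b.ne_zero
        rw [Finset.prod_range_succ, ih]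
        field_simp
    rw [h2, G.pow, AlgEquiv.one_apply, div_self b.ne_zero]
  -- the first cohomology group vanishes
  have H1 : ∀ a, nm p s a ∈ V ⊔ U → a ∈ (dl s).range ⊔ (V ⊔ U) := by
    intro a ha
    obtain ⟨v, hv, u, hu, hvu⟩ := Subgroup.mem_sup.1 ha
    let na : kˣ := Units.map (Algebra.norm k : E →* k) a
    have hna : inc k E na = v * u := by
      rw [hvu]
      ext
      rw [inc_val, G.nm_val]
      rfl
    obtain ⟨v', u', hv', hu', hna', hu'S, hv'N⟩ := hdec na v u hv hu hna
    have hnaval : Algebra.norm k (a : E) = (v' : k) * u' := by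
      have := congrArg Units.val hna'
      exact this
    -- u' is a norm
    have hloc : ∀ y : Place k, LocN E (u' : k) y := by
      intro y
      by_cases hy : y ∈ S
      · have h1 : (u' : k) = Algebra.norm k (a : E) / v' := by
          rw [hnaval]
          field_simp
        rw [h1]
        exact (LocN.of_norm (a : E) y).div (hv'N y hy)
      · exact hS.loc y hy _ (hu'S y hy)
    obtain ⟨b, hb⟩ := Hey.hasse_norm hp G.rank (u' : k) hloc
    have hb0 : b ≠ 0 := by
      rintro rfl
      rw [Algebra.norm_zero] at hb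
      exact u'.ne_zero hb.symm
    obtain ⟨t, ht⟩ := norm_unit G hS (Units.mk0 b hb0) fun y hy => by
      rw [Units.val_mk0, hb]
      exact hu'S y hy
    set b' : Eˣ := Units.mk0 b hb0 * (sg s t / t) with hb'
    have hb'U : b' ∈ U := by
      intro w hw
      have := ht w hw
      rw [hb', Units.val_mul, Units.val_div_eq_div_val, sg_val, div_eq_mul_inv, ← mul_assoc]
      exact this
    have hb'n : Algebra.norm k (b' : E) = u' := by
      rw [hb', Units.val_mul, map_mul, hnorm1, mul_one, Units.val_mk0, hb]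
    -- v' is a norm
    obtain ⟨δX, hδX, hX'⟩ := hX S δ hδ
    obtain ⟨y, hyV, hy⟩ := V4 v' (by rw [hv']; exact hv) δX hδX
    have hny0 : Algebra.norm k (y : E) ≠ 0 := Algebra.norm_ne_zero_iff.2 y.ne_zero
    have hnc : Algebra.norm k ((a / (b' * y) : Eˣ) : E) = (v' : k) / Algebra.norm k (y : E) := by
      rw [norm_div_val, Units.val_mul, map_mul, hb'n, hnaval]
      field_simp
    obtain ⟨e1, he1, he1'⟩ := hX' (a / (b' * y)) fun w hw => by
      rw [hnc]
      exact hy w hw
    have he1V : e1 ∈ V := V2 e1 he1'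
    have hn1 : Algebra.norm k ((a / (b' * y) / e1 : Eˣ) : E) = 1 := by
      rw [norm_div_val, he1]
      exact div_self (Algebra.norm_ne_zero_iff.2 (a / (b' * y)).ne_zero)
    obtain ⟨z, hz0, hz⟩ := G.h90 (x := ((a / (b' * y) / e1 : Eˣ) : E)) (by
      rw [← G.norm, hn1, map_one])
    have hz' : dl s (Units.mk0 z hz0) = a / (b' * y) / e1 := by
      rw [dl_apply, div_eq_iff_eq_mul]
      exact Units.ext hz
    rw [Subgroup.mem_sup]
    refine ⟨_, ⟨Units.mk0 z hz0, rfl⟩, (y * e1) * b',
      Subgroup.mul_mem_sup (V.mul_mem hyV he1V) hb'U, ?_⟩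
    rw [hz']
    apply Units.ext
    push_cast
    field_simp
  -- the invariants come from the base field
  have H2 : ∀ a, dl s a ∈ V ⊔ U → a ∈ (dl s).ker ⊔ (V ⊔ U) := by
    intro a ha
    obtain ⟨v, hv, u, hu, hvu⟩ := Subgroup.mem_sup.1 ha
    have hnvu : nm p s v * nm p s u = 1 := by
      rw [← map_mul, hvu]
      ext
      rw [G.nm_val, dl_apply, hnorm1, map_one, Units.val_one]
    have hnmV : nm p s v ∈ V := by
      rw [nm_apply]
      refine V.prod_mem fun i _ => ?_
      have hVi : ∀ (i : ℕ), ∀ x ∈ V, (sg s ^ i) x ∈ V := by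
        intro i
        induction i with
        | zero => intro x hx; exact hx
        | succ i ih => intro x hx; rw [pow_succ, MulAut.mul_apply]; exact ih _ (hVs x hx)
      exact hVi i v hv
    have hnmU : nm p s u ∈ U := by
      rw [nm_apply]
      refine U.prod_mem fun i _ => ?_
      have hUi : ∀ (i : ℕ), ∀ x ∈ U, (sg s ^ i) x ∈ U := by
        intro i
        induction i with
        | zero => intro x hx; exact hx
        | succ i ih => intro x hx; rw [pow_succ, MulAut.mul_apply]; exact ih _ (hUs x hx)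
      exact hUi i u hu
    have hnv : nm p s v = 1 := hVU _ hnmV (by
      rw [eq_inv_of_mul_eq_one_left hnvu]
      exact U.inv_mem hnmU)
    have hnu : nm p s u = 1 := by rwa [hnv, one_mul] at hnvu
    have hnu' : Algebra.norm k (u : E) = 1 := by
      apply (algebraMap k E).injective
      rw [map_one, ← G.nm_val, hnu, Units.val_one]
    obtain ⟨t, htU, ht⟩ := h90_unit G hT hS hu hnu'
    have ht' : dl s t = u := by
      rw [dl_apply, div_eq_iff_eq_mul]
      exact Units.ext ht
    have hat : dl s (a / t) = v := by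
      rw [map_div, ht', ← hvu, mul_div_cancel_right]
    obtain ⟨b, hb⟩ := V5 (a / t) (by
      change dl s (a / t) ∈ V
      rw [hat]
      exact hv)
    rw [Subgroup.mem_sup]
    refine ⟨inc k E b, ?_, (a / t / inc k E b) * t, Subgroup.mul_mem_sup hb htU, ?_⟩
    · rw [MonoidHom.mem_ker, dl_apply, sg_inc, div_self']
    · apply Units.ext
      push_cast
      field_simp
  have key := abs_index HA (sg s) hp hsp (nm p s) (dl s) nm_apply dl_apply (V ⊔ U) (by
    apply le_antisymm
    · rintro _ ⟨x, hx, rfl⟩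
      obtain ⟨v, hv, u, hu, rfl⟩ := Subgroup.mem_sup.1 hx
      change sg s (v * u) ∈ _
      rw [map_mul]
      exact Subgroup.mul_mem_sup (hVs v hv) (hUs u hu)
    · intro x hx
      obtain ⟨v, hv, u, hu, rfl⟩ := Subgroup.mem_sup.1 hx
      have hVi : ∀ (i : ℕ), ∀ x ∈ V, (sg s ^ i) x ∈ V := by
        intro i
        induction i with
        | zero => intro x hx; exact hx
        | succ i ih => intro x hx; rw [pow_succ, MulAut.mul_apply]; exact ih _ (hVs x hx)
      have hUi : ∀ (i : ℕ), ∀ x ∈ U, (sg s ^ i) x ∈ U := by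
        intro i
        induction i with
        | zero => intro x hx; exact hx
        | succ i ih => intro x hx; rw [pow_succ, MulAut.mul_apply]; exact ih _ (hUs x hx)
      refine ⟨(sg s ^ (p - 1)) v * (sg s ^ (p - 1)) u,
        Subgroup.mul_mem_sup (hVi _ v hv) (hUi _ u hu), ?_⟩
      have hpp : p = (p - 1) + 1 := (Nat.sub_add_cancel hp.pos).symm
      have h1 : ∀ a, sg s ((sg s ^ (p - 1)) a) = a := fun a => by
        rw [← MulAut.mul_apply, ← pow_succ', ← hpp, hsp]
      change sg s _ = _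
      rw [map_mul, h1, h1]) (ph E T) (ph_sg S) (by
    intro x hx
    obtain ⟨v, hv, u, hu, rfl⟩ := Subgroup.mem_sup.1 hx
    rw [map_mul]
    have h1 : ph E T v = 1 := by
      rw [ph_one_iff]
      refine Finset.prod_eq_one fun w hw => ?_
      obtain ⟨y, hy, hwy⟩ := (hTmem w).1 hw
      exact H73.Sp.eq_one_of_near w ((V1 v hv y hy w hwy).trans_le hε1)
    have h2 : ph E T u = 1 := by
      rw [ph_one_iff]
      exact prod_one fun w hw => hu w fun h => hw ((hTmem w).2 h)
    rw [h1, h2, mul_one]) a0 ha0' F hF hfin H1 H2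
  -- back to the base field
  have e1 : (dl s).ker = (inc k E).range := by
    ext x
    constructor
    · intro hx
      have hx' : dl s x = 1 := hx
      rw [dl_apply, div_eq_one] at hx'
      obtain ⟨y, hy⟩ := G.fix hx'
      exact ⟨y, hy⟩
    · rintro ⟨y, rfl⟩
      rw [MonoidHom.mem_ker, dl_apply, sg_inc, div_self']
  have e2 : ((nm p s).range ⊔ (V ⊔ U)).comap (inc k E) = HS E S := by
    ext x
    rw [Subgroup.mem_comap, Subgroup.mem_sup]
    constructor
    · rintro ⟨_, ⟨a, rfl⟩, b, hb, hab⟩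
      obtain ⟨v, hv, u, hu, rfl⟩ := Subgroup.mem_sup.1 hb
      let na : kˣ := Units.map (Algebra.norm k : E →* k) a
      have hna : inc k E na = nm p s a := by
        ext
        rw [inc_val, G.nm_val]
        rfl
      obtain ⟨v', u', hv', hu', hx, hu'S, hv'N⟩ := hdec (x / na) v u hv hu (by
        rw [map_div, hna, ← hab, mul_div_cancel_left])
      refine ⟨u', hu'S, fun y hy => ?_⟩
      have e : ((x / u' : kˣ) : k) = (v' : k) * Algebra.norm k (a : E) := by
        have h1 : x / u' = v' * na := by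
          rw [div_eq_iff_eq_mul] at hx ⊢
          rw [hx]
          exact mul_right_comm v' u' na
        rw [h1]
        rfl
      rw [e]
      exact (hv'N y hy).mul (LocN.of_norm (a : E) y)
    · rintro ⟨u, hu, hx⟩
      obtain ⟨e, he⟩ := hL S (x / u) hx η hη
      have heV : nm p s e / inc k E (x / u) ∈ V := by
        refine V2 _ fun v hv w hw => ?_
        have h1 := hηS v hv _ (he v hv) w hw
        rw [Units.val_div_eq_div_val, G.nm_val, inc_val]
        rwa [map_sub, map_one, map_div₀] at h1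
      refine ⟨nm p s e, ⟨e, rfl⟩, (nm p s e / inc k E (x / u))⁻¹ * inc k E u,
        Subgroup.mul_mem_sup (V.inv_mem heV) ?_, ?_⟩
      · intro w hw
        obtain ⟨v, hv⟩ := below_av (k := k) w
        rw [inc_val, hv.eq_one]
        exact hu v fun h => hw ⟨v, h, hv⟩
      · rw [map_div]
        exact mul_aux _ _ _
  have e3 : (dl s).ker = (⊤ : Subgroup kˣ).map (inc k E) :=
    e1.trans (MonoidHom.range_eq_map _)
  rw [e3, ← Subgroup.relIndex_comap, e2, Subgroup.relIndex_top_right] at key
  exact key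

end

end Vale.Agent.P011.H167.Ni
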