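import Vale.Agent.P011.H167.NiF
import Vale.Agent.P011.H74.Odd.Core
import Vale.Agent.P011.H223.Herbrand
import Vale.Agent.P011.H589.FF.D
import Vale.Agent.P011.H567.FF.L
import Vale.Agent.P011.H580.NrmX

/-! # The norm index of a cyclic extension of prime degree of a global function field, II
(helper167) -/

set_option linter.unusedSectionVars false

namespace Vale.Agent.P011.H167.Ni

open Module Vale.Agent.P011.H738 Vale.Agent.P011.H271 Vale.Agent.P011.H973.PF Finset
open Vale.Agent.P011.H511.FF Vale.Agent.P011.Hey.H63 Vale.Agent.P011.H74.Odd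

theorem herbS : HerbS := fun _ _ s p hp hs φ hφ a0 h0 hf N δ hN hδ =>
  (@H223.herbrand _ _ s p hp hs φ hφ a0 h0 hf N δ hN hδ).1

section

variable {k E : Type} [Field k] [GFF k] [Field E] [GFF E] [Algebra k E] [FiniteDimensional k E]
  [IsGalois k E] {p : ℕ} {s : E ≃ₐ[k] E} {S : Finset (Place k)}

theorem Gn.tr (G : Gn p s) : Tr s := fun _ _ _ h h' => by
  obtain ⟨i, -, hi⟩ := H589.D.conj_of_above G.gen h h'
  exact ⟨i, hi⟩

variable (k E) in
theorem un : Un k E := H589.D.finite_bad

theorem Gn.lx (G : Gn p s) : LX k E := fun S ε hε =>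
  H580.norm_near G.prime G.rank s G.gen S hε

variable (k E) in
theorem ll : LL k E := fun S x hx ε hε => H567.FF.exists_norm_near S x hx hε

variable (k E) in
theorem lo : LO k E := fun v => H567.FF.locN_near E v

/-- the index, with the neighbourhood as hypothesis -/
theorem index_HS' (G : Gn p s) (hV : LV s) (hS : GoodS E S) : (HS E S).index = p :=
  index_HS herbS G G.tr hV G.lx (ll k E) (lo k E) hS

theorem mem_HS {x : kˣ} : x ∈ HS E S ↔
    ∃ u ∈ US (S : Set (Place k)), ∀ v ∈ S, LocN E ((x : k) / (u : k)) v := by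
  constructor
  · rintro ⟨u, hu, h⟩
    exact ⟨u, hu, fun v hv => by
      have := h v hv
      rwa [Units.val_div_eq_div_val] at this⟩
  · rintro ⟨u, hu, h⟩
    exact ⟨u, hu, fun v hv => by
      rw [Units.val_div_eq_div_val]
      exact h v hv⟩

theorem locN_zpow {v : Place k} {c : k} (h : LocN E c v) (j : ℤ) : LocN E (c ^ j) v := by
  have h1 : ∀ n : ℕ, LocN E (c ^ n) v := by
    intro n
    induction n with
    | zero =>
      rw [pow_zero]
      have := LocN.of_norm (k := k) (1 : E) v
      rwa [map_one] at this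
    | succ n ih => rw [pow_succ]; exact ih.mul h
  rcases j with n | n
  · rw [Int.ofNat_eq_natCast, zpow_natCast]
    exact h1 n
  · rw [zpow_negSucc]
    exact (h1 (n + 1)).inv

theorem locN_cancel {v : Place k} {a b : k} (ha : a ≠ 0) (h : LocN E (a * b) v)
    (h' : LocN E a v) : LocN E b v := by
  have := h.div h'
  rwa [mul_div_cancel_left₀ _ ha] at this

/-- in a group of prime order every nontrivial element is a generator -/
theorem exists_zpow_of_index {X : Type} [CommGroup X] {H : Subgroup X} (hp : p.Prime)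
    (hH : H.index = p) {g : X} (hg : g ∉ H) (x : X) : ∃ j : ℤ, x / g ^ j ∈ H := by
  classical
  have : Fact p.Prime := ⟨hp⟩
  have hcard : Nat.card (X ⧸ H) = p := by rw [← hH, Subgroup.index_eq_card]
  have hg' : (QuotientGroup.mk' H g) ≠ 1 := fun h => hg ((QuotientGroup.eq_one_iff g).1 h)
  have h1 := mem_zpowers_of_prime_card hcard (g := QuotientGroup.mk' H g)
    (g' := QuotientGroup.mk' H x) hg'
  obtain ⟨j, hj⟩ := Subgroup.mem_zpowers_iff.1 h1
  refine ⟨j, ?_⟩
  rw [← QuotientGroup.eq_one_iff]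
  change QuotientGroup.mk' H (x / g ^ j) = 1
  rw [map_div, map_zpow, hj, div_self']

/-- an unramified place: the local norms -/
theorem exists_zpow_local (hp : p.Prime) (hE : finrank k E = p) {v : Place k}
    (hv : ∀ c : k, v.abv c = 1 → LocN E c v) {u : k} (hu0 : u ≠ 0) (hu : ¬ LocN E u v)
    {g : k} (hg0 : g ≠ 0) : ∃ j : ℤ, LocN E (g / u ^ j) v := by
  have hq : (qq v : ℝ) ≠ 0 := by have := one_lt_qq v; positivity
  have key : ∀ (c : k), c ≠ 0 → ∀ t : ℤ, ml v c = p * t → LocN E c v := by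
    intro c hc t ht
    have h1 : v.abv (c * (Hey.unif v ^ t) ^ p) = 1 := by
      rw [map_mul, ml_spec v hc, ht, map_pow, map_zpow₀, Hey.abv_unif, inv_zpow, inv_pow,
        ← zpow_natCast, ← zpow_mul, mul_comm t p]
      exact mul_inv_cancel₀ (zpow_ne_zero _ hq)
    have h2 : LocN E ((Hey.unif v ^ t) ^ p) v := by
      have := LocN.of_pow (E := E) (Hey.unif v ^ t) v
      rwa [hE] at this
    refine locN_cancel (pow_ne_zero _ (zpow_ne_zero _ (Hey.unif_ne v))) ?_ h2
    rw [mul_comm]
    exact hv _ h1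
  have hnd : ¬ (p : ℤ) ∣ ml v u := by
    rintro ⟨t, ht⟩
    exact hu (key u hu0 t ht)
  have hcop : IsCoprime (ml v u) (p : ℤ) :=
    ((Nat.prime_iff_prime_int.1 hp).coprime_iff_not_dvd.2 hnd).symm
  obtain ⟨a, b, hab⟩ := hcop
  refine ⟨a * ml v g, key _ (div_ne_zero hg0 (zpow_ne_zero _ hu0)) (b * ml v g) ?_⟩
  apply ml_unique v (div_ne_zero hg0 (zpow_ne_zero _ hu0))
  rw [map_div₀, map_zpow₀, ml_spec v hg0, ml_spec v hu0, ← zpow_mul, div_eq_mul_inv, ← zpow_neg,
    ← zpow_add₀ hq]
  congr 1
  linear_combination (-(ml v g)) * hab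

/-- elements which are local norms outside `S` -/
theorem exists_unit_mul (G : Gn p s) (hS : GoodS E S) (y : kˣ)
    (hy : ∀ v, v ∉ S → LocN E (y : k) v) :
    ∃ z : Eˣ, ∀ v, v ∉ S → v.abv ((y : k) / Algebra.norm k (z : E)) = 1 := by
  classical
  have h1 : ∀ v : Place k, ∃ e : Eˣ, v ∉ S → v.abv (Algebra.norm k (e : E)) = v.abv (y : k) := by
    intro v
    by_cases hv : v ∈ S
    · exact ⟨1, fun h => absurd hv h⟩
    · obtain ⟨e, he⟩ := ll k E {v} y (fun w hw => by
        rw [Finset.mem_singleton] at hw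
        rw [hw]
        exact hy v hv) 1 one_pos
      refine ⟨e, fun _ => ?_⟩
      have h2 := H73.Sp.eq_one_of_near v (he v (Finset.mem_singleton_self v))
      rw [map_div₀] at h2
      exact (div_eq_one_iff_eq (v.abv.pos y.ne_zero).ne').1 h2
  choose e he using h1
  let e' : Place k → Eˣ := fun v => if v.abv (y : k) = 1 then 1 else e v
  have he' : ∀ v, v ∉ S → v.abv (Algebra.norm k (e' v : E)) = v.abv (y : k) := by
    intro v hv
    by_cases h : v.abv (y : k) = 1
    · simp only [e', if_pos h, Units.val_one, map_one, h]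
    · simp only [e', if_neg h]
      exact he v hv
  choose be hbe using fun w : Place E => below_av (k := k) w
  obtain ⟨z, hz⟩ := hS.divE (fun w => e' (be w)) (by
    refine ((ov_finite (E := E) (place_finite y.ne_zero).toFinset)).subset fun w hw => ?_
    refine ⟨be w, ?_, hbe w⟩
    rw [Set.Finite.mem_toFinset]
    intro h
    apply hw
    have h' : (be w).abv (y : k) = 1 := h
    simp only [e', if_pos h', Units.val_one, map_one])
  refine ⟨z, fun v hv => ?_⟩
  obtain ⟨w, hw⟩ := exists_aboveF (E := E) v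
  have hwS : w ∉ ov E S := fun h => hv ((mem_ov_iff hw).1 h)
  have h3 : w.abv (algebraMap k E (Algebra.norm k (z : E))) =
      w.abv (algebraMap k E (Algebra.norm k (e' v : E))) := by
    rw [G.norm, G.norm, map_prod, map_prod]
    refine Finset.prod_congr rfl fun i _ => ?_
    have hci : conjP (s ^ i) w ∉ ov E S := fun h => hwS ((conj_mem_ov (s ^ i) S w).1 h)
    have h4 := hz (conjP (s ^ i) w) hci
    have h5 : be (conjP (s ^ i) w) = v :=
      ((hbe _).unique ((conjP_av (s ^ i) w v).2 hw))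
    rw [h5] at h4
    exact h4
  have h6 : v.abv (Algebra.norm k (z : E)) = v.abv (Algebra.norm k (e' v : E)) := by
    obtain ⟨c, hc, hc'⟩ := ab_of_av hw
    rw [hc', hc'] at h3
    exact (Real.rpow_left_inj (v.abv.nonneg _) (v.abv.nonneg _) hc.ne').1 h3
  rw [map_div₀, h6, he' v hv]
  exact div_self (v.abv.pos y.ne_zero).ne'

/-- weak approximation with local norms -/
theorem exists_approx (S : Finset (Place k)) (τ : Place k → k) (hτ : ∀ v ∈ S, τ v ≠ 0) :
    ∃ t : kˣ, ∀ v ∈ S, LocN E ((t : k) / τ v) v := by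
  choose δ hδ h using lo k E
  obtain ⟨t, ht0, ht⟩ := weakM S τ hτ δ fun v _ => hδ v
  exact ⟨Units.mk0 t ht0, fun v hv => h v _ (ht v hv)⟩

end

end Vale.Agent.P011.H167.Ni
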