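import Vale.Agent.P011.H167.NiG

/-! # The norm index over global function fields: the two halves in the letters of helper74
(helper167) -/

set_option linter.unusedSectionVars false

namespace Vale.Agent.P011.H167.Ni

open Module Vale.Agent.P011.H738 Vale.Agent.P011.H271 Vale.Agent.P011.H973.PF Finset
open Vale.Agent.P011.H511.FF Vale.Agent.P011.Hey.H63 Vale.Agent.P011.H74.Odd

section

variable {k E : Type} [Field k] [GFF k] [Field E] [GFF E] [Algebra k E] [FiniteDimensional k E]
  [IsGalois k E] {p : ℕ} {s : E ≃ₐ[k] E}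

/-- the first half -/
theorem half1 (G : Gn p s) (hV : LV s) {w0 : Place k} (hr : Rcp k E w0) (hn : NSp k E w0)
    {V : Set (Place k)} (hVf : V.Finite) (x : Place k → k) (hx : ∀ v ∈ V, x v ≠ 0) :
    ∃ y : k, y ≠ 0 ∧ (∀ v ∈ V, v ≠ w0 → LocN E (y / x v) v) ∧
      ∀ v, v ∉ V → v ≠ w0 → LocN E y v := by
  classical
  obtain ⟨S0, hS0⟩ := exists_good (k := k) (E := E) (un k E)
  set S : Finset (Place k) := S0 ∪ hVf.toFinset ∪ {w0} with hSdef
  have hS : GoodS E S := hS0 S ((Finset.subset_union_left).trans Finset.subset_union_left)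
  have hw0 : w0 ∈ S := by
    rw [hSdef]
    exact Finset.mem_union_right _ (Finset.mem_singleton_self _)
  have hVS : ∀ v ∈ V, v ∈ S := by
    intro v hv
    rw [hSdef]
    exact Finset.mem_union_left _ (Finset.mem_union_right _ (hVf.mem_toFinset.2 hv))
  have hidx := index_HS' G hV hS
  obtain ⟨z0, hz0, hz0'⟩ := hn
  -- an element which is a local norm at `S`, except at `w0`
  obtain ⟨g, hg⟩ := exists_approx (E := E) S (fun v => if v = w0 then z0 else 1) fun v _ => by
    by_cases h : v = w0
    · simp only [if_pos h]; exact hz0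
    · simp only [if_neg h]; exact one_ne_zero
  have hgN : ∀ v ∈ S, v ≠ w0 → LocN E (g : k) v := by
    intro v hv hvw
    have := hg v hv
    rwa [if_neg hvw, div_one] at this
  have hgw : ¬ LocN E (g : k) w0 := by
    intro h
    have h1 := hg w0 hw0
    rw [if_pos rfl] at h1
    apply hz0'
    have h2 := h.div h1
    rwa [div_div_cancel₀ g.ne_zero] at h2
  have hgH : g ∉ HS E S := by
    intro h
    obtain ⟨u, hu, hgu⟩ := mem_HS.1 h
    have huN : ∀ w : Place k, w ≠ w0 → LocN E (u : k) w := by
      intro w hw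
      by_cases hwS : w ∈ S
      · have h2 := (hgN w hwS hw).div (hgu w hwS)
        rwa [div_div_cancel₀ g.ne_zero] at h2
      · exact hS.loc w hwS _ (hu w hwS)
    have hu0 := hr u huN
    apply hgw
    have h2 := hu0.mul (hgu w0 hw0)
    rwa [mul_div_cancel₀ _ u.ne_zero] at h2
  -- the target
  obtain ⟨t, ht⟩ := exists_approx (E := E) S (fun v => if v ∈ V then x v else 1) fun v _ => by
    by_cases h : v ∈ V
    · simp only [if_pos h]; exact hx v h
    · simp only [if_neg h]; exact one_ne_zero
  obtain ⟨j, hj⟩ := exists_zpow_of_index G.prime hidx hgH t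
  obtain ⟨u, hu, huN⟩ := mem_HS.1 hj
  have hgj : ∀ v ∈ S, v ≠ w0 → LocN E ((g : k) ^ j) v := fun v hv hvw => locN_zpow (hgN v hv hvw) j
  refine ⟨u, u.ne_zero, fun v hv hvw => ?_, fun v hv hvw => ?_⟩
  · have hvS := hVS v hv
    have h1 := ht v hvS
    rw [if_pos hv] at h1
    have h2 := (h1.div (hgj v hvS hvw)).div (huN v hvS)
    have e : (u : k) / x v = (t : k) / x v / (g : k) ^ j / (((t / g ^ j : kˣ) : k) / (u : k)) := by
      have := hx v hv
      rw [Units.val_div_eq_div_val, Units.val_zpow_eq_zpow_val]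
      field_simp
    rwa [← e] at h2
  · by_cases hvS : v ∈ S
    · have h1 := ht v hvS
      rw [if_neg hv, div_one] at h1
      have h2 := (h1.div (hgj v hvS hvw)).div (huN v hvS)
      have e : (u : k) = (t : k) / (g : k) ^ j / (((t / g ^ j : kˣ) : k) / (u : k)) := by
        rw [Units.val_div_eq_div_val, Units.val_zpow_eq_zpow_val]
        field_simp
      rwa [← e] at h2
    · exact hS.loc v hvS _ (hu v hvS)

/-- the second half -/
theorem half2 (G : Gn p s) (hV : LV s) {A : Set (Place k)} (hA : A.Finite) :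
    ∃ w0 : Place k, w0 ∉ A ∧ Rcp k E w0 ∧ NSp k E w0 := by
  classical
  obtain ⟨S0, hS0⟩ := exists_good (k := k) (E := E) (un k E)
  set S : Finset (Place k) := S0 ∪ hA.toFinset with hSdef
  have hS : GoodS E S := hS0 S Finset.subset_union_left
  have hAS : ∀ v ∈ A, v ∈ S := by
    intro v hv
    rw [hSdef]
    exact Finset.mem_union_right _ (hA.mem_toFinset.2 hv)
  have hidx := index_HS' G hV hS
  obtain ⟨x, hx⟩ : ∃ x : kˣ, x ∉ HS E S := by
    by_contra hcon
    push Not at hcon
    have h1 : HS E S = ⊤ := by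
      rw [eq_top_iff]
      intro x _
      exact hcon x
    rw [h1, Subgroup.index_top] at hidx
    exact G.prime.one_lt.ne hidx
  set S' : Finset (Place k) := S ∪ (place_finite x.ne_zero).toFinset with hS'def
  have hSS' : S ⊆ S' := Finset.subset_union_left
  have hS' : GoodS E S' := hS0 S' (Finset.subset_union_left.trans hSS')
  have hxS' : ∀ v, v ∉ S' → v.abv (x : k) = 1 := by
    intro v hv
    by_contra hcon
    apply hv
    rw [hS'def]
    exact Finset.mem_union_right _ ((place_finite x.ne_zero).mem_toFinset.2 hcon)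
  have hxH : x ∈ HS E S' := ⟨x, hxS', fun v _ => by
    rw [div_self', Units.val_one]
    have := LocN.of_norm (k := k) (1 : E) v
    rwa [map_one] at this⟩
  have hone : ∀ v : Place k, LocN E (1 : k) v := fun v => by
    have := LocN.of_norm (k := k) (1 : E) v
    rwa [map_one] at this
  -- local components
  choose g hg using fun v0 : Place k => exists_approx (E := E) S'
    (fun v => if v = v0 then (x : k) else 1) fun v _ => by
      by_cases h : v = v0
      · simp only [if_pos h]; exact x.ne_zero
      · simp only [if_neg h]; exact one_ne_zero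
  have hg1 : ∀ v0, ∀ v ∈ S', v ≠ v0 → LocN E (g v0 : k) v := by
    intro v0 v hv hvv
    have := hg v0 v hv
    rwa [if_neg hvv, div_one] at this
  have hg2 : ∀ v0 ∈ S', LocN E ((g v0 : k) / x) v0 := by
    intro v0 hv0
    have := hg v0 v0 hv0
    rwa [if_pos rfl] at this
  obtain ⟨gS, hgS⟩ := exists_approx (E := E) S'
    (fun v => if v ∈ S then (x : k) else 1) fun v _ => by
      by_cases h : v ∈ S
      · simp only [if_pos h]; exact x.ne_zero
      · simp only [if_neg h]; exact one_ne_zero
  -- one of the local components is nontrivial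
  obtain ⟨v0, hv0S', hv0S, hgv0⟩ : ∃ v0 ∈ S', v0 ∉ S ∧ g v0 ∉ HS E S' := by
    by_contra hcon
    push Not at hcon
    have hprod : ∏ v ∈ S' \ S, g v ∈ HS E S' := by
      refine Subgroup.prod_mem _ fun v hv => ?_
      rw [Finset.mem_sdiff] at hv
      exact hcon v hv.1 hv.2
    -- `x = gS * ∏ g v` up to local norms at `S'`
    have hq : x / (gS * ∏ v ∈ S' \ S, g v) ∈ HS E S' := by
      refine mem_HS.2 ⟨1, one_mem _, fun v hv => ?_⟩
      rw [Units.val_one, div_one, Units.val_div_eq_div_val, Units.val_mul, Units.coe_prod]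
      by_cases hvS : v ∈ S
      · have h1 := hgS v hv
        rw [if_pos hvS] at h1
        have h2 : LocN E (∏ w ∈ S' \ S, (g w : k)) v := by
          refine Finset.prod_induction _ (fun c => LocN E c v) (fun a b ha hb => ha.mul hb)
            (hone v) fun w hw => ?_
          rw [Finset.mem_sdiff] at hw
          exact hg1 w v hv fun h => hw.2 (h ▸ hvS)
        have h3 := (h1.mul h2).inv
        have e : (x : k) / (gS * ∏ w ∈ S' \ S, (g w : k)) =
            ((gS : k) / x * ∏ w ∈ S' \ S, (g w : k))⁻¹ := by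
          have : (∏ w ∈ S' \ S, (g w : k)) ≠ 0 :=
            Finset.prod_ne_zero_iff.2 fun w _ => (g w).ne_zero
          field_simp
        rw [e]
        exact h3
      · have h1 := hgS v hv
        rw [if_neg hvS, div_one] at h1
        have hvm : v ∈ S' \ S := Finset.mem_sdiff.2 ⟨hv, hvS⟩
        have h2 : LocN E (∏ w ∈ (S' \ S).erase v, (g w : k)) v := by
          refine Finset.prod_induction _ (fun c => LocN E c v) (fun a b ha hb => ha.mul hb)
            (hone v) fun w hw => ?_
          exact hg1 w v hv fun h => (Finset.ne_of_mem_erase hw) h.symm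
        have h3 := ((h1.mul h2).mul (hg2 v hv)).inv
        have e : (x : k) / (gS * ∏ w ∈ S' \ S, (g w : k)) =
            ((gS : k) * (∏ w ∈ (S' \ S).erase v, (g w : k)) * ((g v : k) / x))⁻¹ := by
          rw [← Finset.mul_prod_erase (S' \ S) (fun w => (g w : k)) hvm]
          have : (∏ w ∈ (S' \ S).erase v, (g w : k)) ≠ 0 :=
            Finset.prod_ne_zero_iff.2 fun w _ => (g w).ne_zero
          field_simp
        rw [e]
        exact h3
    have hgSH : gS ∈ HS E S' := by
      have e : gS = x / (x / (gS * ∏ v ∈ S' \ S, g v)) / ∏ v ∈ S' \ S, g v := by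
        rw [div_div_cancel, mul_div_cancel_right]
      rw [e]
      exact Subgroup.div_mem _ (Subgroup.div_mem _ hxH hq) hprod
    obtain ⟨u, hu, huN⟩ := mem_HS.1 hgSH
    -- `u` is a local norm outside `S`
    have huN' : ∀ v, v ∉ S → LocN E (u : k) v := by
      intro v hv
      by_cases hvS' : v ∈ S'
      · have h1 := hgS v hvS'
        rw [if_neg hv, div_one] at h1
        have h2 := h1.div (huN v hvS')
        rwa [div_div_cancel₀ gS.ne_zero] at h2
      · exact hS'.loc v hvS' _ (hu v hvS')
    obtain ⟨z, hz⟩ := exists_unit_mul G hS u huN'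
    apply hx
    let nz : kˣ := Units.map (Algebra.norm k : E →* k) z
    refine mem_HS.2 ⟨u / nz, fun v hv => ?_, fun v hv => ?_⟩
    · rw [Units.val_div_eq_div_val]
      exact hz v hv
    · have hvS' := hSS' hv
      have h1 := hgS v hvS'
      rw [if_pos hv] at h1
      have h2 := ((huN v hvS').div h1).mul (LocN.of_norm (k := k) (z : E) v)
      have e : (x : k) / ((u / nz : kˣ) : k) =
          (gS : k) / u / ((gS : k) / x) * Algebra.norm k (z : E) := by
        have : (nz : k) = Algebra.norm k (z : E) := rfl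
        rw [Units.val_div_eq_div_val, ← this]
        field_simp
      rw [e]
      exact h2
  have hgN : ¬ LocN E (g v0 : k) v0 := by
    intro h
    apply hgv0
    refine mem_HS.2 ⟨1, one_mem _, fun v hv => ?_⟩
    rw [Units.val_one, div_one]
    by_cases hvv : v = v0
    · rw [hvv]; exact h
    · exact hg1 v0 v hv hvv
  refine ⟨v0, fun h => hv0S (hAS v0 h), fun z hz => ?_, ⟨g v0, (g v0).ne_zero, hgN⟩⟩
  by_contra hzN
  have hz0 : z ≠ 0 := by
    rintro rfl
    exact hzN (locN_zero v0)
  obtain ⟨e, he⟩ := exists_unit_mul G hS' (Units.mk0 z hz0) fun v hv => hz v fun h =>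
    hv (h ▸ hv0S')
  let ne' : kˣ := Units.map (Algebra.norm k : E →* k) e
  set u : kˣ := Units.mk0 z hz0 / ne' with hu
  have huval : (u : k) = z / Algebra.norm k (e : E) := by
    rw [hu, Units.val_div_eq_div_val]
    rfl
  have huS : u ∈ US (S' : Set (Place k)) := by
    intro v hv
    rw [huval]
    exact he v hv
  have huN : ∀ v, v ≠ v0 → LocN E (u : k) v := by
    intro v hv
    rw [huval]
    exact (hz v hv).div (LocN.of_norm (k := k) (e : E) v)
  have hun : ¬ LocN E (u : k) v0 := by
    intro h
    apply hzN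
    have h1 := h.mul (LocN.of_norm (k := k) (e : E) v0)
    rwa [huval, div_mul_cancel₀ _ (Algebra.norm_ne_zero_iff.2 e.ne_zero)] at h1
  obtain ⟨j, hj⟩ := exists_zpow_local G.prime G.rank (hS.loc v0 hv0S) u.ne_zero hun
    (g v0).ne_zero
  apply hgv0
  refine mem_HS.2 ⟨u ^ j, Subgroup.zpow_mem _ huS j, fun v hv => ?_⟩
  rw [Units.val_zpow_eq_zpow_val]
  by_cases hvv : v = v0
  · rw [hvv]; exact hj
  · exact (hg1 v0 v hv hvv).div (locN_zpow (huN v hvv) j)

end

/-- the neighbourhood exists for all extensions of degree `p` -/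
def LVA (p : ℕ) : Prop := ∀ (k E : Type) [Field k] [GFF k] [Field E] [GFF E] [Algebra k E]
  [FiniteDimensional k E] [IsGalois k E] (s : E ≃ₐ[k] E), Gn p s → LV s

theorem n1_of {p : ℕ} (hp : p.Prime) (hV : LVA p) : N1 p := by
  intro R R' _ _ _ _ _ _ hdeg w0 hr hn V hVf x hx
  haveI : GFF R' := gff_of_finite (k := R)
  obtain ⟨s, G⟩ := exists_gn (k := R) (E := R') hp hdeg
  exact half1 G (hV R R' s G) hr hn hVf x hx

theorem n2_of {p : ℕ} (hp : p.Prime) (hV : LVA p) : N2 p := by
  intro R R' _ _ _ _ _ _ hdeg A hA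
  haveI : GFF R' := gff_of_finite (k := R)
  obtain ⟨s, G⟩ := exists_gn (k := R) (E := R') hp hdeg
  exact half2 G (hV R R' s G) hA

end Vale.Agent.P011.H167.Ni
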