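import Vale.Agent.P011.H167.NiI

/-! # The local norm index over global function fields, every characteristic (helper167)

`E / k` cyclic of prime degree `p` (also `p = char k`), `v` a place of `k` with only one place of
`E` above it (ramified or not): the local norms at `v` have index exactly `p` in `kˣ`. -/

set_option linter.unusedSectionVars false

namespace Vale.Agent.P011.H167.Ni

open Module Vale.Agent.P011.H738 Vale.Agent.P011.H271 Vale.Agent.P011.H973.PF Finset
open Vale.Agent.P011.H511.FF Vale.Agent.P011.Hey.H63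

section

variable {k E : Type} [Field k] [GFF k] [Field E] [GFF E] [Algebra k E] [FiniteDimensional k E]
  [IsGalois k E] {p : ℕ} {s : E ≃ₐ[k] E}

variable (E) in
/-- the elements which are local norms at `v` -/
def LN (v : Place k) : Subgroup kˣ where
  carrier := {x | LocN E (x : k) v}
  one_mem' := by
    have := LocN.of_norm (k := k) (1 : E) v
    rwa [map_one, ← Units.val_one] at this
  mul_mem' := by
    rintro a b ha hb
    exact ha.mul hb
  inv_mem' := by
    rintro a ha
    have := LocN.inv ha
    rwa [← Units.val_inv_eq_inv_val] at this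

theorem mem_LN {v : Place k} {x : kˣ} : x ∈ LN E v ↔ LocN E (x : k) v := Iff.rfl

/-- **the local norm index**: one place above `v` -/
theorem index_LN (G : Gn p s) {v : Place k}
    (h1 : ∀ w w' : Place E, Av' w v → Av' w' v → w = w') : (LN E v).index = p := by
  classical
  have hp := G.prime
  choose δO hδO hO using lo k E
  obtain ⟨ε, hε, hε1, hεS⟩ := exists_eps (E := E) {v} δO hδO
  obtain ⟨V, V1, ⟨δ, hδ, V2⟩, V3, V4, V5⟩ := G.lv {v} ε hε
  obtain ⟨η, hη, hηS⟩ := exists_eta (E := E) {v} hδ
  have hvv : v ∈ ({v} : Finset (Place k)) := Finset.mem_singleton_self v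
  obtain ⟨w0, hw0⟩ := exists_aboveF (E := E) v
  set T := (ov_finite (E := E) {v}).toFinset with hTdef
  have hT : T = {w0} := by
    ext w
    rw [hTdef, Set.Finite.mem_toFinset, Finset.mem_singleton]
    constructor
    · rintro ⟨v', hv', hw⟩
      rw [Finset.mem_singleton] at hv'
      rw [hv'] at hw
      exact h1 w w0 hw hw0
    · rintro rfl
      exact ⟨v, hvv, hw0⟩
  have hVs : ∀ x ∈ V, sg s x ∈ V := V3
  have hsp : ∀ a : Eˣ, (sg s ^ p) a = a := by
    intro a
    ext
    rw [sg_pow_val, G.pow]
    rfl
  have hph : ∀ a : Eˣ, ph E T a = 1 ↔ w0.abv (a : E) = 1 := by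
    intro a
    rw [ph_one_iff, hT, Finset.prod_singleton]
  -- decomposition of the elements of the base field
  have hdec : ∀ x : kˣ, inc k E x ∈ V → LocN E (x : k) v := by
    intro x hx
    refine hO v _ (hεS v hvv _ fun W hW => ?_)
    have h6 := V1 _ hx v hvv W hW
    rw [inc_val] at h6
    rwa [map_sub, map_one]
  obtain ⟨a0, ha0⟩ := exists_small_all T
  have ha0' : ph E T a0 ≠ 1 := by
    rw [Ne, hph]
    exact (ha0 w0 (by rw [hT]; exact Finset.mem_singleton_self w0)).ne
  -- finiteness
  have hε' : (0 : ℝ) < min δ 1 / 2 := by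
    have := lt_min hδ one_pos
    linarith
  have hε1' : min δ 1 / 2 < 1 := by
    have := min_le_right δ 1
    linarith
  have hεδ : min δ 1 / 2 < δ := by
    have := min_le_left δ 1
    linarith
  obtain ⟨F2, hF2, hF2'⟩ := exists_res_fin T hε'
  set F : Set Eˣ := {y : Eˣ | (y : E) ∈ F2} with hFdef
  have hF : F.Finite := hF2.preimage Units.val_injective.injOn
  have hfin : ∀ a, ph E T a = 1 → ∃ b ∈ F, a / b ∈ V := by
    intro a ha
    rw [hph] at ha
    have hw0T : w0 ∈ T := by rw [hT]; exact Finset.mem_singleton_self w0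
    obtain ⟨y, hy, hxy⟩ := hF2' (a : E) fun w hw => by
      rw [hT, Finset.mem_singleton] at hw
      rw [hw]
      exact ha.le
    have hy1 : w0.abv y = 1 := by
      have e : y = (a : E) + -((a : E) - y) := by ring
      have h3 := H73.Sp.add_eq_left w0 (x := (a : E)) (y := -((a : E) - y)) (by
        rw [AbsoluteValue.map_neg, ha]
        exact (hxy w0 hw0T).trans_lt hε1')
      rw [← e, ha] at h3
      exact h3
    have hy0 : y ≠ 0 := by
      intro h
      rw [h, map_zero] at hy1
      exact zero_ne_one hy1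
    refine ⟨Units.mk0 y hy0, hy, V2 _ fun v' hv' w hw => ?_⟩
    rw [Finset.mem_singleton] at hv'
    rw [hv'] at hw
    obtain rfl := h1 w w0 hw hw0
    have e : ((a / Units.mk0 y hy0 : Eˣ) : E) - 1 = ((a : E) - y) / y := by
      rw [Units.val_div_eq_div_val, Units.val_mk0, sub_div, div_self hy0]
    rw [e, map_div₀, hy1, div_one]
    exact (hxy w hw0T).trans_lt hεδ
  -- the first cohomology group vanishes
  have H1 : ∀ a, nm p s a ∈ V → a ∈ (dl s).range ⊔ V := by
    intro a ha
    let na : kˣ := Units.map (Algebra.norm k : E →* k) a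
    have hna : inc k E na = nm p s a := by
      ext
      rw [inc_val, G.nm_val]
      rfl
    obtain ⟨δX, hδX, hX'⟩ := G.lx {v} δ hδ
    obtain ⟨y, hyV, hy⟩ := V4 na (by rw [hna]; exact ha) δX hδX
    obtain ⟨e1, he1, he1'⟩ := hX' (a / y) fun w hw => by
      rw [norm_div_val]
      exact hy w hw
    have he1V : e1 ∈ V := V2 e1 he1'
    have hn1 : Algebra.norm k ((a / y / e1 : Eˣ) : E) = 1 := by
      rw [norm_div_val, he1]
      exact div_self (Algebra.norm_ne_zero_iff.2 (a / y).ne_zero)
    obtain ⟨z, hz0, hz⟩ := G.h90 (x := ((a / y / e1 : Eˣ) : E)) (by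
      rw [← G.norm, hn1, map_one])
    have hz' : dl s (Units.mk0 z hz0) = a / y / e1 := by
      rw [dl_apply, div_eq_iff_eq_mul]
      exact Units.ext hz
    rw [Subgroup.mem_sup]
    refine ⟨_, ⟨Units.mk0 z hz0, rfl⟩, y * e1, V.mul_mem hyV he1V, ?_⟩
    rw [hz']
    apply Units.ext
    push_cast
    field_simp
  have H2 : ∀ a, dl s a ∈ V → a ∈ (dl s).ker ⊔ V := by
    intro a ha
    obtain ⟨b, hb⟩ := V5 a ha
    rw [Subgroup.mem_sup]
    refine ⟨inc k E b, ?_, a / inc k E b, hb, ?_⟩
    · rw [MonoidHom.mem_ker, dl_apply, sg_inc, div_self']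
    · exact mul_div_cancel _ _
  have key := abs_index herbS (sg s) hp hsp (nm p s) (dl s) nm_apply dl_apply V (by
    apply le_antisymm
    · rintro _ ⟨x, hx, rfl⟩
      exact hVs x hx
    · intro x hx
      have hVi : ∀ (i : ℕ), ∀ x ∈ V, (sg s ^ i) x ∈ V := by
        intro i
        induction i with
        | zero => intro x hx; exact hx
        | succ i ih => intro x hx; rw [pow_succ, MulAut.mul_apply]; exact ih _ (hVs x hx)
      refine ⟨(sg s ^ (p - 1)) x, hVi _ x hx, ?_⟩
      have hpp : p = (p - 1) + 1 := (Nat.sub_add_cancel hp.pos).symm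
      change sg s _ = _
      rw [← MulAut.mul_apply, ← pow_succ', ← hpp, hsp]) (ph E T) (ph_sg {v}) (by
    intro x hx
    rw [hph]
    exact H73.Sp.eq_one_of_near w0 ((V1 x hx v hvv w0 hw0).trans_le hε1)) a0 ha0' F hF hfin H1 H2
  -- back to the base field
  have e1 : (dl s).ker = (inc k E).range := by
    ext x
    constructor
    · intro hx
      have hx' : dl s x = 1 := hx
      rw [dl_apply, div_eq_one] at hx'
      obtain ⟨y, hy⟩ := G.fix hx'
      exact ⟨y, hy⟩
    · rintro ⟨y, rfl⟩
      rw [MonoidHom.mem_ker, dl_apply, sg_inc, div_self']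
  have e2 : ((nm p s).range ⊔ V).comap (inc k E) = LN E v := by
    ext x
    rw [Subgroup.mem_comap, Subgroup.mem_sup]
    constructor
    · rintro ⟨_, ⟨a, rfl⟩, b, hb, hab⟩
      let na : kˣ := Units.map (Algebra.norm k : E →* k) a
      have hna : inc k E na = nm p s a := by
        ext
        rw [inc_val, G.nm_val]
        rfl
      have h2 := hdec (x / na) (by
        rw [map_div, hna, ← hab, mul_div_cancel_left]
        exact hb)
      have h3 := h2.mul (LocN.of_norm (a : E) v)
      have e : ((x / na : kˣ) : k) * Algebra.norm k (a : E) = x := by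
        have : (na : k) = Algebra.norm k (a : E) := rfl
        rw [← this, ← Units.val_mul, div_mul_cancel]
      rwa [e] at h3
    · intro hx
      obtain ⟨e, he⟩ := ll k E {v} x (fun v' hv' => by
        rw [Finset.mem_singleton] at hv'
        rw [hv']
        exact hx) η hη
      have heV : nm p s e / inc k E x ∈ V := by
        refine V2 _ fun v' hv' w hw => ?_
        have h1 := hηS v' hv' _ (he v' hv') w hw
        rw [Units.val_div_eq_div_val, G.nm_val, inc_val]
        rwa [map_sub, map_one, map_div₀] at h1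
      refine ⟨nm p s e, ⟨e, rfl⟩, (nm p s e / inc k E x)⁻¹, V.inv_mem heV, ?_⟩
      rw [inv_div, mul_div_cancel]
  have e3 : (dl s).ker = (⊤ : Subgroup kˣ).map (inc k E) :=
    e1.trans (MonoidHom.range_eq_map _)
  rw [e3, ← Subgroup.relIndex_comap, e2, Subgroup.relIndex_top_right] at key
  exact key

end

/-- **the local norm index in degree two**: the product of two elements which are not local norms
is a local norm -/
theorem locN_mul_of_not {k E : Type} [Field k] [GFF k] [Field E] [Algebra k E]
    [FiniteDimensional k E] [IsGalois k E] (hE : finrank k E = 2) {v : Place k}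
    (h1 : ∀ w w' : Place E, Av' w v → Av' w' v → w = w') {a b : k} (ha0 : a ≠ 0) (hb0 : b ≠ 0)
    (ha : ¬ LocN E a v) (hb : ¬ LocN E b v) : LocN E (a * b) v := by
  have : GFF E := gff_of_finite (k := k)
  obtain ⟨s, G⟩ := exists_gn (k := k) (E := E) Nat.prime_two hE
  have h2 := index_LN G h1
  have h3 := Subgroup.mul_mem_iff_of_index_two h2 (a := Units.mk0 a ha0) (b := Units.mk0 b hb0)
  have ha' : Units.mk0 a ha0 ∉ LN E v := ha
  have hb' : Units.mk0 b hb0 ∉ LN E v := hb
  have h4 : Units.mk0 a ha0 * Units.mk0 b hb0 ∈ LN E v := by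
    rw [h3]
    exact iff_of_false ha' hb'
  exact h4

end Vale.Agent.P011.H167.Ni
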