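import Mathlib

/-!
Products of a subspace of small codimension in the polynomials of degree `< l`:
if `W` has codimension at most `r`, then all products `h * w` with `deg h < l`, `w ∈ W` generate
all multiples of degree `< 2 l - O(r)` of one nonzero polynomial of degree at most `r`.
-/

open Polynomial Module

namespace Vale.Agent.P011.H167

variable {F : Type*} [Field F]

instance finDim_degreeLT (n : ℕ) : FiniteDimensional F (degreeLT F n) :=
  LinearEquiv.finiteDimensional (degreeLTEquiv F n).symm

theorem finrank_degreeLT (n : ℕ) : finrank F (degreeLT F n) = n := by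
  rw [(degreeLTEquiv F n).finrank_eq, finrank_fin_fun]

theorem mem_degreeLT_of_natDegree {n : ℕ} {p : F[X]} (h : p.natDegree < n) :
    p ∈ degreeLT F n := by
  rw [mem_degreeLT]
  exact lt_of_le_of_lt degree_le_natDegree (by exact_mod_cast h)

theorem natDegree_lt_of_mem {n : ℕ} {p : F[X]} (hp : p ≠ 0) (h : p ∈ degreeLT F n) :
    p.natDegree < n := by
  rw [mem_degreeLT, degree_eq_natDegree hp] at h
  exact_mod_cast h

/-- A subspace of `{deg < l}` of dimension more than `l - (r + 1)` contains a nonzero element of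
degree `≤ r`. -/
theorem exists_small_deg {l r : ℕ} (hrl : r < l) (W : Submodule F F[X]) (hWl : W ≤ degreeLT F l)
    (hdim : l ≤ finrank F W + r) : ∃ δ ∈ W, δ ≠ 0 ∧ δ.natDegree ≤ r := by
  have : FiniteDimensional F W := Submodule.finiteDimensional_of_le hWl
  have h1 := Submodule.finrank_sup_add_finrank_inf_eq W (degreeLT F (r + 1))
  have h2 : W ⊔ degreeLT F (r + 1) ≤ degreeLT F l := sup_le hWl (degreeLT_mono (by omega))
  have h3 : finrank F ↥(W ⊔ degreeLT F (r + 1)) ≤ l := by
    calc finrank F ↥(W ⊔ degreeLT F (r + 1)) ≤ finrank F ↥(degreeLT F l) :=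
          Submodule.finrank_mono h2
      _ = l := finrank_degreeLT l
  rw [finrank_degreeLT] at h1
  have h4 : 0 < finrank F ↥(W ⊓ degreeLT F (r + 1)) := by omega
  have h5 : W ⊓ degreeLT F (r + 1) ≠ ⊥ := by
    intro h
    rw [h, finrank_bot] at h4
    exact lt_irrefl _ h4
  obtain ⟨δ, hδ, hδ0⟩ := Submodule.exists_mem_ne_zero_of_ne_bot h5
  refine ⟨δ, hδ.1, hδ0, ?_⟩
  have := natDegree_lt_of_mem hδ0 hδ.2
  omega

/-- In the quotient `{w : δ w ∈ W}` there are elements of large degree. -/
theorem exists_large_quot {l r e : ℕ} (W : Submodule F F[X]) (hWl : W ≤ degreeLT F l)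
    (hdim : l ≤ finrank F W + r) {δ : F[X]} (hδ : δ ≠ 0) (he : δ.natDegree = e)
    (hlt : r + e < l) : ∃ w : F[X], δ * w ∈ W ∧ w ≠ 0 ∧ l ≤ w.natDegree + e + r + 1 := by
  have : FiniteDimensional F W := Submodule.finiteDimensional_of_le hWl
  have hinj : Function.Injective (LinearMap.mulLeft F δ) := by
    intro a b hab
    exact mul_left_cancel₀ hδ hab
  obtain ⟨E, hE⟩ : ∃ E, E = (degreeLT F (l - e)).map (LinearMap.mulLeft F δ) := ⟨_, rfl⟩
  have hEr : finrank F E = l - e := by
    rw [hE, ← (Submodule.equivMapOfInjective (LinearMap.mulLeft F δ) hinj _).finrank_eq,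
      finrank_degreeLT]
  have hEl : E ≤ degreeLT F l := by
    rw [hE]
    rintro _ ⟨x, hx, rfl⟩
    rw [LinearMap.mulLeft_apply]
    by_cases hx0 : x = 0
    · rw [hx0, mul_zero]
      exact zero_mem _
    · have h1 := natDegree_lt_of_mem hx0 hx
      apply mem_degreeLT_of_natDegree
      rw [natDegree_mul hδ hx0]
      omega
  have : FiniteDimensional F E := Submodule.finiteDimensional_of_le hEl
  have h1 := Submodule.finrank_sup_add_finrank_inf_eq W E
  have h3 : finrank F ↥(W ⊔ E) ≤ l := by
    calc finrank F ↥(W ⊔ E) ≤ finrank F ↥(degreeLT F l) :=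
          Submodule.finrank_mono (sup_le hWl hEl)
      _ = l := finrank_degreeLT l
  by_contra hcon
  push Not at hcon
  have h4 : W ⊓ E ≤ (degreeLT F (l - e - r - 1)).map (LinearMap.mulLeft F δ) := by
    rintro x ⟨hxW, hxE⟩
    rw [hE] at hxE
    obtain ⟨y, hy, rfl⟩ := hxE
    refine ⟨y, ?_, rfl⟩
    by_cases hy0 : y = 0
    · rw [hy0]
      exact zero_mem _
    · have h5 := hcon y hxW hy0
      apply mem_degreeLT_of_natDegree
      omega
  have h5 : finrank F ↥(W ⊓ E) ≤ l - e - r - 1 := by
    calc finrank F ↥(W ⊓ E)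
        ≤ finrank F ↥((degreeLT F (l - e - r - 1)).map (LinearMap.mulLeft F δ)) :=
          Submodule.finrank_mono h4
      _ = l - e - r - 1 := by
          rw [← (Submodule.equivMapOfInjective (LinearMap.mulLeft F δ) hinj _).finrank_eq,
            finrank_degreeLT]
  omega

/-- If `W ⊆ {deg < l}` has codimension at most `r`, then the additive group generated by all
products `h * w`, `deg h < l`, `w ∈ W`, contains all multiples `s * δ`, `deg s < 2 l - 2 r - 1`, of
one nonzero polynomial `δ` of degree at most `r`. -/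
theorem exists_small_mul {l r : ℕ} (W : Submodule F F[X]) (hWl : W ≤ degreeLT F l)
    (hdim : l ≤ finrank F W + r) (I : AddSubgroup F[X])
    (hI : ∀ h ∈ degreeLT F l, ∀ w ∈ W, h * w ∈ I) :
    ∃ δ : F[X], δ ≠ 0 ∧ δ.natDegree ≤ r ∧ ∀ s ∈ degreeLT F (2 * l - 2 * r - 1), s * δ ∈ I := by
  rcases Nat.lt_or_ge r l with hrl | hrl
  swap
  · refine ⟨1, one_ne_zero, by simp, fun s hs => ?_⟩
    have h0 : 2 * l - 2 * r - 1 = 0 := by omega
    rw [h0, mem_degreeLT] at hs
    have : s = 0 := by
      by_contra hs0
      rw [degree_eq_natDegree hs0] at hs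
      exact absurd hs (by simp)
    rw [this, zero_mul]
    exact I.zero_mem
  obtain ⟨δ, hδW, hδ0, hδr⟩ := exists_small_deg hrl W hWl hdim
  refine ⟨δ, hδ0, hδr, ?_⟩
  have key : ∀ n : ℕ, ∀ s : F[X], s.natDegree ≤ n → s ∈ degreeLT F (2 * l - 2 * r - 1) →
      s * δ ∈ I := by
    intro n
    induction n using Nat.strong_induction_on with
    | _ n ih =>
      intro s hsn hs
      by_cases hs0 : s = 0
      · rw [hs0, zero_mul]
        exact I.zero_mem
      have hsd := natDegree_lt_of_mem hs0 hs
      rcases Nat.lt_or_ge s.natDegree l with hsl | hsl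
      · exact hI s (mem_degreeLT_of_natDegree hsl) δ hδW
      obtain ⟨w, hwW, hw0, hwd⟩ := exists_large_quot (e := δ.natDegree) W hWl hdim hδ0 rfl
        (by omega)
      have hwl : w.natDegree + δ.natDegree < l := by
        have := natDegree_lt_of_mem (mul_ne_zero hδ0 hw0) (hWl hwW)
        rw [natDegree_mul hδ0 hw0] at this
        omega
      obtain ⟨h, hh⟩ : ∃ h, h = C (s.leadingCoeff / w.leadingCoeff) *
          X ^ (s.natDegree - w.natDegree) := ⟨_, rfl⟩
      have hlw : w.leadingCoeff ≠ 0 := leadingCoeff_ne_zero.mpr hw0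
      have hls : s.leadingCoeff ≠ 0 := leadingCoeff_ne_zero.mpr hs0
      have hq : s.leadingCoeff / w.leadingCoeff ≠ 0 := div_ne_zero hls hlw
      have hh0 : h ≠ 0 := by
        rw [hh]
        exact mul_ne_zero (C_ne_zero.mpr hq) (pow_ne_zero _ X_ne_zero)
      have hhd : h.natDegree = s.natDegree - w.natDegree := by
        rw [hh]
        exact natDegree_C_mul_X_pow _ _ hq
      have hhl : h ∈ degreeLT F l := by
        apply mem_degreeLT_of_natDegree
        rw [hhd]
        omega
      have hhwI : h * (δ * w) ∈ I := hI h hhl (δ * w) hwW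
      have hlt : (s - h * w).natDegree < s.natDegree ∨ s - h * w = 0 := by
        by_cases h0 : s - h * w = 0
        · exact Or.inr h0
        left
        have hdeg : s.degree = (h * w).degree := by
          rw [degree_eq_natDegree hs0, degree_eq_natDegree (mul_ne_zero hh0 hw0),
            natDegree_mul hh0 hw0, hhd]
          congr 1
          omega
        have hlc : s.leadingCoeff = (h * w).leadingCoeff := by
          rw [leadingCoeff_mul, hh, leadingCoeff_mul, leadingCoeff_C, leadingCoeff_X_pow, mul_one,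
            div_mul_cancel₀ _ hlw]
        have := degree_sub_lt_left hdeg hs0 hlc
        exact natDegree_lt_natDegree h0 this
      have hmem : (s - h * w) * δ ∈ I := by
        rcases hlt with hlt | h0
        · exact ih _ (lt_of_lt_of_le hlt hsn) _ le_rfl
            (mem_degreeLT_of_natDegree (lt_trans hlt hsd))
        · rw [h0, zero_mul]
          exact I.zero_mem
      have : s * δ = (s - h * w) * δ + h * (δ * w) := by ring
      rw [this]
      exact I.add_mem hmem hhwI
  intro s hs
  exact key _ s le_rfl hs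

end Vale.Agent.P011.H167
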