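import Vale.Agent.P011.H167.RhoFA
import Vale.Agent.P011.H271.ConF2

/-!
Function fields: zeros of a quadratic form near given approximate zeros (every characteristic).
-/

namespace Vale.Agent.P011.H167.RhoF

open Vale.Agent.P011.H738 Vale.Agent.P011.H271 Topology QuadraticMap Module

section newton

variable {L : Type*} [NormedField L] [IsUltrametricDist L]

theorem norm_add_lt {x y : L} {c : ℝ} (hx : ‖x‖ < c) (hy : ‖y‖ < c) : ‖x + y‖ < c :=
  (IsUltrametricDist.norm_add_le_max x y).trans_lt (max_lt hx hy)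

theorem norm_two_le : ‖(2 : L)‖ ≤ 1 := by
  have h := IsUltrametricDist.norm_natCast_le_one L 2
  exact_mod_cast h

theorem norm_one_add {x : L} (hx : ‖x‖ < 1) : ‖1 + x‖ = 1 := by
  refine le_antisymm ?_ ?_
  · refine (IsUltrametricDist.norm_add_le_max _ _).trans (max_le (by rw [norm_one]) hx.le)
  · by_contra h
    push Not at h
    have h1 : ‖(1 + x) + -x‖ < 1 := norm_add_lt h (by rwa [norm_neg])
    have h2 : (1 + x) + -x = 1 := by ring
    rw [h2, norm_one] at h1
    exact lt_irrefl _ h1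

/-- Newton for the small root of a quadratic equation. -/
theorem exists_root_small [ProperSpace L] {α : L} (hα : ‖α‖ < 1) :
    ∃ σ : L, α * σ ^ 2 + σ + 1 = 0 ∧ ‖σ‖ ≤ 1 := by
  obtain ⟨y, hy⟩ := ConF.hensel_norm (Polynomial.X ^ 2 + Polynomial.X + Polynomial.C α) (by
    intro i
    rcases i with _ | _ | _ | i
    · simpa using hα.le
    · simp
    · simp [Polynomial.coeff_X]
    · have h1 : (Polynomial.X ^ 2 + Polynomial.X + Polynomial.C α : Polynomial L).coeff
          (i + 1 + 1 + 1) = 0 := by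
        rw [Polynomial.coeff_add, Polynomial.coeff_add, Polynomial.coeff_X_pow,
          Polynomial.coeff_X, Polynomial.coeff_C]
        simp
      rw [h1, norm_zero]
      exact zero_le_one) 0 (by rw [norm_zero]; exact zero_le_one) (by simpa using hα)
  simp only [Polynomial.eval_add, Polynomial.eval_pow, Polynomial.eval_X,
    Polynomial.eval_C] at hy
  have hy1 : ‖y‖ ≤ 1 := by
    by_contra hcon
    push Not at hcon
    have h1 : y ^ 2 = -(y + α) := by linear_combination hy
    have h2 : ‖y‖ ^ 2 ≤ ‖y‖ := by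
      rw [← norm_pow, h1, norm_neg]
      exact (IsUltrametricDist.norm_add_le_max _ _).trans (max_le le_rfl (hα.trans hcon).le)
    nlinarith
  have key : ∀ w : L, w ^ 2 + w + α = 0 → ‖w‖ = 1 →
      ∃ σ : L, α * σ ^ 2 + σ + 1 = 0 ∧ ‖σ‖ ≤ 1 := by
    intro w hw hw1
    have hw0 : w ≠ 0 := by
      rintro rfl
      rw [norm_zero] at hw1
      exact zero_ne_one hw1
    refine ⟨w⁻¹, ?_, by rw [norm_inv, hw1, inv_one]⟩
    field_simp
    linear_combination hw
  rcases hy1.lt_or_eq with h | h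
  · refine key (-1 - y) (by linear_combination hy) ?_
    have e : -1 - y = -(1 + y) := by ring
    rw [e, norm_neg]
    exact norm_one_add h
  · exact key y hy h

end newton

section main

variable {k : Type} [Field k] [GFF k]
variable {V : Type*} [AddCommGroup V] [Module k V] {ι : Type*} [Fintype ι]

/-- **Zeros of a quadratic form near approximate zeros.** -/
theorem exists_zero_near (Q : QuadraticForm k V) (B : Basis ι k V) {p : V}
    (hp : Q p = 0) (hp1 : ∃ y, polar Q p y ≠ 0) (hp2 : ∃ y, polar Q p y = 0 ∧ Q y ≠ 0)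
    (T : Finset (Place k)) (z y : Place k → V)
    (hP : ∀ v ∈ T, polar Q (z v) (y v) ≠ 0)
    (hN : ∀ v ∈ T, v.abv (Q (z v) * Q (y v)) < v.abv (polar Q (z v) (y v)) ^ 2)
    (γ : Place k → ℝ) (hγ : ∀ v ∈ T, 0 < γ v)
    (f : MvPolynomial ι k) {q : V} (hq : Q q = 0) (hq1 : ∃ y, polar Q q y ≠ 0)
    (hf : MvPolynomial.eval (B.repr q) f ≠ 0) :
    ∃ ρ : V, Q ρ = 0 ∧ (∀ v ∈ T, ∃ s : k,
      v.abv s ≤ v.abv (Q (z v) / polar Q (z v) (y v)) ∧
      ∀ i, v.abv (B.repr (ρ - z v - s • y v) i) < γ v) ∧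
      MvPolynomial.eval (B.repr ρ) f ≠ 0 := by
  classical
  -- the exact local zeros
  have hloc : ∀ v ∈ T, ∃ s : v.comp,
      ‖s‖ ≤ v.abv (Q (z v) / polar Q (z v) (y v)) ∧
      QC Q B v (jC B v (z v) + s • jC B v (y v)) = 0 ∧
      ∃ y', polar (QC Q B v) (jC B v (z v) + s • jC B v (y v)) y' ≠ 0 := by
    intro v hv
    set φ := algebraMap k v.comp with hφ
    set P := polar Q (z v) (y v) with hPd
    have hP0 : P ≠ 0 := hP v hv
    have hφP : φ P ≠ 0 := (map_ne_zero _).mpr hP0
    have hα : ‖φ (Q (z v) * Q (y v) / P ^ 2)‖ < 1 := by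
      rw [hφ, norm_alg, map_div₀, map_pow, div_lt_one (pow_pos (v.abv.pos hP0) 2)]
      exact hN v hv
    obtain ⟨σ, hσ, hσ1⟩ := exists_root_small hα
    have q1 : QC Q B v (jC B v (z v)) = φ (Q (z v)) := QC_jC Q B v (z v)
    have q2 : QC Q B v (jC B v (y v)) = φ (Q (y v)) := QC_jC Q B v (y v)
    have q3 : polar (QC Q B v) (jC B v (z v)) (jC B v (y v)) = φ P := polar_QC Q B v (z v) (y v)
    refine ⟨φ (Q (z v) / P) * σ, ?_, ?_, jC B v (y v), ?_⟩
    · rw [norm_mul, hφ, norm_alg]
      calc _ ≤ v.abv (Q (z v) / P) * 1 := mul_le_mul_of_nonneg_left hσ1 (v.abv.nonneg _)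
        _ = _ := mul_one _
    · rw [QuadraticMap.map_add (QC Q B v), QuadraticMap.map_smul, QuadraticMap.polar_smul_right,
        q1, q2, q3, smul_eq_mul, smul_eq_mul]
      have e1 : φ (Q (z v)) * (φ (Q (z v) * Q (y v) / P ^ 2) * σ ^ 2 + σ + 1) = 0 := by
        rw [hσ, mul_zero]
      rw [← e1, map_div₀, map_div₀, map_mul, map_pow]
      field_simp
      ring
    · rw [QuadraticMap.polar_add_left, QuadraticMap.polar_smul_left, q3,
        QuadraticMap.polar_self, q2]
      have e4 : φ P + (φ (Q (z v) / P) * σ) • (2 • φ (Q (y v))) =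
          φ P * (1 + 2 * φ (Q (z v) * Q (y v) / P ^ 2) * σ) := by
        rw [map_div₀, map_div₀, map_mul, map_pow, smul_eq_mul, two_smul]
        field_simp
        ring
      rw [e4]
      refine mul_ne_zero hφP fun h => ?_
      have e5 : ‖2 * φ (Q (z v) * Q (y v) / P ^ 2) * σ‖ < 1 := by
        rw [norm_mul, norm_mul]
        calc _ ≤ 1 * ‖φ (Q (z v) * Q (y v) / P ^ 2)‖ * 1 := by
              gcongr
              exact norm_two_le
          _ < 1 := by rw [one_mul, mul_one]; exact hα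
      have e6 := norm_one_add e5
      rw [h, norm_zero] at e6
      exact zero_ne_one e6
  choose! s hs1 hs2 hs3 using hloc
  -- the precision
  have hprec : ∀ v : Place k, ∃ ε : ℝ, 0 < ε ∧
      (0 < γ v → ∀ i, ε * v.abv (B.repr (y v) i) < γ v) := by
    intro v
    by_cases h : 0 < γ v
    · set M : ℝ := 1 + ∑ i, v.abv (B.repr (y v) i) with hM
      have hS : 0 ≤ ∑ i, v.abv (B.repr (y v) i) :=
        Finset.sum_nonneg fun i _ => v.abv.nonneg _
      have hM0 : 0 < M := by linarith
      refine ⟨γ v / M, div_pos h hM0, fun _ i => ?_⟩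
      have h1 : v.abv (B.repr (y v) i) < M := by
        have := Finset.single_le_sum (f := fun i => v.abv (B.repr (y v) i))
          (fun i _ => v.abv.nonneg _) (Finset.mem_univ i)
        linarith
      calc γ v / M * v.abv (B.repr (y v) i) < γ v / M * M :=
            mul_lt_mul_of_pos_left h1 (div_pos h hM0)
        _ = γ v := div_mul_cancel₀ _ hM0.ne'
    · exact ⟨1, one_pos, fun h' => absurd h' h⟩
  choose ε hε0 hε using hprec
  -- rational approximations of the parameters
  have hs' : ∀ v ∈ T, ∃ t : k, v.abv t ≤ v.abv (Q (z v) / polar Q (z v) (y v)) ∧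
      ‖algebraMap k v.comp t - s v‖ < ε v := by
    intro v hv
    by_cases h0 : s v = 0
    · refine ⟨0, by rw [map_zero]; exact v.abv.nonneg _, ?_⟩
      rw [h0, map_zero, sub_zero, norm_zero]
      exact hε0 v
    · obtain ⟨t, ht⟩ := dense_alg v (s v) (lt_min (hε0 v) (norm_pos_iff.mpr h0))
      rw [norm_sub_rev] at ht
      refine ⟨t, ?_, lt_of_lt_of_le ht (min_le_left _ _)⟩
      rw [← norm_alg]
      have e : algebraMap k v.comp t = (algebraMap k v.comp t - s v) + s v := by ring
      rw [e]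
      exact (IsUltrametricDist.norm_add_le_max _ _).trans
        (max_le ((lt_of_lt_of_le ht (min_le_right _ _)).le.trans (hs1 v hv)) (hs1 v hv))
  choose! t ht1 ht2 using hs'
  obtain ⟨ρ, hρ, hρ1, hρ2⟩ := exists_zero_near_completion Q B hp hp1 hp2 T
    (fun v => jC B v (z v) + s v • jC B v (y v)) hs2 hs3 γ hγ f hq hq1 hf
  refine ⟨ρ, hρ, fun v hv => ⟨t v, ht1 v hv, fun i => ?_⟩, hρ2⟩
  rw [← norm_alg]
  have e : algebraMap k v.comp (B.repr (ρ - z v - t v • y v) i) =
      (algebraMap k v.comp (B.repr ρ i) - (jC B v (z v) + s v • jC B v (y v)) i) +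
      -((algebraMap k v.comp (t v) - s v) * algebraMap k v.comp (B.repr (y v) i)) := by
    rw [Pi.add_apply, Pi.smul_apply, jC_apply, jC_apply]
    simp only [map_sub, map_smul, Finsupp.sub_apply, Finsupp.smul_apply, smul_eq_mul, map_mul]
    ring
  rw [e]
  refine norm_add_lt (hρ1 v hv i) ?_
  rw [norm_neg, norm_mul, norm_alg]
  calc _ ≤ ε v * v.abv (B.repr (y v) i) :=
        mul_le_mul_of_nonneg_right (ht2 v hv).le (v.abv.nonneg _)
    _ < γ v := hε v (hγ v hv) i

end main

end Vale.Agent.P011.H167.RhoF
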