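import Vale.Agent.P011.H63.StA
import Vale.Agent.P011.H167.FpC

/-!
# STEP a of the second relation in rank two over function fields
-/

open Module

namespace Vale.Agent.P011.H167

open Vale.Agent.P011.H738 Vale.Agent.P011.H271 Vale.Agent.P011.H305
open Vale.Agent.P011.H63.FB

/-- The local prescription holds at every nonsplit place. -/
theorem preF {k K D : Type} [Field k] [GFF k] [Field K] [StarRing K]
    [DivisionRing D] [StarRing D] [Algebra k K] [Algebra k D] [Algebra K D] [IsScalarTower k K D]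
    {d : kˣ} {s : K} {n N : ℕ} (hS : SetF k K D d s) (hn : 2 ≤ n) (hdeg : finrank K D = n ^ 2)
    (B : Basis (Fin N) k D) {Ω : Type} [Field Ω] [Algebra K Ω]
    (f : D →ₐ[K] Matrix (Fin n) (Fin n) Ω) {m b : D} (hm : star m = m) (hb : star b = b)
    (hm0 : m ≠ 0) (hb0 : b ≠ 0) {v : Place k} (hv : d ∉ LSF v) (g1 g2 : kˣ) :
    H63.DN.PreF k d n B f m b v g1 g2 :=
  Fp.fin_preF hS hn hdeg B f hm hb hm0 hb0 v hv g1 g2

/-- **STEP a** over function fields. -/
theorem stepAF {k K D : Type} [Field k] [Field K] [StarRing K]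
    [DivisionRing D] [StarRing D] [Algebra k K] [Algebra k D] [Algebra K D] [IsScalarTower k K D]
    {d : kˣ} {s : K} {n : ℕ} (hk : IsGlobalFunctionField k) (hS : SetF k K D d s) (hn : 2 ≤ n)
    (hdeg : finrank K D = n ^ 2)
    {b m r₀ r₀' : D} (hb : star b = b) (hm : star m = m) (hr : star r₀ = r₀)
    (hr' : star r₀' = r₀') (hb0 : b ≠ 0) (hm0 : m ≠ 0) (hr0 : r₀ ≠ 0) (hr0' : r₀' ≠ 0)
    {V : Set (Place k)} (hV : V.Finite) (hVns : ∀ v ∈ V, d ∉ LSF v) (hne : V.Nonempty) :
    ∃ t p : D, t ≠ 0 ∧ p ≠ 0 ∧ b + t * r₀ * star t = p * r₀' * star p ∧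
      NiceF k n V (m⁻¹ * (t * r₀ * star t)) := by
  have : GFF k := gff_of_isGlobal hk
  have := hS.fin
  have := hS.cen
  have hfk : FiniteDimensional k K := FiniteDimensional.of_finrank_pos (by
    rw [hS.rank]; norm_num)
  have : FiniteDimensional k D := Module.Finite.trans K D
  obtain ⟨f⟩ := H268.exists_split_sepClosed (K := K) (A := D) (E := SeparableClosure K) hdeg
  exact H63.DN.stepA_of_pre hk hS hdeg (finBasis k D) f hb hr hr' hb0 hr0 hr0' hV hVns hne
    fun v hv g1 g2 => preF hS hn hdeg (finBasis k D) f hm hb hm0 hb0 (hVns v hv) g1 g2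

end Vale.Agent.P011.H167
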