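import Vale.Agent.P011.H167.GenPos
import Vale.Agent.P011.H158.Cell

/-!
Characters of a subgroup of an elementary abelian group extend, and the linking estimate
`sum_qSum_le` for the characters of a subgroup of `F_q[t]^κ`; the result is an instance of
`H158.Equi`.
-/

open Polynomial Module

noncomputable section

namespace Vale.Agent.P011.H167

/-- A homomorphic retraction onto a subgroup of a vector space over `ZMod p`. -/
theorem exists_retract {V : Type*} [AddCommGroup V] (p : ℕ) [Fact p.Prime] [Module (ZMod p) V]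
    (G : AddSubgroup V) : ∃ P : V →+ G, ∀ g : G, P g = g := by
  obtain ⟨f, hf⟩ := (AddSubgroup.toZModSubmodule p G).exists_isCompl
  refine ⟨((AddSubgroup.toZModSubmodule p G).projectionOnto f hf).toAddMonoidHom, fun g => ?_⟩
  exact Submodule.projectionOnto_apply_left hf g

/-- Characters of subgroups of an elementary abelian `p`-group extend. -/
theorem exists_ext_char {V : Type*} [AddCommGroup V] {p : ℕ} (hp : p.Prime)
    (hV : ∀ v : V, p • v = 0) (G : AddSubgroup V) (χ : AddChar G ℂ) :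
    ∃ χ' : AddChar V ℂ, ∀ g : G, χ' g = χ g := by
  have : Fact p.Prime := ⟨hp⟩
  obtain ⟨P, hP⟩ := @exists_retract V _ p _ (AddCommGroup.zmodModule hV) G
  refine ⟨{ toFun := fun v => χ (P v), map_zero_eq_one' := ?_, map_add_eq_mul' := ?_ }, ?_⟩
  · rw [map_zero]; exact AddChar.map_zero_eq_one χ
  · intro a b; rw [map_add]; exact AddChar.map_add_eq_mul χ _ _
  · intro g
    change χ (P g) = χ g
    rw [hP]

variable {F : Type*} [Field F] [Fintype F] {κ ι : Type*} [Fintype κ] [DecidableEq κ] [Fintype ι]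

/-- `sum_qSum_le` for the characters of a subgroup `G` which contains all points
`h² B_j + h A_j + C_j`. -/
theorem sum_sub_le (h2 : (2 : F) ≠ 0) (B : ι → κ → F[X])
    (hB : ∀ e : κ ↪ ι, (bMat B e).det ≠ 0) {ε : ℝ} (hε : 0 < ε) :
    ∃ (Q : F[X]) (c : ℕ), Q ≠ 0 ∧ ∀ l Y : ℕ, Y + c ≤ 2 * l → ∀ (A C : ι → κ → F[X])
      (G : AddSubgroup (κ → F[X])) (v : ι → degreeLT F l → G)
      (_ : ∀ j h, (v j h : κ → F[X]) = (h : F[X]) ^ 2 • B j + (h : F[X]) • A j + C j)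
      (χ : AddChar G ℂ),
      (∃ x : κ → F[X], (∀ k, x k ∈ degreeLT F Y) ∧ ∃ hx : Q • x ∈ G, χ ⟨Q • x, hx⟩ ≠ 1) →
      ∑ j, ‖∑ h, χ (v j h)‖ ≤
        (Fintype.card κ + ε * Fintype.card ι) * (Fintype.card F : ℝ) ^ l := by
  obtain ⟨Q, c, hQ, h⟩ := sum_qSum_le h2 B hB hε
  refine ⟨Q, c, hQ, fun l Y hY A C G v hv χ ⟨x, hx, hxG, hχ⟩ => ?_⟩
  obtain ⟨χ', hχ'⟩ := exists_ext_char (CharP.char_is_prime F (ringChar F))
    (fun v : κ → F[X] => by
      funext k
      rw [Pi.smul_apply, nsmul_eq_mul, CharP.cast_eq_zero, zero_mul, Pi.zero_apply]) G χ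
  have h1 := h l Y hY A C χ' ⟨x, hx, by rwa [← hχ' ⟨Q • x, hxG⟩] at hχ⟩
  refine le_trans (le_of_eq (Finset.sum_congr rfl fun j _ => ?_)) h1
  rw [qSum]
  congr 1
  refine Finset.sum_congr rfl fun k _ => ?_
  rw [← hχ', hv]

end Vale.Agent.P011.H167

namespace Vale.Agent.P011.H167

/-- The family of moves `h² B_j + h A_j + C_j` as an instance of `H158.Equi`. -/
theorem equi_of_family {F : Type} [Field F] [Fintype F] {κ ι : Type} [Fintype κ] [DecidableEq κ]
    [Fintype ι] [Nonempty ι] (h2 : (2 : F) ≠ 0) (B : ι → κ → F[X])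
    (hB : ∀ e : κ ↪ ι, (bMat B e).det ≠ 0) {ε : ℝ} (hε : 0 < ε) :
    ∃ (Q : F[X]) (c : ℕ), Q ≠ 0 ∧ ∀ l Y : ℕ, Y + c ≤ 2 * l → ∀ (A C : ι → κ → F[X])
      (G : AddSubgroup (κ → F[X])) [Fintype G] (G0 G1 : AddSubgroup G) (Mv : Set G) (Z : G),
      (∀ x ∈ G1, ∃ y : κ → F[X], (∀ k, y k ∈ degreeLT F Y) ∧ (x : κ → F[X]) = Q • y) →
      (∀ j, ∀ h ∈ degreeLT F l, ∃ hm : h ^ 2 • B j + h • A j + C j ∈ G,
        (⟨_, hm⟩ : G) ∈ Mv ∧ (⟨_, hm⟩ : G) - Z ∈ G0) →
      H158.Equi G0 G1 Mv Z (Fintype.card κ / Fintype.card ι + ε) := by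
  obtain ⟨Q, c, hQ, H⟩ := sum_sub_le h2 B hB hε
  refine ⟨Q, c, hQ, fun l Y hY A C G _ G0 G1 Mv Z hG1 hmem => ?_⟩
  obtain ⟨v, hv, hMv, hG0⟩ : ∃ v : ι → degreeLT F l → G,
      (∀ j h, (v j h : κ → F[X]) = (h : F[X]) ^ 2 • B j + (h : F[X]) • A j + C j) ∧
      (∀ j h, v j h ∈ Mv) ∧ ∀ j h, v j h - Z ∈ G0 :=
    ⟨fun j h => ⟨_, (hmem j h h.2).choose⟩, fun j h => rfl,
      fun j h => (hmem j h h.2).choose_spec.1, fun j h => (hmem j h h.2).choose_spec.2⟩
  have hι : (0 : ℝ) < Fintype.card ι := by exact_mod_cast Fintype.card_pos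
  have hq : (0 : ℝ) < (Fintype.card F : ℝ) ^ l := by
    have : (0 : ℝ) < Fintype.card F := by exact_mod_cast Fintype.card_pos
    positivity
  have hcard : (Fintype.card (degreeLT F l) : ℝ) = (Fintype.card F : ℝ) ^ l := by
    rw [card_degreeLT]
    push_cast
    rfl
  obtain ⟨s, hs⟩ : ∃ s : ℝ, s = 1 / (Fintype.card ι * (Fintype.card F : ℝ) ^ l) := ⟨_, rfl⟩
  have hs0 : 0 < s := by rw [hs]; positivity
  refine ⟨ι × degreeLT F l, inferInstance, fun _ => s, fun ω => v ω.1 ω.2, fun _ => hs0.le, ?_,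
    fun ω => hMv _ _, fun ω => hG0 _ _, fun ψ ⟨x, hx, hψ⟩ => ?_⟩
  · rw [Finset.sum_const, Finset.card_univ, Fintype.card_prod, nsmul_eq_mul, hs]
    push_cast
    rw [hcard]
    field_simp
  · obtain ⟨y, hy, hxy⟩ := hG1 x hx
    have h1 := H l Y hY A C G v hv ψ
      ⟨y, hy, by rw [← hxy]; exact x.2, by
        have : (⟨Q • y, by rw [← hxy]; exact x.2⟩ : G) = x := Subtype.ext hxy.symm
        rw [this]; exact hψ⟩
    rw [← Finset.mul_sum, norm_mul, Complex.norm_real, Real.norm_of_nonneg hs0.le,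
      Fintype.sum_prod_type]
    calc s * ‖∑ j, ∑ h : degreeLT F l, ψ (v j h)‖
        ≤ s * ∑ j, ‖∑ h : degreeLT F l, ψ (v j h)‖ := by
          gcongr
          exact norm_sum_le _ _
      _ ≤ s * ((Fintype.card κ + ε * Fintype.card ι) * (Fintype.card F : ℝ) ^ l) := by
          gcongr
      _ = _ := by
          rw [hs]
          field_simp

end Vale.Agent.P011.H167
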