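import Vale.Agent.P011.H167.TwoNormP

/-!
# (TN*), function fields, every prime degree (helper167)

`R' / R` Galois of prime degree `p` (also `p = char`): for every `c' ≠ 0` there is `c ≠ 0` in
`OT T` with `TN (OT T) (SpF pl) R R' c c'`.
-/

open Polynomial Module

set_option linter.unusedSectionVars false
set_option linter.style.haveILetI false

namespace Vale.Agent.P011.H167.TNP

open Vale.Agent.P011.H738 Vale.Agent.P011.H271 Vale.Agent.P011.H271.S3 Vale.Agent.P011.H973.PF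
open Vale.Agent.P011.H511.FF Vale.Agent.P011.H74.Odd
open Vale.Agent.P011.H699.Odd (Near TN Itg)

/-- weakening of the right radius -/
theorem tn_mono {K : Type} [Field K] [GFF K] {T : Set (Place K)} {J : Type}
    {Sp : J → K[X] → Prop} {R R' : Type} [Field R] [Field R'] [Algebra K R] [Algebra R R']
    [Algebra K R'] [IsScalarTower K R R'] [FiniteDimensional K R'] {c c' c'' : K}
    (h0 : c' ≠ 0) (h0' : c'' ≠ 0) (hle : ∀ V ∈ T, V.abv c'' ≤ V.abv c')
    (h : TN (OT T) Sp R R' c c'') : TN (OT T) Sp R R' c c' := by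
  intro x hx hn
  obtain ⟨j, hj⟩ := h x hx hn
  refine ⟨j, ?_⟩
  intro M _ _ _ _ _ P hP hsf d hd
  obtain ⟨x1, y, hx1, hy, hxy, h1, h2⟩ := hj M P hP hsf d hd
  refine ⟨x1, y, hx1, hy, hxy, ?_, h2⟩
  rw [near_iff h0'] at h1
  rw [near_iff h0]
  intro V hV W hW
  exact (h1 V hV W hW).trans ((ab_le_iff hW _ _).2 (hle V hV))

/-- a nonzero scalar which is small at finitely many places -/
theorem small_scalar {K : Type} [Field K] [GFF K] (T : Finset (Place K)) (δ : Place K → ℝ)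
    (hδ : ∀ V, 0 < δ V) : ∃ c : K, c ≠ 0 ∧ ∀ V ∈ T, V.abv c < δ V := by
  choose t ht using fun V : Place K => H73.Sp.exists_small' V (hδ V)
  obtain ⟨c, hc, h⟩ := weakM T (fun V => (t V : K)) (fun V _ => (t V).ne_zero) (fun _ => 1)
    fun _ _ => one_pos
  refine ⟨c, hc, fun V hV => ?_⟩
  have h1 : V.abv (c / (t V : K)) ≤ 1 := by
    have h2 := V.nonarch (c / (t V : K) - 1) 1
    rw [sub_add_cancel, map_one] at h2
    exact h2.trans (max_le (h V hV).le le_rfl)
  rw [map_div₀, div_le_one (V.abv.pos (t V).ne_zero)] at h1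
  exact h1.trans_lt (ht V)

/-- a scalar which is smaller than given radii above a finite set of places -/
theorem exists_scalar_below {K : Type} [Field K] [GFF K] {T : Set (Place K)} (hT : T.Finite)
    {R : Type} [Field R] [Algebra K R] [FiniteDimensional K R] {I : Type} (I0 : Finset I)
    (b : I → Place R → R) (hb : ∀ i ∈ I0, ∀ V ∈ T, ∀ w : Place R, Ab w V → b i w ≠ 0) :
    ∃ c : K, c ≠ 0 ∧ (∀ V ∈ T, V.abv c < 1) ∧ ∀ i ∈ I0,
      ∀ V ∈ T, ∀ w : Place R, Ab w V → w.abv (algebraMap K R c) < w.abv (b i w) := by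
  classical
  haveI : GFF R := Hey.H63.gff_of_finite (k := K)
  have h1 : ∀ V : Place K, ∃ δ : ℝ, 0 < δ ∧ δ ≤ 1 ∧ ∀ i ∈ I0, ∀ w : Place R, V ∈ T → Ab w V →
      ∀ x : K, V.abv x < δ → w.abv (algebraMap K R x) < w.abv (b i w) := by
    intro V
    by_cases hV : V ∈ T
    · have hfin : {w : Place R | ∃ v ∈ ({V} : Set (Place K)), Av' w v}.Finite :=
        above_finite (Set.finite_singleton V)
      have h2 : ∀ q : I × Place R, ∃ δ : ℝ, 0 < δ ∧ (q.1 ∈ I0 → Ab q.2 V → ∀ x : K,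
          V.abv x < δ → q.2.abv (algebraMap K R x) < q.2.abv (b q.1 q.2)) := by
        rintro ⟨i, w⟩
        by_cases hw : i ∈ I0 ∧ Ab w V
        · obtain ⟨δ, hδ, h3⟩ := hw.2.small (w.abv.pos (hb i hw.1 V hV w hw.2))
          exact ⟨δ, hδ, fun _ _ => h3⟩
        · exact ⟨1, one_pos, fun h h' => absurd ⟨h, h'⟩ hw⟩
      choose δ hδ h3 using h2
      obtain ⟨η, hη, hη2⟩ := exists_lb (I0 ×ˢ hfin.toFinset) δ fun w _ => hδ w
      refine ⟨min η 1, lt_min hη one_pos, min_le_right _ _, fun i hi w _ hw x hx => ?_⟩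
      exact h3 (i, w) hi hw x ((hx.trans_le (min_le_left _ _)).trans_le
        (hη2 (i, w) (Finset.mem_product.2 ⟨hi, hfin.mem_toFinset.2 ⟨V, rfl, av_of_ab hw⟩⟩)))
    · exact ⟨1, one_pos, le_rfl, fun _ _ w h => absurd h hV⟩
  choose δ hδ hδ1 h2 using h1
  obtain ⟨c, hc, hcδ⟩ := small_scalar hT.toFinset δ hδ
  exact ⟨c, hc, fun V hV => (hcδ V (hT.mem_toFinset.2 hV)).trans_le (hδ1 V),
    fun i hi V hV w hw => h2 V i hi w hV hw c (hcδ V (hT.mem_toFinset.2 hV))⟩

/-- **(TN*), every prime degree.** -/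
theorem tn_star {K : Type} [Field K] [GFF K] {T : Set (Place K)} (hT : T.Finite) {J : Type}
    (pl : J → Set (Place K)) (hJ : ∀ B : Finset (Place K), (∀ V ∈ B, V ∉ T) → ∃ j, ↑B ⊆ pl j)
    {p : ℕ} (hp : p.Prime) {R R' : Type} [Field R]
    [Field R'] [Algebra K R] [Algebra R R'] [Algebra K R'] [IsScalarTower K R R']
    [FiniteDimensional K R] [IsGalois R R'] (hdeg : finrank R R' = p) {c' : K} (hc0 : c' ≠ 0) :
    ∃ c ∈ OT T, c ≠ 0 ∧ TN (OT T) (SpF pl) R R' c c' := by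
  classical
  haveI : GFF R := Hey.H63.gff_of_finite (k := K)
  haveI : FiniteDimensional R R' := Module.finite_of_finrank_pos (by rw [hdeg]; exact hp.pos)
  haveI : FiniteDimensional K R' := FiniteDimensional.trans K R R'
  -- a smaller right radius
  obtain ⟨m, hm0, hm1⟩ := small_scalar hT.toFinset (fun V => min (V.abv c') 1)
    fun V => lt_min (V.abv.pos hc0) one_pos
  have hmc : ∀ V ∈ T, V.abv m ≤ V.abv c' := fun V hV =>
    ((hm1 V (hT.mem_toFinset.2 hV)).trans_le (min_le_left _ _)).le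
  have hm11 : ∀ V ∈ T, V.abv m ≤ 1 := fun V hV =>
    ((hm1 V (hT.mem_toFinset.2 hV)).trans_le (min_le_right _ _)).le
  have hA0 : {w : Place R | ∃ V ∈ T, Av' w V}.Finite := above_finite hT
  have h2 : ∀ A : Finset (Place R), ∃ b : Place R → R, (∀ w ∈ A, b w ≠ 0) ∧
      ((∀ w ∈ A, ∃ V ∈ T, Ab w V) → TwoF R R' A b fun _ => algebraMap K R m) := by
    intro A
    by_cases hA : ∀ w ∈ A, ∃ V ∈ T, Ab w V
    · obtain ⟨b, hb, h⟩ := twoF_all hp (R := R) (R' := R') hdeg A
        (fun _ => algebraMap K R m) (fun w hw => ⟨(_root_.map_ne_zero _).2 hm0, by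
          obtain ⟨V, hV, h⟩ := hA w hw
          exact h.le_one (hm11 V hV)⟩)
      exact ⟨b, fun w hw => (hb w hw).1, fun _ => h⟩
    · exact ⟨fun _ => 1, fun _ _ => one_ne_zero, fun h => absurd h hA⟩
  choose b hb0 hb using h2
  let b' : Finset (Place R) → Place R → R := fun A w => if w ∈ A then b A w else 1
  have hb' : ∀ A w, w ∈ A → b' A w = b A w := fun A w hw => if_pos hw
  obtain ⟨b0, hb00, hb01, hb02⟩ := exists_scalar_below (K := K) hT hA0.toFinset.powerset b'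
    fun A _ V _ w _ => by
      by_cases hw : w ∈ A
      · rw [hb' A w hw]
        exact hb0 A w hw
      · change (if w ∈ A then b A w else 1) ≠ 0
        rw [if_neg hw]
        exact one_ne_zero
  obtain ⟨c, hcc0, hcc⟩ := small_scalar hT.toFinset
    (fun V => V.abv b0) fun V => V.abv.pos hb00
  refine ⟨c, fun V hV => ((hcc V (hT.mem_toFinset.2 hV)).trans (hb01 V hV)).le, hcc0, ?_⟩
  refine tn_mono hc0 hm0 hmc ?_
  refine tn_of_twoF hT pl hJ (b := b0) hcc0 (fun V hV => hcc V (hT.mem_toFinset.2 hV)) hm0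
    fun A hA => ?_
  intro x hx hxA
  refine hb A hA x hx fun w hw => (hxA w hw).trans ?_
  obtain ⟨V, hV, hwV⟩ := hA w hw
  rw [← hb' A w hw]
  refine hb02 A (Finset.mem_powerset.2 fun w' hw' => ?_) V hV w hwV
  obtain ⟨V', hV', h'⟩ := hA w' hw'
  exact hA0.mem_toFinset.2 ⟨V', hV', av_of_ab h'⟩

end Vale.Agent.P011.H167.TNP
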