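import Vale.Agent.P011.H167.NiI
import Vale.Agent.P011.H74.Odd.TN
import Vale.Agent.P011.H73.Sp2

/-!
# The two norms lemma over function fields, every prime degree (helper167)

`R' / R` is Galois of prime degree `p` (also `p = char R`).  Text of helper74's `two_norm`; the
radii `b` of `x` depend on the radii `c` of `x₁`.
-/

open Polynomial Module TensorProduct

set_option linter.unusedSectionVars false
set_option linter.style.haveILetI false

namespace Vale.Agent.P011.H167.TNP

open Vale.Agent.P011.H738 Vale.Agent.P011.H271 Vale.Agent.P011.H271.S3 Vale.Agent.P011.H973.PF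
open Vale.Agent.P011.H511.FF Vale.Agent.P011.H74.Odd
open Vale.Agent.P011.Hey.H63 (LocN finite_not_unr loc_unram Unr)

/-- **The two norms lemma over function fields, every prime degree.** -/
theorem two_norm_all {p : ℕ} (hp : p.Prime) {R R' : Type} [Field R]
    [GFF R] [Field R'] [Algebra R R'] [FiniteDimensional R R'] [IsGalois R R']
    (hdeg : finrank R R' = p) (A : Finset (Place R)) :
    ∃ v0 : Place R, v0 ∉ A ∧ ∀ c : Place R → R, (∀ v ∈ A, c v ≠ 0 ∧ v.abv (c v) ≤ 1) →
      ∃ b : Place R → R, (∀ v ∈ A, b v ≠ 0 ∧ v.abv (b v) ≤ v.abv (c v)) ∧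
      ∀ x : R, x ≠ 0 → (∀ v ∈ A, v.abv (x - 1) < v.abv (b v)) →
      ∃ V : Finset (Place R), Disjoint V A ∧
      ∀ (M : Type) [Field M] [Algebra R M] [FiniteDimensional R M] [Algebra.IsSeparable R M],
      (∀ v, v = v0 ∨ v ∈ V → TS R M v) →
      ∀ A2 : Finset (Place R), Disjoint V A2 →
      ∀ g : Place R → R, (∀ v, v ∈ A ∨ v ∈ A2 → g v ≠ 0) →
      ∃ (x1 : R') (y : M), y ≠ 0 ∧ x = Algebra.norm R x1 * Algebra.norm R y ∧
        (∀ v ∈ A, ∀ w : Place R', Ab w v → w.abv (x1 - 1) < w.abv (algebraMap R R' (c v))) ∧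
        ∀ v, v ∈ A ∨ v ∈ A2 → ∀ w : Place M, Ab w v →
          w.abv (y - 1) < w.abv (algebraMap R M (g v)) := by
  classical
  haveI : GFF R' := Hey.H63.gff_of_finite (k := R)
  obtain ⟨s, G⟩ := Ni.exists_gn (k := R) (E := R') hp hdeg
  obtain ⟨v0, hv0, hr, hn⟩ := Ni.n2 hp R R' hdeg A (Finset.finite_toSet A)
  refine ⟨v0, hv0, fun c hc => ?_⟩
  -- radii below
  have hfA : {w : Place R' | ∃ v ∈ (A : Set (Place R)), Av' w v}.Finite :=
    above_finite (Finset.finite_toSet A)
  choose be' hbe0 using fun W : Place R' => below_av (k := R) W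
  obtain ⟨ε, hε, hεc⟩ := exists_lb hfA.toFinset
    (fun w => w.abv (algebraMap R R' (c (be' w)))) fun w hw => by
      obtain ⟨v, hv, hvw⟩ := hfA.mem_toFinset.1 hw
      have h1 : be' w = v := (hbe0 w).unique hvw
      rw [h1]
      exact w.abv.pos ((_root_.map_ne_zero _).2 (hc v hv).1)
  obtain ⟨δ, hδ, hδN⟩ := H580.norm_near hp hdeg s G.gen A hε
  choose δL hδL hLoc using Ni.lo R R'
  choose t ht using fun v : Place R => H73.Sp.exists_small' v
    (lt_min hδ (hδL v))
  let b : Place R → R := fun v => if v.abv (t v : R) ≤ v.abv (c v) then (t v : R) else c v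
  have hbc : ∀ v : Place R, v.abv (b v) ≤ v.abv (c v) := by
    intro v
    change v.abv (if _ then _ else _) ≤ _
    split_ifs with h2
    · exact h2
    · exact le_rfl
  have hbt : ∀ v : Place R, v.abv (b v) ≤ v.abv (t v : R) := by
    intro v
    change v.abv (if _ then _ else _) ≤ _
    split_ifs with h2
    · exact le_rfl
    · exact (not_le.1 h2).le
  have hb0 : ∀ v ∈ A, b v ≠ 0 := by
    intro v hv
    change (if _ then _ else _) ≠ _
    split_ifs with h2
    · exact (t v).ne_zero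
    · exact (hc v hv).1
  have hb1 : ∀ v ∈ A, v.abv (b v) ≤ 1 := fun v hv => (hbc v).trans (hc v hv).2
  refine ⟨b, fun v hv => ⟨hb0 v hv, hbc v⟩, fun x hx hxA => ?_⟩
  have hfin := finite_not_locN (E := R') hx
  have hVA : ∀ v ∈ A, LocN R' x v := fun v hv =>
    hLoc v x ((hxA v hv).trans_le ((hbt v).trans ((ht v).le.trans (min_le_right _ _))))
  refine ⟨hfin.toFinset, ?_, fun M _ _ _ _ hTS A2 hA2 g hg => ?_⟩
  · rw [Finset.disjoint_left]
    intro v hv hvA
    exact (hfin.mem_toFinset.1 hv) (hVA v hvA)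
  haveI : GFF M := Hey.H63.gff_of_finite (k := R)
  have hTV : ∀ v ∈ hfin.toFinset, TS R M v := fun v hv => hTS v (Or.inr hv)
  let φ : ∀ v : Place R, v ∈ hfin.toFinset → (M →ₐ[R] v.comp) := fun v hv =>
    (hTV v hv).exists_emb.some
  have hfS : {W : Place M | ∃ v ∈ ((A ∪ A2 : Finset (Place R)) : Set (Place R)), Av' W v}.Finite :=
    above_finite (Finset.finite_toSet (A ∪ A2))
  choose be hbe using fun W : Place M => below_av (k := R) W
  have hbe' : ∀ {W : Place M} {v : Place R}, Ab W v → be W = v := fun h =>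
    (hbe _).unique (av_of_ab h)
  -- radii
  let G' : Place R → R := fun v => if v ∈ A then (if v.abv (g v) ≤ v.abv (b v) then g v else b v)
    else g v
  have hG0 : ∀ v, v ∈ A ∨ v ∈ A2 → G' v ≠ 0 := by
    intro v hv
    change (if _ then _ else _) ≠ _
    split_ifs with h1 h2
    · exact hg v hv
    · exact hb0 v h1
    · exact hg v hv
  have hGg : ∀ v : Place R, v.abv (G' v) ≤ v.abv (g v) := by
    intro v
    change v.abv (if _ then _ else _) ≤ _
    split_ifs with h1 h2
    · exact le_rfl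
    · exact (not_le.1 h2).le
    · exact le_rfl
  have hGc : ∀ v ∈ A, v.abv (G' v) ≤ v.abv (b v) := by
    intro v hv
    change v.abv (if _ then _ else _) ≤ _
    rw [if_pos hv]
    split_ifs with h2
    · exact h2
    · exact le_rfl
  obtain ⟨y, hy0, hy1, hy2⟩ := two_norm_core hp (Ni.n1 hp) hdeg hr hn hx hfin.toFinset
    (fun v hv => by
      by_contra hcon
      exact hv (hfin.mem_toFinset.2 hcon)) (hTS v0 (Or.inl rfl)) hTV φ
    hfS.toFinset (fun v hv h => by
      obtain ⟨v', hv', hW⟩ := hfS.mem_toFinset.1 h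
      have h1 : v = v' := (av_of_ab (plE_ab (φ v hv))).unique hW
      subst h1
      rcases Finset.mem_union.1 hv' with h2 | h2
      · exact (hfin.mem_toFinset.1 hv) (hVA v h2)
      · exact Finset.disjoint_left.1 hA2 hv h2)
    (fun W => algebraMap R M (G' (be W))) (fun W hW => by
      obtain ⟨v', hv', hW'⟩ := hfS.mem_toFinset.1 hW
      have h1 : be W = v' := (hbe W).unique hW'
      rw [h1]
      exact (_root_.map_ne_zero _).2 (hG0 _ (Finset.mem_union.1 hv')))
  have hynear : ∀ v, v ∈ A ∨ v ∈ A2 → ∀ w : Place M, Ab w v →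
      w.abv (y - 1) < w.abv (algebraMap R M (G' v)) := by
    intro v hv w hw
    have h1 := hy2 w (hfS.mem_toFinset.2 ⟨v, Finset.mem_union.2 hv, av_of_ab hw⟩)
    rwa [hbe' hw] at h1
  have hN0 : Algebra.norm R y ≠ 0 := Algebra.norm_ne_zero_iff.2 hy0
  have hb0' : x / Algebra.norm R y ≠ 0 := div_ne_zero hx hN0
  have hbA : ∀ v ∈ A, v.abv (x / Algebra.norm R y - 1) < v.abv (b v) := by
    intro v hv
    rw [div_eq_mul_inv]
    refine close_mul v (hb1 v hv) (hxA v hv) (close_inv v (hb1 v hv) ?_)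
    refine norm_near (hb0 v hv) (hb1 v hv) fun W hW => ?_
    refine (hynear v (Or.inl hv) W hW).trans_le ?_
    exact (ab_le_iff hW _ _).2 (hGc v hv)
  obtain ⟨x0, hx0⟩ := Hey.hasse_norm hp hdeg _ hy1
  have hx00 : x0 ≠ 0 := by
    rintro rfl
    rw [Algebra.norm_zero] at hx0
    exact hb0' hx0.symm
  obtain ⟨x1, hx1, hx2⟩ := hδN (Units.mk0 x0 hx00) fun v hv => by
    rw [Units.val_mk0, hx0]
    exact (hbA v hv).trans_le ((hbt v).trans ((ht v).le.trans (min_le_left _ _)))
  refine ⟨x1, y, hy0, ?_, fun v hv w hw => ?_, fun v hv w hw =>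
    (hynear v hv w hw).trans_le ((ab_le_iff hw _ _).2 (hGg v))⟩
  · rw [hx1, Units.val_mk0, hx0, div_mul_cancel₀ _ hN0]
  · have h1 := hx2 v hv w (av_of_ab hw)
    have h2 := hεc w (hfA.mem_toFinset.2 ⟨v, hv, av_of_ab hw⟩)
    have h3 : be' w = v := (hbe0 w).unique (av_of_ab hw)
    rw [h3] at h2
    exact h1.trans_le h2

/-- the door `TwoF` of helper74, every prime degree -/
theorem twoF_all {p : ℕ} (hp : p.Prime) {R R' : Type} [Field R]
    [GFF R] [Field R'] [Algebra R R'] [FiniteDimensional R R'] [IsGalois R R']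
    (hdeg : finrank R R' = p) (A : Finset (Place R)) (c : Place R → R)
    (hc : ∀ v ∈ A, c v ≠ 0 ∧ v.abv (c v) ≤ 1) :
    ∃ b : Place R → R, (∀ v ∈ A, b v ≠ 0 ∧ v.abv (b v) ≤ v.abv (c v)) ∧ TwoF R R' A b c := by
  classical
  obtain ⟨v0, hv0, h⟩ := two_norm_all hp (R := R) (R' := R') hdeg A
  obtain ⟨b, hb, h⟩ := h c hc
  refine ⟨b, hb, ?_⟩
  intro x hx hxA
  obtain ⟨V, hV, h1⟩ := h x hx hxA
  refine ⟨insert v0 V, Finset.disjoint_insert_left.2 ⟨hv0, hV⟩, fun M _ _ _ _ hTS g hg => ?_⟩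
  obtain ⟨x1, y, hy, hxy, h2, h3⟩ := h1 M (fun v hv => hTS v (Finset.mem_insert.2 hv)) ∅
    (Finset.disjoint_empty_right _) g (fun v hv => hg v (by simpa using hv))
  exact ⟨x1, y, hy, hxy, h2, fun v hv => h3 v (Or.inl hv)⟩

end Vale.Agent.P011.H167.TNP
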