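import Vale.Agent.P011.H167.PolyMul

/-!
Weyl's inequality in the inverse direction for quadratic polynomials over `F_q[t]`, `q` odd:
if `E_(deg h < l) χ(h² B + h A + C)` is not small, then `χ` is trivial on all multiples of degree
`< 2 l - O(1)` of `Q B` for one nonzero polynomial `Q` which depends only on `q` and the size.
-/

open Polynomial Module

set_option linter.unusedSectionVars false

noncomputable section

namespace Vale.Agent.P011.H167

variable {F : Type*} [Field F] [Fintype F]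

instance fintype_degreeLT (n : ℕ) : Fintype (degreeLT F n) :=
  Fintype.ofEquiv _ (degreeLTEquiv F n).symm.toEquiv

theorem card_degreeLT (n : ℕ) : Fintype.card (degreeLT F n) = Fintype.card F ^ n := by
  rw [Module.card_eq_pow_finrank (K := F), finrank_degreeLT]

/-- Characters of a group killed by `p` have absolute value one. -/
theorem norm_char (F : Type*) [Field F] [Fintype F] {V : Type*} [AddCommGroup V] [Module F[X] V]
    (χ : AddChar V ℂ) (v : V) : ‖χ v‖ = 1 := by
  have hq : 0 < Fintype.card F := Fintype.card_pos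
  have h1 : ((Fintype.card F : ℕ) : F[X]) = 0 := by
    rw [← C_eq_natCast, Nat.cast_card_eq_zero, map_zero]
  have h2 : (Fintype.card F) • v = 0 := by
    rw [← Nat.cast_smul_eq_nsmul F[X], h1, zero_smul]
  have h3 : χ v ^ Fintype.card F = 1 := by
    rw [← AddChar.map_nsmul_eq_pow, h2, AddChar.map_zero_eq_one]
  exact Complex.norm_eq_one_of_pow_eq_one h3 hq.ne'

theorem conj_char (F : Type*) [Field F] [Fintype F] {V : Type*} [AddCommGroup V] [Module F[X] V]
    (χ : AddChar V ℂ) (v : V) : (starRingEnd ℂ) (χ v) = χ (-v) := by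
  rw [AddChar.map_neg_eq_inv, Complex.inv_def, Complex.normSq_eq_norm_sq, norm_char F χ v]
  simp

variable {V : Type*} [AddCommGroup V] [Module F[X] V]

/-- The subspace of all `δ` of degree `< l` with `χ (h δ B) = 1` for all `h` of degree `< l`. -/
def wSub (χ : AddChar V ℂ) (B : V) (l : ℕ) : Submodule F F[X] where
  carrier := {δ | δ ∈ degreeLT F l ∧ ∀ h ∈ degreeLT F l, χ ((h * δ) • B) = 1}
  zero_mem' := ⟨zero_mem _, fun h _ => by simp⟩
  add_mem' := by
    rintro a b ⟨ha, ha'⟩ ⟨hb, hb'⟩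
    refine ⟨add_mem ha hb, fun h hh => ?_⟩
    rw [mul_add, add_smul, AddChar.map_add_eq_mul, ha' h hh, hb' h hh, one_mul]
  smul_mem' := by
    rintro c a ⟨ha, ha'⟩
    refine ⟨Submodule.smul_mem _ c ha, fun h hh => ?_⟩
    rw [mul_smul_comm, ← smul_mul_assoc]
    exact ha' _ (Submodule.smul_mem _ c hh)

theorem wSub_le (χ : AddChar V ℂ) (B : V) (l : ℕ) : wSub (F := F) χ B l ≤ degreeLT F l :=
  fun _ h => h.1

/-- The quadratic exponential sum. -/
def qSum (F : Type*) [Field F] [Fintype F] {V : Type*} [AddCommGroup V] [Module F[X] V]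
    (χ : AddChar V ℂ) (B A C : V) (l : ℕ) : ℂ :=
  ∑ h : degreeLT F l, χ (((h : F[X]) ^ 2) • B + (h : F[X]) • A + C)

/-- The linear character obtained by differencing. -/
def diffChar (χ : AddChar V ℂ) (B : V) (l : ℕ) (δ : F[X]) : AddChar (degreeLT F l) ℂ where
  toFun h := χ ((2 * (h : F[X]) * δ) • B)
  map_zero_eq_one' := by simp
  map_add_eq_mul' a b := by
    rw [← AddChar.map_add_eq_mul, ← add_smul]
    congr 2
    push_cast
    ring

theorem diffChar_apply (χ : AddChar V ℂ) (B : V) (l : ℕ) (δ : F[X]) (h : degreeLT F l) :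
    diffChar χ B l δ h = χ ((2 * (h : F[X]) * δ) • B) := rfl

theorem diffChar_eq_one_iff (h2 : (2 : F) ≠ 0) (χ : AddChar V ℂ) (B : V) (l : ℕ)
    (δ : degreeLT F l) :
    diffChar χ B l (δ : F[X]) = 0 ↔ (δ : F[X]) ∈ wSub (F := F) χ B l := by
  constructor
  · intro h
    refine ⟨δ.2, fun y hy => ?_⟩
    have h1 := DFunLike.congr_fun h
      (⟨(2 : F)⁻¹ • y, Submodule.smul_mem _ _ hy⟩ : degreeLT F l)
    rw [diffChar_apply, AddChar.zero_apply] at h1
    rw [← h1]
    have h3 : (2 : F[X]) * C ((2 : F)⁻¹) = 1 := by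
      rw [show (2 : F[X]) = C (2 : F) from (map_ofNat C 2).symm, ← C_mul, mul_inv_cancel₀ h2, C_1]
    have h4 : y * (δ : F[X]) = 2 * ((2 : F)⁻¹ • y) * (δ : F[X]) := by
      rw [Algebra.smul_def, Polynomial.algebraMap_eq, ← mul_assoc, h3, one_mul]
    rw [h4]
  · rintro ⟨-, h⟩
    ext y
    rw [diffChar_apply, AddChar.zero_apply, ← h ((2 : F) • (y : F[X]))
      (Submodule.smul_mem _ _ y.2)]
    rw [Algebra.smul_def, Polynomial.algebraMap_eq, map_ofNat]

/-- Weyl differencing. -/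
theorem norm_qSum_sq_le (h2 : (2 : F) ≠ 0) (χ : AddChar V ℂ) (B A C : V) (l : ℕ) :
    ‖qSum F χ B A C l‖ ^ 2 ≤
      (Fintype.card F : ℝ) ^ l * (Nat.card (wSub (F := F) χ B l) : ℝ) := by
  classical
  obtain ⟨φ, hφ⟩ : ∃ φ : degreeLT F l → ℂ,
      φ = fun h : degreeLT F l => χ (((h : F[X]) ^ 2) • B + (h : F[X]) • A + C) := ⟨_, rfl⟩
  have hS : qSum F χ B A C l = ∑ h, φ h := by rw [qSum, hφ]
  have hprod : ∀ h δ : degreeLT F l, φ (h + δ) * (starRingEnd ℂ) (φ h) =
      χ (((δ : F[X]) ^ 2) • B + (δ : F[X]) • A) * diffChar χ B l (δ : F[X]) h := by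
    intro h δ
    rw [hφ, diffChar_apply]
    simp only
    rw [conj_char F, ← AddChar.map_add_eq_mul, ← AddChar.map_add_eq_mul]
    congr 1
    push_cast
    module
  have h3 : (‖qSum F χ B A C l‖ ^ 2 : ℝ) =
      ‖∑ δ : degreeLT F l, ∑ h : degreeLT F l, φ (h + δ) * (starRingEnd ℂ) (φ h)‖ := by
    have h4 : ∑ δ : degreeLT F l, ∑ h : degreeLT F l, φ (h + δ) * (starRingEnd ℂ) (φ h) =
        (∑ h, φ h) * (starRingEnd ℂ) (∑ h, φ h) := by
      rw [Finset.sum_comm, map_sum, Finset.mul_sum]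
      refine Finset.sum_congr rfl fun h _ => ?_
      rw [Finset.sum_mul]
      exact Fintype.sum_equiv (Equiv.addLeft h) _ _ fun δ => rfl
    rw [h4, hS, norm_mul, RCLike.norm_conj, sq]
  rw [h3]
  have h5 : ∀ δ : degreeLT F l, ‖∑ h : degreeLT F l, φ (h + δ) * (starRingEnd ℂ) (φ h)‖ =
      if (δ : F[X]) ∈ wSub (F := F) χ B l then (Fintype.card F : ℝ) ^ l else 0 := by
    intro δ
    simp_rw [hprod]
    rw [← Finset.mul_sum, norm_mul, norm_char F, one_mul, AddChar.sum_eq_ite]
    by_cases h : diffChar χ B l (δ : F[X]) = 0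
    · rw [if_pos h, if_pos ((diffChar_eq_one_iff h2 χ B l δ).mp h), card_degreeLT]
      push_cast
      rw [norm_pow, Complex.norm_natCast]
    · rw [if_neg h, if_neg (fun h' => h ((diffChar_eq_one_iff h2 χ B l δ).mpr h')), norm_zero]
  refine (norm_sum_le _ _).trans ?_
  simp_rw [h5]
  rw [← Finset.sum_filter, Finset.sum_const, nsmul_eq_mul, mul_comm]
  refine mul_le_mul_of_nonneg_left ?_ (by positivity)
  have h6 : (Finset.univ.filter fun δ : degreeLT F l =>
      (δ : F[X]) ∈ wSub (F := F) χ B l).card = Nat.card (wSub (F := F) χ B l) := by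
    rw [← Fintype.card_subtype, ← Nat.card_eq_fintype_card]
    refine Nat.card_congr ⟨fun x => ⟨x.1.1, x.2⟩, fun x => ⟨⟨x.1, wSub_le χ B l x.2⟩, x.2⟩,
      fun x => rfl, fun x => rfl⟩
  rw [h6]

end Vale.Agent.P011.H167
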