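import Vale.Agent.P011.H167.WeylFF

/-!
The inverse theorem for quadratic exponential sums over `F_q[t]`, `q` odd, and its consequence for
families of leading vectors in general position.
-/

open Polynomial Module

set_option linter.unusedSectionVars false

noncomputable section

namespace Vale.Agent.P011.H167

variable {F : Type*} [Field F] [Fintype F]

/-- A nonzero polynomial divisible by all nonzero polynomials of degree at most `r`. -/
def univPoly (F : Type*) [Field F] [Fintype F] (r : ℕ) : F[X] := by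
  classical
  exact ∏ δ : degreeLT F (r + 1), if (δ : F[X]) = 0 then 1 else (δ : F[X])

theorem univPoly_ne_zero (r : ℕ) : univPoly F r ≠ 0 := by
  classical
  rw [univPoly, Finset.prod_ne_zero_iff]
  intro δ _
  split_ifs with h
  · exact one_ne_zero
  · exact h

theorem dvd_univPoly {r : ℕ} {δ : F[X]} (h0 : δ ≠ 0) (hδ : δ.natDegree ≤ r) :
    δ ∣ univPoly F r := by
  classical
  have h1 : δ ∈ degreeLT F (r + 1) := mem_degreeLT_of_natDegree (by omega)
  have h2 := Finset.dvd_prod_of_mem
    (fun δ : degreeLT F (r + 1) => if (δ : F[X]) = 0 then 1 else (δ : F[X]))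
    (Finset.mem_univ (⟨δ, h1⟩ : degreeLT F (r + 1)))
  simp only [if_neg h0] at h2
  rw [univPoly]
  exact h2

variable {V : Type*} [AddCommGroup V] [Module F[X] V]

/-- The inverse theorem: if `|E_(deg h < l) χ(h² B + h A + C)| ≥ ε`, and `ε² q ^ (r + 1) > 1`, then
`χ` is trivial on all `s R B`, `deg s < 2 l - O(1)`, with `R` depending only on `r`. -/
theorem char_eq_one_of_qSum (h2 : (2 : F) ≠ 0) {ε : ℝ} (hε : 0 < ε) {r : ℕ}
    (hr : 1 < ε ^ 2 * (Fintype.card F : ℝ) ^ (r + 1)) (χ : AddChar V ℂ) (B A C : V) {l : ℕ}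
    (hS : ε * (Fintype.card F : ℝ) ^ l ≤ ‖qSum F χ B A C l‖) {Y : ℕ}
    (hY : Y + (univPoly F r).natDegree + (2 * r + 1) ≤ 2 * l) :
    ∀ s ∈ degreeLT F Y, χ ((s * univPoly F r) • B) = 1 := by
  have hq : (0 : ℝ) < Fintype.card F := by exact_mod_cast Fintype.card_pos
  have hq1 : (1 : ℝ) < Fintype.card F := by exact_mod_cast Fintype.one_lt_card
  have hW : l ≤ finrank F (wSub (F := F) χ B l) + r := by
    have h3 := norm_qSum_sq_le h2 χ B A C l
    have h4 : (ε * (Fintype.card F : ℝ) ^ l) ^ 2 ≤ ‖qSum F χ B A C l‖ ^ 2 :=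
      pow_le_pow_left₀ (by positivity) hS 2
    have : FiniteDimensional F (wSub (F := F) χ B l) :=
      Submodule.finiteDimensional_of_le (wSub_le χ B l)
    have h5 : Nat.card (wSub (F := F) χ B l) =
        Fintype.card F ^ finrank F (wSub (F := F) χ B l) := by
      rw [Module.natCard_eq_pow_finrank (K := F), Nat.card_eq_fintype_card]
    rw [h5] at h3
    push_cast at h3
    obtain ⟨d, hd⟩ : ∃ d, d = finrank F (wSub (F := F) χ B l) := ⟨_, rfl⟩
    rw [← hd] at h3 ⊢
    by_contra hcon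
    push Not at hcon
    have h6 : ε ^ 2 * (Fintype.card F : ℝ) ^ l ≤ (Fintype.card F : ℝ) ^ d := by
      have h7 : (Fintype.card F : ℝ) ^ l * (ε ^ 2 * (Fintype.card F : ℝ) ^ l) ≤
          (Fintype.card F : ℝ) ^ l * (Fintype.card F : ℝ) ^ d := by
        calc (Fintype.card F : ℝ) ^ l * (ε ^ 2 * (Fintype.card F : ℝ) ^ l)
            = (ε * (Fintype.card F : ℝ) ^ l) ^ 2 := by ring
          _ ≤ _ := h4.trans h3
      exact le_of_mul_le_mul_left h7 (by positivity)
    have h7 : (Fintype.card F : ℝ) ^ (d + (r + 1)) ≤ (Fintype.card F : ℝ) ^ l :=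
      pow_le_pow_right₀ hq1.le (by omega)
    have h8 : (Fintype.card F : ℝ) ^ d * 1 <
        (Fintype.card F : ℝ) ^ d * (ε ^ 2 * (Fintype.card F : ℝ) ^ (r + 1)) :=
      mul_lt_mul_of_pos_left hr (by positivity)
    have h9 : (Fintype.card F : ℝ) ^ d * (ε ^ 2 * (Fintype.card F : ℝ) ^ (r + 1)) ≤
        ε ^ 2 * (Fintype.card F : ℝ) ^ l := by
      calc (Fintype.card F : ℝ) ^ d * (ε ^ 2 * (Fintype.card F : ℝ) ^ (r + 1))
          = ε ^ 2 * (Fintype.card F : ℝ) ^ (d + (r + 1)) := by rw [pow_add]; ring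
        _ ≤ _ := mul_le_mul_of_nonneg_left h7 (by positivity)
    linarith
  obtain ⟨δ, hδ0, hδr, hδ⟩ := exists_small_mul (wSub (F := F) χ B l) (wSub_le χ B l) hW
    { carrier := {u | χ (u • B) = 1}
      zero_mem' := by simp
      add_mem' := by
        intro a b ha hb
        rw [Set.mem_ofPred_eq] at ha hb ⊢
        rw [add_smul, AddChar.map_add_eq_mul, ha, hb, one_mul]
      neg_mem' := by
        intro a ha
        rw [Set.mem_ofPred_eq] at ha ⊢
        rw [neg_smul, AddChar.map_neg_eq_inv, ha, inv_one] }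
    (fun h hh w hw => hw.2 h hh)
  obtain ⟨u, hu⟩ := dvd_univPoly hδ0 hδr
  intro s hs
  have hu0 : u ≠ 0 := by
    rintro rfl
    rw [mul_zero] at hu
    exact univPoly_ne_zero r hu
  have hud : u.natDegree ≤ (univPoly F r).natDegree := by
    rw [hu, natDegree_mul hδ0 hu0]
    omega
  have hsu : s * u ∈ degreeLT F (2 * l - 2 * r - 1) := by
    by_cases hs0 : s = 0
    · rw [hs0, zero_mul]
      exact zero_mem _
    · have := natDegree_lt_of_mem hs0 hs
      apply mem_degreeLT_of_natDegree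
      rw [natDegree_mul hs0 hu0]
      omega
  have h3 : χ ((s * u * δ) • B) = 1 := hδ _ hsu
  rw [hu, show s * (δ * u) = s * u * δ by ring]
  exact h3

end Vale.Agent.P011.H167
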